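import Vale.Agent.P101.Basic

/-! Functional calculus, positivity and commutant API. -/

namespace Vale.Agent.P101
open Filter Topology
open scoped CStarAlgebra
universe u v

section
variable {G : Type*} [CStarAlgebra G] {H : Type*} [CStarAlgebra H]

lemma pos_iff [PartialOrder G] [StarOrderedRing G] {a : G} : Pos a ↔ 0 ≤ a :=
  CStarAlgebra.nonneg_iff_eq_star_mul_self.symm

lemma Pos.isSelfAdjoint {a : G} (h : Pos a) : IsSelfAdjoint a := by
  obtain ⟨b, rfl⟩ := h
  exact IsSelfAdjoint.star_mul_self b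

lemma Pos.map {a : G} (h : Pos a) (π : G →⋆ₐ[ℂ] H) : Pos (π a) := by
  obtain ⟨b, rfl⟩ := h
  exact ⟨π b, by simp [map_star]⟩

lemma pos_algebraMap_iff [Nontrivial G] {t : ℝ} : Pos (algebraMap ℝ G t) ↔ 0 ≤ t := by
  let _ := CStarAlgebra.spectralOrder G
  have _ := CStarAlgebra.spectralOrderedRing G
  rw [pos_iff]
  refine ⟨fun h => spectrum_nonneg_of_nonneg h ?_, fun h => ?_⟩
  · rw [spectrum.scalar_eq]; rfl
  · rw [Algebra.algebraMap_eq_smul_one]; exact smul_nonneg h zero_le_one

lemma map_cfc_real (π : G →⋆ₐ[ℂ] H) {f : ℝ → ℝ} (hf : Continuous f) {a : G}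
    (ha : IsSelfAdjoint a) : π (cfc f a) = cfc f (π a) :=
  π.map_cfc f a hf.continuousOn (map_continuous π) ha (ha.map π)

lemma map_smul_real (π : G →⋆ₐ[ℂ] H) (t : ℝ) (a : G) : π (t • a) = t • π a := by
  rw [← Complex.coe_smul, map_smul, Complex.coe_smul]

lemma map_algebraMap_real (π : G →⋆ₐ[ℂ] H) (t : ℝ) :
    π (algebraMap ℝ G t) = algebraMap ℝ H t := by
  simp only [Algebra.algebraMap_eq_smul_one, map_smul_real, map_one]

/-- Every self-adjoint element in the range has a self-adjoint preimage. -/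
lemma exists_sa_lift (π : G →⋆ₐ[ℂ] H) (a : G) (h : IsSelfAdjoint (π a)) :
    ∃ b, IsSelfAdjoint b ∧ π b = π a := by
  refine ⟨(2⁻¹ : ℝ) • (a + star a), ?_, ?_⟩
  · simp [IsSelfAdjoint, add_comm]
  · rw [map_smul_real, map_add, map_star, h.star_eq, ← two_smul ℝ, smul_smul]; simp

/-- Positivity passes along a pair of homomorphisms with nested kernels. -/
lemma Pos.transfer {E : Type*} [CStarAlgebra E] {π : E →⋆ₐ[ℂ] G} {θ : E →⋆ₐ[ℂ] H}
    (hk : ∀ a b, π a = π b → θ a = θ b) {a : E} (h : Pos (π a)) : Pos (θ a) := by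
  let _ := CStarAlgebra.spectralOrder G
  have _ := CStarAlgebra.spectralOrderedRing G
  obtain ⟨b, hb, e⟩ := exists_sa_lift π a h.isSelfAdjoint
  have h0 : 0 ≤ π b := e ▸ pos_iff.1 h
  have hs : IsSelfAdjoint (cfc Real.sqrt b) := cfc_predicate _ _
  have : π (star (cfc Real.sqrt b) * cfc Real.sqrt b) = π a := by
    rw [hs.star_eq, map_mul, map_cfc_real π Real.continuous_sqrt hb, ← cfc_mul .., ← e]
    conv_rhs => rw [← cfc_id' ℝ (π b)]
    exact cfc_congr fun t ht => Real.mul_self_sqrt (spectrum_nonneg_of_nonneg h0 ht)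
  rw [← hk _ _ this]
  exact Pos.map ⟨_, rfl⟩ θ

lemma norm_le_iff_pos {a : G} {r : ℝ} (hr : 0 ≤ r) :
    ‖a‖ ≤ r ↔ Pos (algebraMap ℝ G (r * r) - star a * a) := by
  let _ := CStarAlgebra.spectralOrder G
  have _ := CStarAlgebra.spectralOrderedRing G
  rw [pos_iff, sub_nonneg, ← CStarAlgebra.norm_le_iff_le_algebraMap _ (by positivity)
    (star_mul_self_nonneg a), CStarRing.norm_star_mul_self]
  exact (mul_self_le_mul_self_iff (norm_nonneg a) hr)

lemma norm_transfer {E : Type*} [CStarAlgebra E] {π : E →⋆ₐ[ℂ] G} {θ : E →⋆ₐ[ℂ] H}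
    (hk : ∀ a b, π a = π b → θ a = θ b) (a : E) : ‖θ a‖ ≤ ‖π a‖ := by
  have h1 := (norm_le_iff_pos (norm_nonneg (π a))).1 le_rfl
  rw [norm_le_iff_pos (norm_nonneg _)]
  have := Pos.transfer hk (a := algebraMap ℝ E (‖π a‖ * ‖π a‖) - star a * a)
    (by simpa only [map_sub, map_mul π, map_star, map_algebraMap_real] using h1)
  simpa only [map_sub, map_mul θ, map_star, map_algebraMap_real] using this

/-- Functional calculus respects intertwiners. -/
lemma cfc_intertwine {a b x : G} (ha : IsSelfAdjoint a) (hb : IsSelfAdjoint b)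
    (h : a * x = x * b) {f : ℝ → ℝ} (hf : Continuous f) : cfc f a * x = x * cfc f b := by
  let s : Set ℝ := spectrum ℝ a ∪ spectrum ℝ b
  have : CompactSpace s := isCompact_iff_compactSpace.1
    ((spectrum.isCompact (𝕜 := ℝ) a).union (spectrum.isCompact (𝕜 := ℝ) b))
  have hsa : spectrum ℝ a ⊆ s := Set.subset_union_left
  have hsb : spectrum ℝ b ⊆ s := Set.subset_union_right
  have key : ∀ g : C(s, ℝ), cfcHomSuperset ha hsa g * x = x * cfcHomSuperset hb hsb g := by
    intro g
    induction g using ContinuousMap.induction_on_of_compact with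
    | const r =>
      have : ContinuousMap.const s r = algebraMap ℝ _ r := rfl
      rw [this, AlgHomClass.commutes, AlgHomClass.commutes, Algebra.commutes]
    | id => rwa [cfcHomSuperset_id, cfcHomSuperset_id]
    | star_id => rwa [star_trivial, cfcHomSuperset_id, cfcHomSuperset_id]
    | add f g hf hg => rw [map_add, map_add, add_mul, mul_add, hf, hg]
    | mul f g hf hg => rw [map_mul, map_mul, mul_assoc, hg, ← mul_assoc, hf, mul_assoc]
    | frequently f hf =>
      have c1 := cfcHomSuperset_continuous ha hsa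
      have c2 := cfcHomSuperset_continuous hb hsb
      exact (isClosed_eq (c1.mul continuous_const) (continuous_const.mul c2)).mem_of_frequently_of_tendsto
        hf tendsto_id
  have := key ⟨fun t => f t, by fun_prop⟩
  rw [cfc_apply f a, cfc_apply f b]
  exact this

lemma cfc_mul_of_eigen {a x : G} (ha : IsSelfAdjoint a) {t : ℝ} (h : a * x = t • x)
    {f : ℝ → ℝ} (hf : Continuous f) : cfc f a * x = f t • x := by
  rw [cfc_intertwine ha (IsSelfAdjoint.algebraMap G (.all t)) (x := x) ?_ hf, cfc_algebraMap]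
  · rw [← Algebra.commutes, Algebra.smul_def]
  · rw [h, ← Algebra.commutes, Algebra.smul_def]

/-- A self-adjoint element whose functional calculus has no zero divisors is a scalar. -/
lemma scalar_of_orth [Nontrivial G] {h : G} (hh : IsSelfAdjoint h)
    (H : ∀ f g : ℝ → ℝ, Continuous f → Continuous g → (∀ t, f t * g t = 0) →
      cfc f h = 0 ∨ cfc g h = 0) : ∃ t : ℝ, h = algebraMap ℝ G t := by
  obtain ⟨t, ht⟩ := ContinuousFunctionalCalculus.spectrum_nonempty (R := ℝ) h hh
  have key : ∀ s ∈ spectrum ℝ h, ∀ t ∈ spectrum ℝ h, ¬ s < t := by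
    intro s hs t ht hst
    have z : cfc (fun _ : ℝ => (0 : ℝ)) h = 0 := cfc_const_zero ℝ h
    rcases H (fun u => max (u - (s + t) / 2) 0) (fun u => max ((s + t) / 2 - u) 0) (by fun_prop)
      (by fun_prop) (fun u => by
        rcases le_total u ((s + t) / 2) with h | h
        · rw [max_eq_right (by linarith), zero_mul]
        · rw [max_eq_right (a := _ - u) (by linarith), mul_zero]) with h1 | h1
    · have := eqOn_of_cfc_eq_cfc (h1.trans z.symm) (by fun_prop) (by fun_prop) hh ht
      simp only [max_eq_right_iff] at this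
      linarith
    · have := eqOn_of_cfc_eq_cfc (h1.trans z.symm) (by fun_prop) (by fun_prop) hh hs
      simp only [max_eq_right_iff] at this
      linarith
  refine ⟨t, ?_⟩
  rw [← cfc_const t h hh]
  conv_lhs => rw [← cfc_id' ℝ h]
  exact cfc_congr fun s hs => le_antisymm (not_lt.1 (key t ht s hs)) (not_lt.1 (key s hs t ht))

lemma map_k2 (π : G →⋆ₐ[ℂ] H) {x y : G} (hx : IsSelfAdjoint x) (hy : IsSelfAdjoint y)
    (hxy : Commute x y) {s t : ℝ} (hs : π x = algebraMap ℝ H s) (ht : π y = algebraMap ℝ H t)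
    {f : ℝ → ℝ → ℝ} (hf : Continuous fun p : ℝ × ℝ => f p.1 p.2) :
    π (k2 f x y) = algebraMap ℝ H (f s t) := by
  have hn : IsStarNormal (x + Complex.I • y) := ⟨by
    simp only [Commute, SemiconjBy, star_add, star_smul, hx.star_eq, hy.star_eq, add_mul, mul_add,
      smul_mul_assoc, mul_smul_comm, hxy.eq, Complex.star_def, Complex.conj_I, smul_add, neg_smul,
      smul_neg, neg_mul, mul_neg]
    abel⟩
  have hc : Continuous fun z : ℂ => ((f z.re z.im : ℝ) : ℂ) :=
    Complex.continuous_ofReal.comp (hf.comp (Complex.continuous_re.prodMk Complex.continuous_im))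
  have e : π (x + Complex.I • y) = algebraMap ℂ H (s + Complex.I * t) := by
    rw [map_add, map_smul, hs, ht, map_add, map_mul, Algebra.smul_def]
    rfl
  rw [k2, π.map_cfc _ _ hc.continuousOn (map_continuous π) hn (hn.map π), e, cfc_algebraMap]
  simp only [Complex.add_re, Complex.ofReal_re, Complex.mul_re, Complex.I_re, zero_mul,
    Complex.I_im, Complex.ofReal_im, mul_zero, sub_self, add_zero, Complex.add_im, Complex.mul_im,
    one_mul, zero_add]
  rfl

/-- A Douglas type factorisation. -/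
lemma exists_douglas {a w : G} (ha : IsSelfAdjoint a) {C : ℝ} (hC : 0 ≤ C)
    (h : Pos (C • (star w * w) - a * a)) :
    ∃ v, star v * v = a * a ∧ ∀ e, e * w = w → e * v = v := by
  let _ := CStarAlgebra.spectralOrder G
  have _ := CStarAlgebra.spectralOrderedRing G
  set W := star w * w with hW
  have hW0 : 0 ≤ W := star_mul_self_nonneg w
  have hWs : IsSelfAdjoint W := hW0.isSelfAdjoint
  have hsp : ∀ t ∈ spectrum ℝ W, 0 ≤ t := fun t ht => spectrum_nonneg_of_nonneg hW0 ht
  have hle : a * a ≤ C • W := sub_nonneg.1 (pos_iff.1 h)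
  have K : ∀ ψ : ℝ → ℝ, Continuous ψ → ∀ B : ℝ, 0 ≤ B → (∀ t, 0 ≤ t → ψ t * t * ψ t ≤ B) →
      ‖cfc ψ W * a‖ ^ 2 ≤ C * B := by
    intro ψ hψ B hB hb
    have hs : IsSelfAdjoint (cfc ψ W) := cfc_predicate _ _
    have e1 : cfc ψ W * a * star (cfc ψ W * a) = cfc ψ W * (a * a) * star (cfc ψ W) := by
      rw [star_mul, ha.star_eq]; simp only [mul_assoc]
    have e2 : cfc ψ W * (C • W) * star (cfc ψ W) = C • cfc (fun t => ψ t * t * ψ t) W := by
      rw [cfc_mul .., cfc_mul .., cfc_id' ℝ W, hs.star_eq, mul_smul_comm, smul_mul_assoc]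
    rw [sq, ← CStarRing.norm_self_mul_star]
    refine (CStarAlgebra.norm_le_norm_of_nonneg_of_le (mul_star_self_nonneg _)
      (b := C • cfc (fun t => ψ t * t * ψ t) W) ?_).trans ?_
    · rw [e1, ← e2]; exact star_right_conjugate_le_conjugate hle _
    · rw [norm_smul, Real.norm_of_nonneg hC]
      refine mul_le_mul_of_nonneg_left (norm_cfc_le hB fun t ht => ?_) hC
      have := hsp t ht
      rw [Real.norm_of_nonneg (by nlinarith [mul_self_nonneg (ψ t)])]
      exact hb t this
  have N : ∀ ψ : ℝ → ℝ, Continuous ψ → star (w * cfc ψ W * a) * (w * cfc ψ W * a) =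
      star (cfc (fun t => √t * ψ t) W * a) * (cfc (fun t => √t * ψ t) W * a) := by
    intro ψ hψ
    have hs : IsSelfAdjoint (cfc ψ W) := cfc_predicate _ _
    have hs' : IsSelfAdjoint (cfc (fun t => √t * ψ t) W) := cfc_predicate _ _
    have : cfc ψ W * W * cfc ψ W = cfc (fun t => √t * ψ t) W * cfc (fun t => √t * ψ t) W := by
      rw [← cfc_mul ..]
      nth_rw 2 [← cfc_id' ℝ W]
      rw [← cfc_mul .., ← cfc_mul ..]
      refine cfc_congr fun t ht => ?_
      have := Real.mul_self_sqrt (hsp t ht)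
      linear_combination (-(ψ t * ψ t)) * this
    calc _ = a * (cfc ψ W * W * cfc ψ W) * a := by
          rw [star_mul, star_mul, ha.star_eq, hs.star_eq]
          simp only [hW, mul_assoc]
      _ = _ := by rw [this]; simp only [star_mul, ha.star_eq, hs'.star_eq, mul_assoc]
  have hpos : ∀ (n : ℕ) (t : ℝ), 0 < √(|t| + 1 / (n + 1)) := fun n t =>
    Real.sqrt_pos.2 (by positivity)
  obtain ⟨g, hgc, hg⟩ : ∃ g : ℕ → ℝ → ℝ, (∀ n, Continuous (g n)) ∧
      ∀ n t, g n t = (√(|t| + 1 / (n + 1)))⁻¹ :=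
    ⟨_, fun n => Continuous.inv₀ (by fun_prop) fun t => (hpos n t).ne', fun _ _ => rfl⟩
  let y : ℕ → G := fun n => cfc (fun t => √t * g n t) W * a
  let v : ℕ → G := fun n => w * cfc (g n) W * a
  have hy : Tendsto y atTop (𝓝 a) := by
    rw [tendsto_iff_norm_sub_tendsto_zero]
    have h1 : Tendsto (fun n : ℕ => √(C * (1 / ((n : ℝ) + 1)))) atTop (𝓝 0) := by
      simpa using (tendsto_one_div_add_atTop_nhds_zero_nat.const_mul C).sqrt
    refine squeeze_zero (fun _ => norm_nonneg _) (fun n => Real.le_sqrt_of_sq_le ?_) h1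
    have := hgc n
    have e : y n - a = cfc (fun t => √t * g n t - 1) W * a := by
      rw [cfc_sub .., cfc_const_one ℝ W, sub_mul, one_mul]
    rw [e]
    refine K _ (by fun_prop) _ (by positivity) fun t ht => ?_
    have hp := hpos n t
    rw [hg]
    rw [abs_of_nonneg ht] at hp ⊢
    set δ : ℝ := 1 / (n + 1)
    have hδ : 0 < δ := by positivity
    have h2 := Real.mul_self_sqrt (show 0 ≤ t + δ by positivity)
    have h3 := Real.mul_self_sqrt ht
    set φ := √t * (√(t + δ))⁻¹ with hφ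
    have h4 : φ * φ * (t + δ) = t := by
      have h9 := mul_inv_cancel₀ hp.ne'
      calc φ * φ * (t + δ) = (√t * √t) * ((√(t + δ) * (√(t + δ))⁻¹) * (√(t + δ) * (√(t + δ))⁻¹)) := by
            nth_rw 1 [← h2]; rw [hφ]; ring
        _ = t := by rw [h9, h3]; ring
    have h5 : 0 ≤ φ := by positivity
    have h6 : φ * φ ≤ 1 := by nlinarith
    have h7 : φ ≤ 1 := by nlinarith
    have h8 : φ * φ ≤ φ := by nlinarith
    nlinarith
  have hv : CauchySeq v := by
    have hyc := hy.cauchySeq
    rw [Metric.cauchySeq_iff] at hyc ⊢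
    intro ε hε
    obtain ⟨M, hM⟩ := hyc ε hε
    refine ⟨M, fun m hm n hn => ?_⟩
    have h1 := hM m hm n hn
    have := hgc m
    have := hgc n
    have e1 : v m - v n = w * cfc (fun t => g m t - g n t) W * a := by
      rw [cfc_sub .., mul_sub, sub_mul]
    have e2 : y m - y n = cfc (fun t => √t * (g m t - g n t)) W * a := by
      simp only [mul_sub]
      rw [cfc_sub .., sub_mul]
    have h2 := congrArg norm (N (fun t => g m t - g n t) (by fun_prop))
    rw [CStarRing.norm_star_mul_self, CStarRing.norm_star_mul_self, ← e1, ← e2] at h2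
    rw [dist_eq_norm] at h1 ⊢
    rwa [(mul_self_inj_of_nonneg (norm_nonneg _) (norm_nonneg _)).1 h2]
  obtain ⟨u, hu⟩ := cauchySeq_tendsto_of_complete hv
  refine ⟨u, ?_, fun e he => ?_⟩
  · have h1 : Tendsto (fun n => star (v n) * v n) atTop (𝓝 (star a * a)) :=
      (hy.star.mul hy).congr fun n => (N _ (hgc n)).symm
    rw [ha.star_eq] at h1
    exact tendsto_nhds_unique (hu.star.mul hu) h1
  · refine tendsto_nhds_unique (hu.const_mul e) (hu.congr fun n => ?_)
    simp only [v, ← mul_assoc, he]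

lemma mem_cent {S : Set G} {a : G} :
    a ∈ cent S ↔ ∀ s ∈ S, Commute s a ∧ Commute (star s) a :=
  StarSubalgebra.mem_centralizer_iff ℂ

instance isClosed_cent (S : Set G) : IsClosed (cent S : Set G) := Set.isClosed_centralizer _

instance isClosed_bicomm (S : Set G) : IsClosed (bicomm S : Set G) := isClosed_cent _

lemma mem_bicomm {S : Set G} {a : G} : a ∈ bicomm S ↔ ∀ s ∈ cent S, Commute s a := by
  rw [bicomm, mem_cent]
  exact ⟨fun h s hs => (h s hs).1, fun h s hs => ⟨h s hs, h _ (star_mem hs)⟩⟩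

lemma subset_bicomm (S : Set G) : S ⊆ bicomm S := fun a ha =>
  mem_bicomm.2 fun _ hs => (mem_cent.1 hs a ha).1.symm

lemma cent_anti {S T : Set G} (h : S ⊆ T) : cent T ≤ cent S := fun _ ha =>
  mem_cent.2 fun s hs => mem_cent.1 ha s (h hs)

lemma subset_cent_symm {S T : Set G} (h : T ⊆ cent S) : S ⊆ cent T := fun s hs =>
  mem_cent.2 fun t ht => ⟨(mem_cent.1 (h ht) s hs).1.symm, by
    simpa using (mem_cent.1 (h ht) s hs).2.symm.star_star⟩

/-- If `T` commutes with `S`, so does the bicommutant of `T`. -/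
lemma bicomm_le_cent {S T : Set G} (h : T ⊆ cent S) : bicomm T ≤ cent S :=
  cent_anti (subset_cent_symm h)

end

section
variable {G : Type*} [CStarAlgebra G] {ι : Type} [Fintype ι] [DecidableEq ι] {E : ι → ι → G}

omit [DecidableEq ι] in
lemma map_hh {H : Type*} [CStarAlgebra H] (π : G →⋆ₐ[ℂ] H) (E : ι → ι → G) :
    π (hh E) = hh fun i j => π (E i j) := by simp [hh]

lemma PreOZ.hh_sa (h : PreOZ E) : IsSelfAdjoint (hh E) := h.pos.isSelfAdjoint

lemma PreOZ.commute (h : PreOZ E) (i j : ι) : Commute (hh E) (E i j) := by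
  have h1 := h.mul_eq i j j j
  have h2 := congrArg star (h.mul_eq j j j i)
  simp only [if_true, star_mul, h.star_eq, h.hh_sa.star_eq] at h1 h2
  exact h1.symm.trans h2

lemma PreOZ.hh_mul_of (h : PreOZ E) {o : ι} {z : G} (hz : E o o * z = z) : hh E * z = z := by
  have h1 := h.mul_eq o o o o
  simp only [if_true] at h1
  calc hh E * z = hh E * E o o * z := by rw [mul_assoc, hz]
    _ = z := by rw [← h1, mul_assoc, hz, hz]

lemma IsOZ.transfer {H K : Type*} [CStarAlgebra H] [CStarAlgebra K] {π : G →⋆ₐ[ℂ] H}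
    {θ : G →⋆ₐ[ℂ] K} (hk : ∀ a b, π a = π b → θ a = θ b)
    (h : IsOZ fun i j => π (E i j)) : IsOZ fun i j => θ (E i j) where
  star_eq i j := by
    rw [← map_star]
    exact hk _ _ (by rw [map_star]; exact h.star_eq i j)
  mul_eq i j k l := by
    have := hk (E i j * E k l) (if j = k then hh E * E i l else 0) (by
      rw [map_mul, h.mul_eq i j k l, ← map_hh]; split_ifs <;> simp)
    rw [← map_mul, this, ← map_hh]; split_ifs <;> simp
  pos := by
    rw [← map_hh]
    exact Pos.transfer hk (by rw [map_hh]; exact h.pos)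
  le_one := by
    have := Pos.transfer hk (a := 1 - hh E) (by rw [map_sub, map_one, map_hh]; exact h.le_one)
    rwa [map_sub, map_one, map_hh] at this

lemma IsOZ.map {K : Type*} [CStarAlgebra K] (θ : G →⋆ₐ[ℂ] K) (h : IsOZ E) :
    IsOZ fun i j => θ (E i j) :=
  IsOZ.transfer (π := StarAlgHom.id ℂ G) (fun _ _ h => congrArg θ h) h

lemma continuous_inv_max {ε : ℝ} (hε : 0 < ε) : Continuous fun t : ℝ => (max ε t)⁻¹ :=
  Continuous.inv₀ (by fun_prop) fun _ => (lt_max_of_lt_left hε).ne'

lemma PreOZ.hh_renorm (h : PreOZ E) {ε : ℝ} (hε : 0 < ε) :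
    hh (renorm ε E) = cfc (fun t : ℝ => t / max ε t) (hh E) := by
  have := h.hh_sa
  have e : hh (renorm ε E) = cfc (fun t : ℝ => (max ε t)⁻¹) (hh E) * hh E := by
    simp only [hh, renorm, Finset.mul_sum]
  rw [e]
  nth_rw 2 [← cfc_id' ℝ (hh E)]
  rw [← cfc_mul _ _ _ (continuous_inv_max hε).continuousOn]
  exact cfc_congr fun t _ => by simp only [div_eq_inv_mul]

lemma PreOZ.renorm (h : PreOZ E) {ε : ℝ} (hε : 0 < ε) : IsOZ (renorm ε E) := by
  let _ := CStarAlgebra.spectralOrder G
  have _ := CStarAlgebra.spectralOrderedRing G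
  have hsa := h.hh_sa
  have h0 := pos_iff.1 h.pos
  have hc : ∀ i j, Commute (cfc (fun t : ℝ => (max ε t)⁻¹) (hh E)) (E i j) := fun i j =>
    (h.commute i j).cfc_real _
  have hs : IsSelfAdjoint (cfc (fun t : ℝ => (max ε t)⁻¹) (hh E)) := cfc_predicate _ _
  have e : hh (P101.renorm ε E) = cfc (fun t : ℝ => (max ε t)⁻¹) (hh E) * hh E := by
    simp only [hh, P101.renorm, Finset.mul_sum]
  have hd : Continuous fun t : ℝ => t / max ε t :=
    continuous_id.div (by fun_prop) fun _ => (lt_max_of_lt_left hε).ne'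
  refine ⟨⟨fun i j => ?_, fun i j k l => ?_, ?_⟩, ?_⟩
  · rw [P101.renorm, star_mul, hs.star_eq, h.star_eq, ← (hc j i).eq, P101.renorm]
  · rw [e]
    simp only [P101.renorm]
    rw [mul_assoc, ← mul_assoc (E i j), ← (hc i j).eq, mul_assoc, h.mul_eq]
    split_ifs
    · have : Commute (cfc (fun t : ℝ => (max ε t)⁻¹) (hh E)) (hh E) := (Commute.refl _).cfc_real _
      simp only [mul_assoc]
      rw [← mul_assoc (cfc _ _) (hh E) (E i l), this.eq, mul_assoc]
    · simp
  · rw [pos_iff, h.hh_renorm hε]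
    exact cfc_nonneg fun t ht => div_nonneg (spectrum_nonneg_of_nonneg h0 ht)
      (le_max_of_le_left hε.le)
  · rw [pos_iff, h.hh_renorm hε, sub_nonneg]
    exact cfc_le_one _ _ fun t _ => (div_le_one (lt_max_of_lt_left hε)).2 (le_max_right _ _)

end

end Vale.Agent.P101
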