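import Vale.Agent.P101.Quot

/-! Shared definitions for the proof of P101 (not used in the final statement). -/

namespace Vale.Agent.P101
universe u v

/-- Positivity without an order instance. -/
def Pos {G : Type*} [Mul G] [Star G] (a : G) : Prop := ∃ b, a = star b * b

/-- Prime rings. -/
def IsPrimeAlg (Q : Type*) [Ring Q] : Prop := ∀ u v : Q, (∀ y, u * y * v = 0) → u = 0 ∨ v = 0

/-- A nonzero prime quotient of `G`. -/
structure PQ (G : Type u) [CStarAlgebra G] where
  /-- the quotient -/
  Q : Type u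
  [inst : CStarAlgebra Q]
  [nt : Nontrivial Q]
  /-- the quotient map -/
  π : G →⋆ₐ[ℂ] Q
  surj : Function.Surjective π
  prime : IsPrimeAlg Q

attribute [instance] PQ.inst PQ.nt

/-- The family `x` generates the unit two-sided ideal. -/
def Full {G ι : Type*} [Ring G] (x : ι → G) : Prop :=
  ∃ (m : ℕ) (c : Fin m → ι) (u v : Fin m → G), ∑ t, u t * x (c t) * v t = 1

/-- A single full element. -/
def Full1 {G : Type*} [Ring G] (x : G) : Prop := Full fun _ : Unit => x

/-- The star-commutant. -/
noncomputable def cent {G : Type*} [CStarAlgebra G] (S : Set G) : StarSubalgebra ℂ G :=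
  StarSubalgebra.centralizer ℂ S

/-- The bicommutant. -/
noncomputable def bicomm {G : Type*} [CStarAlgebra G] (S : Set G) : StarSubalgebra ℂ G :=
  cent (cent S : Set G)

/-- Self-copy property: every finite set has a copy commuting with a given finite set. -/
def SA (G : Type u) [CStarAlgebra G] : Prop :=
  ∀ X Y : Set G, X.Finite → Y.Finite → ∃ (E : Type u) (_ : CStarAlgebra E) (π θ : E →⋆ₐ[ℂ] G),
    (∀ a b, π a = π b → θ a = θ b) ∧ (∀ x ∈ X, ∃ e, π e = x) ∧ ∀ e, ∀ y ∈ Y, Commute (θ e) y

section OZ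
variable {G : Type*} [CStarAlgebra G] {ι : Type} [Fintype ι] [DecidableEq ι]

/-- The image of the unit of an order zero map. -/
def hh (E : ι → ι → G) : G := ∑ i, E i i

/-- Order zero map `M_ι → G` given by the images of the matrix units. -/
structure PreOZ (E : ι → ι → G) : Prop where
  star_eq : ∀ i j, star (E i j) = E j i
  mul_eq : ∀ i j k l, E i j * E k l = if j = k then hh E * E i l else 0
  pos : Pos (hh E)

/-- Contractive order zero map. -/
structure IsOZ (E : ι → ι → G) : Prop extends PreOZ E where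
  le_one : Pos (1 - hh E)

/-- `(h - 2/3)₊`. -/
noncomputable def Gb (h : G) : G := cfc (fun t : ℝ => max (t - 2 / 3) 0) h

/-- `(1/3 - h)₊`. -/
noncomputable def Ga (h : G) : G := cfc (fun t : ℝ => max (1 / 3 - t) 0) h

/-- Renormalised order zero map. -/
noncomputable def renorm (ε : ℝ) (E : ι → ι → G) (i j : ι) : G :=
  cfc (fun t : ℝ => (max ε t)⁻¹) (hh E) * E i j

/-- The data of the block induction at level `m`. -/
structure Blk (o : ι) {n : ℕ} (m : ℕ) (E : ι → ι → G) (q w : G) (σ : Fin n → G) (C : ℝ) :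
    Prop where
  oz : IsOZ E
  q_sa : IsSelfAdjoint q
  gb : Gb (hh E) * q = 0
  ga : Ga (hh E) * (1 - q) = 0
  eσ : ∀ l, E o o * σ l = σ l
  ew : E o o * w = w
  qσ : ∀ l, q * σ l = 0
  qw : q * w = 0
  wσ : ∀ l, star w * σ l = 0
  C_nonneg : 0 ≤ C
  low : Pos (C • (star w * w + ∑ l : Fin n with m ≤ l.val, star (σ l) * σ l) - q * q)
  upw : Pos (C • (q * q) - star w * w)
  upσ : ∀ l, Pos (C • (q * q) - star (σ l) * σ l)

end OZ

/-- Functions of two commuting self-adjoint elements. -/
noncomputable def k2 {G : Type*} [CStarAlgebra G] (f : ℝ → ℝ → ℝ) (x y : G) : G :=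
  cfc (fun z : ℂ => ((f z.re z.im : ℝ) : ℂ)) (x + Complex.I • y)

end Vale.Agent.P101
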