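import Vale.Agent.P101.Comb

/-! The block induction producing the Rørdam–Winter relations. -/

namespace Vale.Agent.P101
universe u
variable {G : Type u} [CStarAlgebra G] {ι : Type} [Fintype ι] [DecidableEq ι] {o : ι} {n : ℕ}

private lemma conjugate_nonneg_of_nonneg_sa [PartialOrder G] [StarOrderedRing G] {a q : G}
    (h : 0 ≤ a) (hq : IsSelfAdjoint q) : 0 ≤ q * a * q := by
  simpa [hq.star_eq] using star_left_conjugate_nonneg h q

private lemma low_aux [PartialOrder G] [StarOrderedRing G] {P1 S1 Q1 P2 S2 Q2 : G} {C D C' : ℝ}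
    (hC : 0 ≤ C) (h1 : C ^ 2 * D ≤ C') (h2 : C ^ 3 ≤ C') (h3 : C ^ 2 ≤ C')
    (a1 : 0 ≤ (C • (P1 + S1) - Q1) * Q2) (a2 : 0 ≤ (P1 + S1) * (C • (P2 + S2) - Q2))
    (a3 : 0 ≤ P1 * (D • Q2 - (P2 + S2))) (a4 : 0 ≤ (C • Q1 - S1) * P2) (a5 : 0 ≤ P1 * Q2)
    (a6 : 0 ≤ Q1 * P2) (a7 : 0 ≤ S1 * S2) :
    0 ≤ C' • (P1 * Q2 + Q1 * P2 + S1 * S2) - Q1 * Q2 := by
  convert add_nonneg (add_nonneg (add_nonneg a1 (smul_nonneg hC a2))
    (smul_nonneg (sq_nonneg C) (add_nonneg a3 a4))) (add_nonneg (add_nonneg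
      (smul_nonneg (sub_nonneg.2 h1) a5) (smul_nonneg (sub_nonneg.2 h2) a6))
      (smul_nonneg (sub_nonneg.2 h3) a7)) using 1
  simp only [mul_add, add_mul, mul_sub, sub_mul, smul_mul_assoc, mul_smul_comm]
  module

theorem blk_base {E : ι → ι → G} {z : Fin n → G} {C : ℝ} (hE : IsOZ E)
    (hz : ∀ l, E o o * z l = z l) (hC : 0 ≤ C) (h : Pos (C • ∑ l, star (z l) * z l - 1)) :
    ∃ q w σ C', Blk (n := n) o 0 E q w σ C' := by
  let _ := CStarAlgebra.spectralOrder G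
  have _ := CStarAlgebra.spectralOrderedRing G
  obtain ⟨f, hf, hfe⟩ : ∃ f : ℝ → ℝ, Continuous f ∧ ∀ t, f t = max 0 (min 1 (2 - 3 * t)) :=
    ⟨_, by fun_prop, fun _ => rfl⟩
  have hs := hE.toPreOZ.hh_sa
  obtain ⟨q, hq⟩ : ∃ q, q = cfc f (hh E) := ⟨_, rfl⟩
  have qs : IsSelfAdjoint q := hq ▸ cfc_predicate _ _
  have hsum : 0 ≤ ∑ l, ‖z l‖ ^ 2 := Finset.sum_nonneg fun _ _ => by positivity
  have hqq : 0 ≤ q * q := by simpa [qs.star_eq] using star_mul_self_nonneg q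
  refine ⟨q, 0, fun l => z l * q, C + ∑ l, ‖z l‖ ^ 2, hE, qs, ?_, ?_, fun l => ?_, by simp,
    fun l => ?_, by simp, by simp, by positivity, ?_, ?_, fun l => ?_⟩
  · rw [Gb, hq, ← cfc_mul .., ← cfc_zero ℝ (hh E)]
    refine cfc_congr fun t _ => ?_
    simp only [hfe, Pi.zero_apply]
    rcases le_total t (2 / 3) with ht | ht
    · rw [max_eq_right (by linarith), zero_mul]
    · rw [min_eq_right (by linarith), max_eq_left (by linarith : 2 - 3 * t ≤ 0), mul_zero]
  · rw [Ga, hq, ← cfc_const_one ℝ (hh E), ← cfc_sub .., ← cfc_mul .., ← cfc_zero ℝ (hh E)]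
    refine cfc_congr fun t _ => ?_
    simp only [hfe, Pi.zero_apply]
    rcases le_total t (1 / 3) with ht | ht
    · rw [min_eq_left (by linarith), max_eq_right zero_le_one, sub_self, mul_zero]
    · rw [max_eq_right (by linarith), zero_mul]
  · rw [← mul_assoc, hz]
  · rw [← mul_assoc, hq, cfc_mul_of_eigen hs (t := 1)
      (by rw [hE.toPreOZ.hh_mul_of (hz l), one_smul]) hf, hfe]
    norm_num
  · rw [pos_iff] at h ⊢
    have h1 := conjugate_nonneg_of_nonneg_sa h qs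
    have h2 := conjugate_nonneg_of_nonneg_sa
      (Finset.sum_nonneg fun l (_ : l ∈ Finset.univ) => star_mul_self_nonneg (z l)) qs
    have h3 : ∑ l : Fin n with 0 ≤ l.val, star (z l * q) * (z l * q) =
        q * (∑ l, star (z l) * z l) * q := by
      simp [qs.star_eq, Finset.mul_sum, Finset.sum_mul, mul_assoc]
    rw [h3]
    convert add_nonneg h1 (smul_nonneg hsum h2) using 1
    simp only [mul_sub, sub_mul, smul_mul_assoc, mul_smul_comm, mul_one, mul_zero, zero_add]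
    module
  · rw [pos_iff]
    simpa using smul_nonneg (by positivity : 0 ≤ C + ∑ l, ‖z l‖ ^ 2) hqq
  · rw [pos_iff]
    have h1 : 0 ≤ (‖z l‖ ^ 2) • (1 : G) - star (z l) * z l := by
      rw [sub_nonneg, ← Algebra.algebraMap_eq_smul_one]
      exact CStarAlgebra.star_mul_le_algebraMap_norm_sq
    have h2 : ‖z l‖ ^ 2 ≤ ∑ l, ‖z l‖ ^ 2 :=
      Finset.single_le_sum (f := fun l => ‖z l‖ ^ 2) (fun _ _ => by positivity)
        (Finset.mem_univ l)
    convert add_nonneg (conjugate_nonneg_of_nonneg_sa h1 qs)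
      (smul_nonneg (by linarith : 0 ≤ C + ∑ l, ‖z l‖ ^ 2 - ‖z l‖ ^ 2) hqq) using 1
    simp only [mul_sub, sub_mul, smul_mul_assoc, mul_smul_comm, mul_one, star_mul, qs.star_eq,
      mul_assoc]
    module

theorem blk_merge {m : ℕ} (hm : m < n) {E' E'' : ι → ι → G} {q' w' q'' w'' : G}
    {σ' σ'' : Fin n → G} {C : ℝ} (h' : Blk o m E' q' w' σ' C) (h'' : Blk o m E'' q'' w'' σ'' C)
    (S : StarSubalgebra ℂ G) (hE : ∀ i j, E' i j ∈ S) (hq : q' ∈ S) (hw : w' ∈ S)
    (hσ : ∀ l, σ' l ∈ S) (cE : ∀ s ∈ S, ∀ i j, Commute s (E'' i j)) (cq : ∀ s ∈ S, Commute s q'')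
    (cw : ∀ s ∈ S, Commute s w'') (cσ : ∀ s ∈ S, ∀ l, Commute s (σ'' l)) :
    ∃ (E : ι → ι → G) (q w : G) (σ : Fin n → G) (C' : ℝ), Blk o (m + 1) E q w σ C' := by
  let _ := CStarAlgebra.spectralOrder G
  have _ := CStarAlgebra.spectralOrderedRing G
  obtain ⟨E, hO, c1, c2, c3, c4, c5⟩ := combine h'.oz h''.oz fun i j k l => cE _ (hE i j) k l
  obtain ⟨μ, hμ⟩ : ∃ μ : Fin n, μ.val = m := ⟨⟨m, hm⟩, rfl⟩
  let T := cent (S : Set G)
  have mT : ∀ {x}, (∀ s ∈ S, Commute s x) → x ∈ T := fun hx =>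
    mem_cent.2 fun s hs => ⟨hx s hs, hx _ (star_mem hs)⟩
  have cm : ∀ {s t}, s ∈ S → t ∈ T → Commute s t := fun hs ht => (mem_cent.1 ht _ hs).1
  have sm : ∀ (U : StarSubalgebra ℂ G) (r : ℝ) {x}, x ∈ U → r • x ∈ U := fun U r x hx => by
    rw [← Complex.coe_smul]; exact U.smul_mem hx _
  have tq := mT cq
  have tw := mT cw
  have tσ : ∀ l, σ'' l ∈ T := fun l => mT fun s hs => cσ s hs l
  have pm : ∀ {s t}, s ∈ S → t ∈ T → 0 ≤ s → 0 ≤ t → 0 ≤ s * t := fun hs ht a b =>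
    (cm hs ht).mul_nonneg a b
  have q1 := h'.q_sa.star_eq
  have q2 := h''.q_sa.star_eq
  have hC := h'.C_nonneg
  -- rewriting rules moving the second family to the right
  have sw : ∀ {s t}, s ∈ S → t ∈ T → ∀ x, t * (s * x) = s * (t * x) := fun hs ht x => by
    rw [← mul_assoc, ← (cm hs ht).eq, mul_assoc]
  have pp : ∀ {s s' t t'}, s' ∈ S → t ∈ T → s * t * (s' * t') = s * s' * (t * t') :=
    fun hs ht => by rw [mul_assoc, sw hs ht, ← mul_assoc]
  have st : ∀ {s t}, s ∈ S → t ∈ T → star (s * t) = star s * star t := fun hs ht => by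
    rw [star_mul, (cm (star_mem hs) (star_mem ht)).eq]
  have z1 : ∀ l, star (σ' l) * q' = 0 := fun l => by
    simpa [q1] using congrArg star (h'.qσ l)
  have z2 : ∀ l, star (σ'' l) * q'' = 0 := fun l => by
    simpa [q2] using congrArg star (h''.qσ l)
  have z3 : star w' * q' = 0 := by simpa [q1] using congrArg star h'.qw
  have z4 : star w'' * q'' = 0 := by simpa [q2] using congrArg star h''.qw
  have z5 : ∀ l, star (σ' l) * w' = 0 := fun l => by simpa using congrArg star (h'.wσ l)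
  have sσ : ∀ l, star (σ' l * q'' + q' * σ'' l) = star (σ' l) * q'' + q' * star (σ'' l) :=
    fun l => by rw [star_add, st (hσ l) tq, st hq (tσ l), q1, q2]
  have sww : star (w' * q'' + q' * w'' + σ' μ * σ'' μ) =
      star w' * q'' + q' * star w'' + star (σ' μ) * star (σ'' μ) := by
    rw [star_add, star_add, st hw tq, st hq tw, st (hσ μ) (tσ μ), q1, q2]
  have eσ : ∀ l, star (σ' l * q'' + q' * σ'' l) * (σ' l * q'' + q' * σ'' l) =
      star (σ' l) * σ' l * (q'' * q'') + q' * q' * (star (σ'' l) * σ'' l) := fun l => by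
    rw [sσ]
    simp only [mul_add, add_mul, pp (hσ _) tq, pp hq tq, pp (hσ _) (star_mem (tσ _)),
      pp hq (star_mem (tσ _)), z1, h'.qσ, zero_mul, add_zero, zero_add]
  have ew : star (w' * q'' + q' * w'' + σ' μ * σ'' μ) * (w' * q'' + q' * w'' + σ' μ * σ'' μ) =
      star w' * w' * (q'' * q'') + q' * q' * (star w'' * w'') +
        star (σ' μ) * σ' μ * (star (σ'' μ) * σ'' μ) := by
    rw [sww]
    simp only [mul_add, add_mul, pp (hσ _) tq, pp hq tq, pp hw tq, pp (hσ _) (star_mem (tσ _)),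
      pp hq (star_mem (tσ _)), pp hw (star_mem (tσ _)), pp (hσ _) (star_mem tw),
      pp hq (star_mem tw), pp hw (star_mem tw), z1, z3, z5, h'.qσ, h'.qw, h'.wσ, zero_mul,
      add_zero, zero_add]
  have eq : q' * q'' * (q' * q'') = q' * q' * (q'' * q'') := pp hq tq
  have nq1 : 0 ≤ q' * q' := by simpa [q1] using star_mul_self_nonneg q'
  have nq2 : 0 ≤ q'' * q'' := by simpa [q2] using star_mul_self_nonneg q''
  have mQ1 := mul_mem hq hq
  have mQ2 := mul_mem tq tq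
  have mS1 := fun l => mul_mem (star_mem (hσ l)) (hσ l)
  have mS2 := fun l => mul_mem (star_mem (tσ l)) (tσ l)
  have mW1 := mul_mem (star_mem hw) hw
  have mW2 := mul_mem (star_mem tw) tw
  have u1 := fun l => pos_iff.1 (h'.upσ l)
  have u2 := fun l => pos_iff.1 (h''.upσ l)
  have nqq := pm mQ1 mQ2 nq1 nq2
  have hD : 0 ≤ ((n : ℝ) + 1) * C := by positivity
  obtain ⟨C', hC'⟩ : ∃ C', C' = C ^ 2 * (((n : ℝ) + 1) * C) + C ^ 3 + C ^ 2 + 2 * C := ⟨_, rfl⟩
  have b1 : 0 ≤ C ^ 2 * (((n : ℝ) + 1) * C) := by positivity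
  have b2 : 0 ≤ C ^ 3 := by positivity
  have b3 : 0 ≤ C ^ 2 := by positivity
  refine ⟨E, q' * q'', w' * q'' + q' * w'' + σ' μ * σ'' μ, fun l => σ' l * q'' + q' * σ'' l, C',
    hO, ?_, ?_, ?_, fun l => ?_, ?_, fun l => ?_, ?_, fun l => ?_, by linarith, ?_, ?_,
    fun l => ?_⟩
  · rw [IsSelfAdjoint, st hq tq, q1, q2]
  · refine c3 _ (by rw [← mul_assoc, h'.gb, zero_mul]) ?_
    rw [(cm hq tq).eq, ← mul_assoc, h''.gb, zero_mul]
  · rw [show 1 - q' * q'' = (1 - q') + q' * (1 - q'') by noncomm_ring, mul_add, c4 _ h'.ga,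
      c5 _ ?_, add_zero]
    rw [(cm hq (sub_mem (one_mem T) tq)).eq, ← mul_assoc, h''.ga, zero_mul]
  · rw [mul_add, c1 _ (by rw [← mul_assoc, h'.oz.toPreOZ.hh_mul_of (h'.eσ l)]),
      c2 _ (by rw [(cm hq (tσ l)).eq, ← mul_assoc, h''.oz.toPreOZ.hh_mul_of (h''.eσ l)])
        (by rw [← mul_assoc, h'.gb, zero_mul]), ← mul_assoc, h'.eσ, (cm hq (tσ l)).eq,
      ← mul_assoc, h''.eσ]
  · rw [mul_add, mul_add, c1 _ (by rw [← mul_assoc, h'.oz.toPreOZ.hh_mul_of h'.ew]),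
      c2 _ (by rw [(cm hq tw).eq, ← mul_assoc, h''.oz.toPreOZ.hh_mul_of h''.ew])
        (by rw [← mul_assoc, h'.gb, zero_mul]),
      c1 _ (by rw [← mul_assoc, h'.oz.toPreOZ.hh_mul_of (h'.eσ μ)]), ← mul_assoc, h'.ew,
      (cm hq tw).eq, ← mul_assoc, h''.ew, ← mul_assoc, h'.eσ]
  · simp only [mul_add, pp (hσ _) tq, pp hq tq, h'.qσ, h''.qσ, zero_mul, mul_zero, add_zero]
  · simp only [mul_add, pp (hσ _) tq, pp hq tq, pp hw tq, h'.qσ, h'.qw, h''.qw, zero_mul,
      mul_zero, add_zero]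
  · rw [sww]
    simp only [mul_add, add_mul, pp (hσ _) tq, pp hq tq, pp (hσ _) (star_mem (tσ _)),
      pp hq (star_mem (tσ _)), pp (hσ _) (star_mem tw), pp hq (star_mem tw), z1, z2, z3,
      h'.qσ, h'.wσ, h''.wσ, zero_mul, mul_zero, add_zero]
  · have sp : ∀ f : Fin n → G, ∑ l : Fin n with m ≤ l.val, f l =
        ∑ l : Fin n with m + 1 ≤ l.val, f l + f μ := by
      intro f
      rw [add_comm, ← Finset.sum_insert (by simp [hμ])]
      refine Finset.sum_congr ?_ fun _ _ => rfl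
      ext l
      simp only [Finset.mem_filter, Finset.mem_univ, true_and, Finset.mem_insert, Fin.ext_iff]
      omega
    have l1 := pos_iff.1 h'.low
    have l2 := pos_iff.1 h''.low
    have l3 : 0 ≤ (((n : ℝ) + 1) * C) • (q'' * q'') -
        (star w'' * w'' + ∑ l : Fin n with m ≤ l.val, star (σ'' l) * σ'' l) := by
      have a1 : ∑ l : Fin n with m ≤ l.val, star (σ'' l) * σ'' l ≤
          ∑ l : Fin n, star (σ'' l) * σ'' l :=
        Finset.sum_le_sum_of_subset_of_nonneg (Finset.filter_subset _ _)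
          fun l _ _ => star_mul_self_nonneg _
      have a2 : ∑ l : Fin n, star (σ'' l) * σ'' l ≤ ∑ _l : Fin n, C • (q'' * q'') :=
        Finset.sum_le_sum fun l _ => sub_nonneg.1 (u2 l)
      rw [Finset.sum_const, Finset.card_univ, Fintype.card_fin, ← Nat.cast_smul_eq_nsmul ℝ,
        smul_smul] at a2
      rw [sub_nonneg, add_mul, one_mul, add_smul, add_comm ((_ * C) • _)]
      exact add_le_add (sub_nonneg.1 (pos_iff.1 h''.upw)) (a1.trans a2)
    rw [sp, ← add_assoc] at l1 l2 l3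
    obtain ⟨P1, hP1⟩ : ∃ P1, P1 = star w' * w' +
      ∑ l : Fin n with m + 1 ≤ l.val, star (σ' l) * σ' l := ⟨_, rfl⟩
    obtain ⟨P2, hP2⟩ : ∃ P2, P2 = star w'' * w'' +
      ∑ l : Fin n with m + 1 ≤ l.val, star (σ'' l) * σ'' l := ⟨_, rfl⟩
    have mP1 : P1 ∈ S := hP1 ▸ add_mem mW1 (sum_mem fun l _ => mS1 l)
    have mP2 : P2 ∈ T := hP2 ▸ add_mem mW2 (sum_mem fun l _ => mS2 l)
    have nP1 : 0 ≤ P1 := hP1 ▸ add_nonneg (star_mul_self_nonneg _)
      (Finset.sum_nonneg fun l _ => star_mul_self_nonneg _)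
    have nP2 : 0 ≤ P2 := hP2 ▸ add_nonneg (star_mul_self_nonneg _)
      (Finset.sum_nonneg fun l _ => star_mul_self_nonneg _)
    rw [← hP1] at l1
    rw [← hP2] at l2 l3
    rw [pos_iff, eq]
    convert low_aux (C' := C') hC (by linarith) (by linarith) (by linarith)
      (pm (sub_mem (sm S C (add_mem mP1 (mS1 μ))) mQ1) mQ2 l1 nq2)
      (pm (add_mem mP1 (mS1 μ)) (sub_mem (sm T C (add_mem mP2 (mS2 μ))) mQ2)
        (add_nonneg nP1 (star_mul_self_nonneg _)) l2)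
      (pm mP1 (sub_mem (sm T _ mQ2) (add_mem mP2 (mS2 μ))) nP1 l3)
      (pm (sub_mem (sm S C mQ1) (mS1 μ)) mP2 (u1 μ) nP2) (pm mP1 mQ2 nP1 nq2)
      (pm mQ1 mP2 nq1 nP2)
      (pm (mS1 μ) (mS2 μ) (star_mul_self_nonneg _) (star_mul_self_nonneg _)) using 3
    simp only [ew, eσ, hP1, hP2, Finset.sum_add_distrib, add_mul, mul_add, Finset.sum_mul,
      Finset.mul_sum]
    abel
  · rw [pos_iff, eq, ew]
    convert add_nonneg (add_nonneg (add_nonneg
      (pm (sub_mem (sm S C mQ1) mW1) mQ2 (pos_iff.1 h'.upw) nq2)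
      (pm mQ1 (sub_mem (sm T C mQ2) mW2) nq1 (pos_iff.1 h''.upw))) (add_nonneg
      (pm (sub_mem (sm S C mQ1) (mS1 μ)) (mS2 μ) (u1 μ) (star_mul_self_nonneg _))
      (smul_nonneg hC (pm mQ1 (sub_mem (sm T C mQ2) (mS2 μ)) nq1 (u2 μ)))))
      (smul_nonneg (by linarith : 0 ≤ C' - 2 * C - C ^ 2) nqq) using 1
    generalize q' * q' = Q1
    generalize q'' * q'' = Q2
    simp only [mul_sub, sub_mul, smul_mul_assoc, mul_smul_comm]
    module
  · rw [pos_iff, eq, eσ]
    convert add_nonneg (add_nonneg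
      (pm (sub_mem (sm S C mQ1) (mS1 l)) mQ2 (u1 l) nq2)
      (pm mQ1 (sub_mem (sm T C mQ2) (mS2 l)) nq1 (u2 l)))
      (smul_nonneg (by linarith : 0 ≤ C' - 2 * C) nqq) using 1
    simp only [mul_sub, sub_mul, smul_mul_assoc, mul_smul_comm]
    module

private lemma blk_transfer {A : Type u} [CStarAlgebra A] {π θ : A →⋆ₐ[ℂ] G}
    (hk : ∀ a b, π a = π b → θ a = θ b) {m : ℕ} {E : ι → ι → A} {q w : A} {σ : Fin n → A} {C : ℝ}
    (h : Blk o m (fun i j => π (E i j)) (π q) (π w) (fun l => π (σ l)) C) :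
    Blk o m (fun i j => θ (E i j)) (θ q) (θ w) (fun l => θ (σ l)) C := by
  have k0 : ∀ a, π a = 0 → θ a = 0 := fun a ha => by
    simpa using hk a 0 (by simpa using ha)
  obtain ⟨b, bs, hb⟩ := exists_sa_lift π (hh E) (by rw [map_hh]; exact h.oz.toPreOZ.hh_sa)
  have hb' := hk _ _ hb
  rw [map_hh] at hb hb'
  refine ⟨h.oz.transfer hk, ?_, ?_, ?_, fun l => ?_, ?_, fun l => ?_, ?_, fun l => ?_, h.C_nonneg,
    ?_, ?_, fun l => ?_⟩
  · rw [IsSelfAdjoint, ← map_star]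
    exact hk (star q) q (by simpa [map_star] using h.q_sa.star_eq)
  · have := k0 (Gb b * q) (by
      rw [map_mul, Gb, map_cfc_real π (by fun_prop) bs, hb]; exact h.gb)
    rwa [map_mul, Gb, map_cfc_real θ (by fun_prop) bs, hb'] at this
  · have := k0 (Ga b * (1 - q)) (by
      rw [map_mul, Ga, map_cfc_real π (by fun_prop) bs, hb, map_sub, map_one]; exact h.ga)
    rwa [map_mul, Ga, map_cfc_real θ (by fun_prop) bs, hb', map_sub, map_one] at this
  · simpa using hk (E o o * σ l) (σ l) (by simpa using h.eσ l)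
  · simpa using hk (E o o * w) w (by simpa using h.ew)
  · simpa using k0 (q * σ l) (by simpa using h.qσ l)
  · simpa using k0 (q * w) (by simpa using h.qw)
  · simpa [map_star] using k0 (star w * σ l) (by simpa [map_star] using h.wσ l)
  · have := Pos.transfer hk
      (a := C • (star w * w + ∑ l : Fin n with m ≤ l.val, star (σ l) * σ l) - q * q) (by
        simpa only [map_sub, map_smul_real, map_add, map_mul, map_sum, map_star] using h.low)
    simpa only [map_sub, map_smul_real, map_add, map_mul, map_sum, map_star] using this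
  · have := Pos.transfer hk (a := C • (q * q) - star w * w) (by
      simpa only [map_sub, map_smul_real, map_mul, map_star] using h.upw)
    simpa only [map_sub, map_smul_real, map_mul, map_star] using this
  · have := Pos.transfer hk (a := C • (q * q) - star (σ l) * σ l) (by
      simpa only [map_sub, map_smul_real, map_mul, map_star] using h.upσ l)
    simpa only [map_sub, map_smul_real, map_mul, map_star] using this

theorem blk_step (hSA : SA G) {m : ℕ} (hm : m < n) {E : ι → ι → G} {q w : G} {σ : Fin n → G}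
    {C : ℝ} (h : Blk o m E q w σ C) :
    ∃ (E : ι → ι → G) (q w : G) (σ : Fin n → G) (C' : ℝ), Blk o (m + 1) E q w σ C' := by
  obtain ⟨X, hX, x1, x2, x3, x4⟩ : ∃ X : Set G, X.Finite ∧ (∀ i j, E i j ∈ X) ∧ q ∈ X ∧ w ∈ X ∧
      ∀ l, σ l ∈ X :=
    ⟨insert q (insert w (Set.range (fun p : ι × ι => E p.1 p.2) ∪ Set.range σ)),
      (((Set.finite_range _).union (Set.finite_range _)).insert _).insert _,
      fun i j => Or.inr (Or.inr (Or.inl ⟨(i, j), rfl⟩)), Or.inl rfl, Or.inr (Or.inl rfl),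
      fun l => Or.inr (Or.inr (Or.inr ⟨l, rfl⟩))⟩
  obtain ⟨A, _, π, θ, hk, hl, hc⟩ := hSA X X hX hX
  choose E₀ hE₀ using fun i j => hl _ (x1 i j)
  obtain ⟨q₀, hq₀⟩ := hl _ x2
  obtain ⟨w₀, hw₀⟩ := hl _ x3
  choose σ₀ hσ₀ using fun l => hl _ (x4 l)
  have h2 := blk_transfer (o := o) (m := m) (E := E₀) (q := q₀) (w := w₀) (σ := σ₀) (C := C) hk
    (by simpa only [hE₀, hq₀, hw₀, hσ₀] using h)
  have mS : ∀ x ∈ X, x ∈ cent (Set.range θ) := fun x hx => mem_cent.2 (by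
    rintro _ ⟨e, rfl⟩
    exact ⟨hc e x hx, by rw [← map_star]; exact hc _ x hx⟩)
  have cS : ∀ s ∈ cent (Set.range θ), ∀ e, Commute s (θ e) := fun s hs e =>
    (mem_cent.1 hs _ ⟨e, rfl⟩).1.symm
  exact blk_merge hm h h2 (cent (Set.range θ)) (fun i j => mS _ (x1 i j)) (mS _ x2) (mS _ x3)
    (fun l => mS _ (x4 l)) (fun s hs i j => cS s hs _) (fun s hs => cS s hs _)
    (fun s hs => cS s hs _) fun s hs l => cS s hs _

theorem blk_final {E : ι → ι → G} {q w : G} {σ : Fin n → G} {C : ℝ} (h : Blk o n E q w σ C) :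
    ∃ (E : ι → ι → G) (v : G), IsOZ E ∧ star v * v = 1 - hh E ∧ E o o * v = v := by
  let _ := CStarAlgebra.spectralOrder G
  have _ := CStarAlgebra.spectralOrderedRing G
  have hs := h.oz.toPreOZ.hh_sa
  have hO := h.oz.toPreOZ.renorm (ε := 1 / 3) (by norm_num)
  have hpos : ∀ t : ℝ, max (1 / 3) t ≠ 0 := fun t =>
    (lt_of_lt_of_le (by norm_num) (le_max_left _ _)).ne'
  have hc : Continuous fun t : ℝ => t / max (1 / 3) t :=
    continuous_id.div (by fun_prop) hpos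
  obtain ⟨r, hr⟩ : ∃ r, r = 1 - hh (renorm (1 / 3) E) := ⟨_, rfl⟩
  have r0 : 0 ≤ r := hr ▸ pos_iff.1 hO.le_one
  have r1 : 0 ≤ 1 - r := by rw [hr, sub_sub_cancel]; exact pos_iff.1 hO.pos
  have rG : r = (3 : ℝ) • Ga (hh E) := by
    rw [hr, h.oz.toPreOZ.hh_renorm (by norm_num), Ga, ← cfc_const_one ℝ (hh E),
      ← cfc_sub _ _ _ (by fun_prop) hc.continuousOn, ← cfc_smul ..]
    refine cfc_congr fun t _ => ?_
    simp only [smul_eq_mul]
    rcases le_total t (1 / 3) with ht | ht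
    · rw [max_eq_left ht, max_eq_left (by linarith)]; ring
    · rw [max_eq_right ht, max_eq_right (by linarith), div_self (by linarith)]; ring
  have rq : r * q = r := by
    have : r * (1 - q) = 0 := by rw [rG, smul_mul_assoc, h.ga, smul_zero]
    rw [mul_sub, mul_one, sub_eq_zero] at this
    exact this.symm
  have qr : q * r = r := by
    simpa [h.q_sa.star_eq, r0.isSelfAdjoint.star_eq] using congrArg star rq
  have l := pos_iff.1 h.low
  rw [Finset.sum_eq_zero (fun l hl => absurd l.isLt (not_lt.2 (Finset.mem_filter.1 hl).2)), add_zero] at l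
  have aa : CFC.sqrt r * CFC.sqrt r = r := CFC.sqrt_mul_sqrt_self r r0
  obtain ⟨v, v1, v2⟩ := exists_douglas (a := CFC.sqrt r) (w := w)
    (CFC.sqrt_nonneg r).isSelfAdjoint h.C_nonneg (by
      rw [pos_iff, aa]
      convert add_nonneg l (conjugate_nonneg_of_nonneg_sa r1 h.q_sa) using 1
      rw [mul_sub, sub_mul, mul_one, qr, rq]
      abel)
  refine ⟨renorm (1 / 3) E, v, hO, by rw [v1, aa, hr], v2 _ ?_⟩
  rw [renorm, mul_assoc, h.ew, cfc_mul_of_eigen hs (t := 1) (f := fun t => (max (1 / 3) t)⁻¹)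
    (by rw [h.oz.toPreOZ.hh_mul_of h.ew, one_smul]) (Continuous.inv₀ (by fun_prop) hpos)]
  norm_num

theorem exists_rw (hSA : SA G) {E : ι → ι → G} {z : Fin n → G} {C : ℝ} (hE : IsOZ E)
    (hz : ∀ l, E o o * z l = z l) (hC : 0 ≤ C) (h : Pos (C • ∑ l, star (z l) * z l - 1)) :
    ∃ (E : ι → ι → G) (v : G), IsOZ E ∧ star v * v = 1 - hh E ∧ E o o * v = v := by
  have key : ∀ m ≤ n, ∃ (E : ι → ι → G) (q w : G) (σ : Fin n → G) (C' : ℝ),
      Blk o m E q w σ C' := by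
    intro m
    induction m with
    | zero => exact fun _ => ⟨E, blk_base hE hz hC h⟩
    | succ m ih =>
      intro hm
      obtain ⟨E, q, w, σ, C', hb⟩ := ih (by omega)
      exact blk_step hSA (by omega) hb
  obtain ⟨E, q, w, σ, C', hb⟩ := key n le_rfl
  exact blk_final hb

end Vale.Agent.P101
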