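import Vale.Agent.P101.Prime

/-! Combining two commuting order zero maps. -/

namespace Vale.Agent.P101
universe u

namespace Comb

/-- Rotation parameter. -/
noncomputable def th (s t : ℝ) : ℝ := max 0 (min 1 (3 - 3 * s)) * max 0 (min 1 (12 * t - 1))

/-- The new unit. -/
noncomputable def mf (s t : ℝ) : ℝ := min (max s t) (max 0 (2 * max s t - 1 / 3))

/-- First coefficient. -/
noncomputable def f1 (s t : ℝ) : ℝ := mf s t * (1 - th s t) * (max (1 / 12) s)⁻¹

/-- Mixed coefficient. -/
noncomputable def f2 (s t : ℝ) : ℝ :=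
  mf s t * (√(1 - th s t) * √(th s t)) * ((max (1 / 12) s)⁻¹ * (max (1 / 12) s)⁻¹ * (max (1 / 12) t)⁻¹)

/-- Last coefficient. -/
noncomputable def f3 (s t : ℝ) : ℝ := mf s t * th s t * (max (1 / 12) t)⁻¹

lemma c_th : Continuous fun p : ℝ × ℝ => th p.1 p.2 := by unfold th; fun_prop

lemma c_mf : Continuous fun p : ℝ × ℝ => mf p.1 p.2 := by unfold mf; fun_prop

lemma c_i1 : Continuous fun p : ℝ × ℝ => (max (1 / 12) p.1)⁻¹ :=
  (continuous_inv_max (by norm_num)).comp continuous_fst

lemma c_i2 : Continuous fun p : ℝ × ℝ => (max (1 / 12) p.2)⁻¹ :=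
  (continuous_inv_max (by norm_num)).comp continuous_snd

lemma c_f1 : Continuous fun p : ℝ × ℝ => f1 p.1 p.2 :=
  (c_mf.mul (continuous_const.sub c_th)).mul c_i1

lemma c_f2 : Continuous fun p : ℝ × ℝ => f2 p.1 p.2 :=
  (c_mf.mul ((continuous_const.sub c_th).sqrt.mul c_th.sqrt)).mul ((c_i1.mul c_i1).mul c_i2)

lemma c_f3 : Continuous fun p : ℝ × ℝ => f3 p.1 p.2 := (c_mf.mul c_th).mul c_i2

lemma th_mem (s t : ℝ) : 0 ≤ th s t ∧ th s t ≤ 1 :=
  ⟨mul_nonneg (le_max_left _ _) (le_max_left _ _),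
    mul_le_one₀ (max_le zero_le_one (min_le_left _ _)) (le_max_left _ _)
      (max_le zero_le_one (min_le_left _ _))⟩

lemma mf_small {s t : ℝ} (h0 : 0 ≤ s) (hs : s ≤ 1 / 6) (ht : t ≤ 1 / 6) : mf s t = 0 := by
  have := max_le hs ht
  rw [mf, max_eq_left (a := 0) (by linarith), min_eq_right (le_max_of_le_left h0)]

lemma mf_big {s t : ℝ} (h : 1 / 3 ≤ max s t) : mf s t = max s t :=
  min_eq_left (le_max_of_le_right (by linarith))

lemma th_one {s t : ℝ} (hs : s ≤ 2 / 3) (ht : 1 / 6 ≤ t) : th s t = 1 := by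
  rw [th, min_eq_left (by linarith), min_eq_left (by linarith)]; simp

lemma cases {s t : ℝ} (hs : 0 ≤ s) :
    (f2 s t = 0 ∧ f3 s t = 0 ∧ f1 s t * s = mf s t) ∨
    (f2 s t = 0 ∧ f1 s t = 0 ∧ f3 s t * t = mf s t) ∨
    (0 < s ∧ 0 < t ∧ ∃ c d : ℝ, c * c + d * d = 1 ∧ f1 s t * s = mf s t * (c * c) ∧
      f3 s t * t = mf s t * (d * d) ∧ f2 s t * (s * t * s) = mf s t * (c * d)) := by
  rcases le_total t (1 / 12) with ht | ht
  · left
    have h0 : th s t = 0 := by
      rw [th, max_eq_left (b := min 1 (12 * t - 1)) (min_le_of_right_le (by linarith)), mul_zero]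
    refine ⟨by simp [f2, h0], by simp [f3, h0], ?_⟩
    rcases le_total s (1 / 12) with h | h
    · simp [f1, mf_small hs (by linarith) (by linarith : t ≤ 1 / 6)]
    · have : s ≠ 0 := by linarith
      rw [f1, h0, max_eq_right h]; field_simp; ring
  · have ht0 : t ≠ 0 := by linarith
    rcases le_total s (1 / 12) with h | h
    · right; left
      rcases le_total t (1 / 6) with h2 | h2
      · simp [f1, f2, f3, mf_small hs (by linarith) h2]
      · have h1 := th_one (s := s) (by linarith) h2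
        refine ⟨by simp [f2, h1], by simp [f1, h1], ?_⟩
        rw [f3, h1, max_eq_right ht]; field_simp
    · have hs0 : s ≠ 0 := by linarith
      have h1 := Real.mul_self_sqrt (th_mem s t).1
      have h2 := Real.mul_self_sqrt (sub_nonneg.2 (th_mem s t).2)
      refine Or.inr (Or.inr ⟨by linarith, by linarith, √(1 - th s t), √(th s t), by linarith,
        ?_, ?_, ?_⟩)
      · rw [h2, f1, max_eq_right h]; field_simp
      · rw [h1, f3, max_eq_right ht]; field_simp
      · rw [f2, max_eq_right h, max_eq_right ht]; field_simp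

variable {ι : Type} [Fintype ι] [DecidableEq ι]

/-- The flip built from two commuting systems. -/
def flip {Q : Type*} [Ring Q] (A B : ι → ι → Q) : Q := ∑ a, ∑ b, A a b * B b a

section units
variable {Q : Type*} [CStarAlgebra Q] {a b : ι → ι → Q}
  (ha : ∀ i j k l, a i j * a k l = if j = k then a i l else 0)
  (hb : ∀ i j k l, b i j * b k l = if j = k then b i l else 0)
  (hc : ∀ i j k l, Commute (a i j) (b k l))
include ha hb hc

lemma flip_mul (i j : ι) : flip a b * a i j = b i j * flip a b := by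
  have h1 : flip a b * a i j = ∑ x, a x j * b i x := by
    simp only [flip, Finset.sum_mul]
    refine Finset.sum_congr rfl fun x _ => ?_
    simp only [mul_assoc, ← (hc _ _ _ _).eq]
    simp [← mul_assoc, ha]
  have h2 : b i j * flip a b = ∑ x, a x j * b i x := by
    simp only [flip, Finset.mul_sum]
    refine Finset.sum_congr rfl fun x _ => ?_
    simp only [← mul_assoc, ← (hc _ _ _ _).eq]
    simp [mul_assoc, hb]
  rw [h1, h2]

lemma flip_sq (h1 : ∑ i, a i i = 1) (h2 : ∑ i, b i i = 1) : flip a b * flip a b = 1 := by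
  have e : ∀ x y, a x y * b y x * flip a b = a x x * b y y := fun x y => by
    rw [mul_assoc, ← flip_mul ha hb hc]
    simp only [flip, Finset.sum_mul, Finset.mul_sum]
    have : ∀ z w, a x y * (a z w * b w z * a y x) =
        if y = z then (if w = y then a x x * b w z else 0) else 0 := fun z w => by
      rw [mul_assoc, ← (hc _ _ _ _).eq, ← mul_assoc, ← mul_assoc, ha]
      split_ifs with h3 h4
      · simp [ha, h4]
      · simp [ha, h4]
      · simp
    simp [this]
  nth_rw 1 [flip]
  simp only [Finset.sum_mul, e, ← Finset.mul_sum, h2, mul_one, h1]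

end units

omit [DecidableEq ι] in
lemma star_flip {Q : Type*} [CStarAlgebra Q] {A B : ι → ι → Q} (hA : ∀ i j, star (A i j) = A j i)
    (hB : ∀ i j, star (B i j) = B j i) (hc : ∀ i j k l, Commute (A i j) (B k l)) :
    star (flip A B) = flip A B := by
  simp only [flip, star_sum, star_mul, hA, hB]
  rw [Finset.sum_comm]
  simp only [(hc _ _ _ _).eq]

/-- The combined map with scalar coefficients. -/
noncomputable def cmb {Q : Type*} [CStarAlgebra Q] (g1 g2 g3 : Q) (A B : ι → ι → Q) (i j : ι) : Q :=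
  g1 * A i j + Complex.I • (g2 * (flip A B * A i j - A i j * flip A B)) + g3 * B i j

lemma fibre {Q : Type*} [CStarAlgebra Q] {A B : ι → ι → Q} {s t : ℝ} (hs : 0 ≤ s)
    (hA : ∀ i j k l, A i j * A k l = if j = k then s • A i l else 0)
    (hB : ∀ i j k l, B i j * B k l = if j = k then t • B i l else 0)
    (sA : ∑ i, A i i = s • 1) (sB : ∑ i, B i i = t • 1)
    (hc : ∀ i j k l, Commute (A i j) (B k l)) {E : ι → ι → Q}
    (hE : E = cmb (algebraMap ℝ Q (f1 s t)) (algebraMap ℝ Q (f2 s t)) (algebraMap ℝ Q (f3 s t)) A B) :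
    (∀ i j k l, E i j * E k l = if j = k then mf s t • E i l else 0) ∧ ∑ i, E i i = mf s t • 1 := by
  rcases cases (t := t) hs with ⟨h2, h3, h1⟩ | ⟨h2, h1, h3⟩ | ⟨hs, ht, c, d, hcd, h1, h3, h2⟩
  · have e : ∀ i j, E i j = f1 s t • A i j := fun i j => by
      simp [hE, cmb, h2, h3, Algebra.smul_def]
    refine ⟨fun i j k l => ?_, ?_⟩
    · simp only [e, smul_mul_smul_comm, hA]
      split_ifs
      · rw [smul_smul, smul_smul, ← h1]; congr 1; ring
      · simp
    · simp only [e, ← Finset.smul_sum, sA, smul_smul, h1]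
  · have e : ∀ i j, E i j = f3 s t • B i j := fun i j => by
      simp [hE, cmb, h2, h1, Algebra.smul_def]
    refine ⟨fun i j k l => ?_, ?_⟩
    · simp only [e, smul_mul_smul_comm, hB]
      split_ifs
      · rw [smul_smul, smul_smul, ← h3]; congr 1; ring
      · simp
    · simp only [e, ← Finset.smul_sum, sB, smul_smul, h3]
  · obtain ⟨a, rfl⟩ : ∃ a : ι → ι → Q, A = fun i j => s • a i j :=
      ⟨fun i j => s⁻¹ • A i j, by simp [smul_smul, hs.ne']⟩
    obtain ⟨b, rfl⟩ : ∃ b : ι → ι → Q, B = fun i j => t • b i j :=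
      ⟨fun i j => t⁻¹ • B i j, by simp [smul_smul, ht.ne']⟩
    have ha : ∀ i j k l, a i j * a k l = if j = k then a i l else 0 := fun i j k l => by
      refine smul_right_injective Q (mul_pos hs hs).ne' ?_
      have := hA i j k l
      simp only [smul_mul_smul_comm, smul_smul] at this
      simp only [this]; split_ifs <;> simp
    have hb : ∀ i j k l, b i j * b k l = if j = k then b i l else 0 := fun i j k l => by
      refine smul_right_injective Q (mul_pos ht ht).ne' ?_
      have := hB i j k l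
      simp only [smul_mul_smul_comm, smul_smul] at this
      simp only [this]; split_ifs <;> simp
    have hc' : ∀ i j k l, Commute (a i j) (b k l) := fun i j k l => by
      refine smul_right_injective Q (mul_pos hs ht).ne' ?_
      have := (hc i j k l).eq
      simp only [smul_mul_smul_comm, mul_comm t s] at this
      exact this
    have s1 : ∑ i, a i i = 1 := smul_right_injective Q hs.ne' (by
      simpa only [Finset.smul_sum] using sA)
    have s2 : ∑ i, b i i = 1 := smul_right_injective Q ht.ne' (by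
      simpa only [Finset.smul_sum] using sB)
    have hF : flip (fun i j => s • a i j) (fun i j => t • b i j) = (s * t) • flip a b := by
      simp only [flip, smul_mul_smul_comm, Finset.smul_sum]
    have hF2 := flip_sq ha hb hc' s1 s2
    have hFa : ∀ i j, flip a b * a i j * flip a b = b i j := fun i j => by
      rw [flip_mul ha hb hc', mul_assoc, hF2, mul_one]
    set F := flip a b
    let U : Q := (c : ℂ) • 1 + (Complex.I * d) • F
    let V : Q := (c : ℂ) • 1 - (Complex.I * d) • F
    have hcd' : (c : ℂ) * c + d * d = 1 := by exact_mod_cast hcd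
    have hI := Complex.I_mul_I
    have hVU : V * U = 1 := by
      simp only [U, V, mul_add, sub_mul, smul_mul_smul_comm, hF2, one_mul, mul_one]
      match_scalars
      · linear_combination hcd' - (d : ℂ) * d * hI
      · ring
    have hUV : U * V = 1 := by
      simp only [U, V, mul_sub, add_mul, smul_mul_smul_comm, hF2, one_mul, mul_one]
      match_scalars
      · linear_combination hcd' - (d : ℂ) * d * hI
      · ring
    have e : ∀ i j, E i j = mf s t • (U * a i j * V) := fun i j => by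
      have k1 : (f1 s t : ℂ) * s = mf s t * (c * c) := by exact_mod_cast h1
      have k2 : (f2 s t : ℂ) * (s * t * s) = mf s t * (c * d) := by exact_mod_cast h2
      have k3 : (f3 s t : ℂ) * t = mf s t * (d * d) := by exact_mod_cast h3
      rw [hE, cmb, hF]
      simp only [U, V, mul_sub, add_mul, smul_mul_assoc, mul_smul_comm, one_mul,
        mul_one, ← Algebra.smul_def, hFa, ← Complex.coe_smul]
      match_scalars
      · linear_combination k1
      · linear_combination Complex.I * k2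
      · linear_combination -Complex.I * k2
      · linear_combination k3 + (mf s t : ℂ) * d * d * hI
    refine ⟨fun i j k l => ?_, ?_⟩
    · simp only [e, smul_mul_smul_comm]
      rw [show U * a i j * V * (U * a k l * V) = U * (a i j * (V * U) * a k l) * V by
        simp only [mul_assoc], hVU, mul_one, ha]
      split_ifs <;> simp [smul_smul]
    · simp only [e, ← Finset.smul_sum, ← Finset.sum_mul, ← Finset.mul_sum, s1, mul_one, hUV]

variable {G : Type u} [CStarAlgebra G]

lemma central {E' E'' : ι → ι → G} (h' : IsOZ E') (h'' : IsOZ E'')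
    (hc : ∀ i j k l, Commute (E' i j) (E'' k l)) (cx : ∀ g, Commute (hh E') g)
    (cy : ∀ g, Commute (hh E'') g) :
    ∃ E : ι → ι → G, IsOZ E ∧ ∀ P : PQ G, ∃ s t : ℝ, s ≤ 1 ∧ t ≤ 1 ∧
      P.π (hh E') = algebraMap ℝ _ s ∧ P.π (hh E'') = algebraMap ℝ _ t ∧
      P.π (hh E) = algebraMap ℝ _ (mf s t) ∧ (s = 1 → ∀ i j, P.π (E i j) = P.π (E' i j)) ∧
      (t = 1 → s ≤ 2 / 3 → ∀ i j, P.π (E i j) = P.π (E'' i j)) := by
  let κ : (ℝ → ℝ → ℝ) → G := fun f => k2 f (hh E') (hh E'')
  let E := cmb (κ f1) (κ f2) (κ f3) E' E''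
  have key : ∀ P : PQ G, ∃ s t : ℝ, 0 ≤ s ∧ s ≤ 1 ∧ t ≤ 1 ∧
      P.π (hh E') = algebraMap ℝ _ s ∧ P.π (hh E'') = algebraMap ℝ _ t ∧
      (∀ f : ℝ → ℝ → ℝ, (Continuous fun p : ℝ × ℝ => f p.1 p.2) →
        P.π (κ f) = algebraMap ℝ _ (f s t)) ∧
      ((fun i j => P.π (E i j)) = cmb (algebraMap ℝ _ (f1 s t)) (algebraMap ℝ _ (f2 s t))
        (algebraMap ℝ _ (f3 s t)) (fun i j => P.π (E' i j)) fun i j => P.π (E'' i j)) ∧
      (∀ i j k l, P.π (E i j) * P.π (E k l) = if j = k then mf s t • P.π (E i l) else 0) ∧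
      P.π (hh E) = algebraMap ℝ _ (mf s t) := fun P => by
    obtain ⟨s, hs⟩ := P.scalar h'.hh_sa cx
    obtain ⟨t, ht⟩ := P.scalar h''.hh_sa cy
    have hκ : ∀ f : ℝ → ℝ → ℝ, (Continuous fun p : ℝ × ℝ => f p.1 p.2) →
        P.π (κ f) = algebraMap ℝ _ (f s t) := fun f hf =>
      map_k2 P.π h'.hh_sa h''.hh_sa (cx _) hs ht hf
    have b1 : ∀ {X : ι → ι → G} {r : ℝ}, IsOZ X → P.π (hh X) = algebraMap ℝ _ r → 0 ≤ r ∧ r ≤ 1 ∧
        (∀ i j k l, P.π (X i j) * P.π (X k l) = if j = k then r • P.π (X i l) else 0) ∧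
        ∑ i, P.π (X i i) = r • 1 := fun {X r} hX hr => by
      refine ⟨pos_algebraMap_iff.1 (hr ▸ hX.pos.map P.π), ?_, fun i j k l => ?_, ?_⟩
      · have := hX.le_one.map P.π
        rw [map_sub, map_one, hr, ← map_one (algebraMap ℝ P.Q), ← map_sub,
          pos_algebraMap_iff] at this
        linarith
      · rw [← map_mul, hX.mul_eq]
        split_ifs
        · rw [map_mul, hr, Algebra.smul_def]
        · simp
      · rw [← Algebra.algebraMap_eq_smul_one, ← hr, map_hh, hh]
    obtain ⟨s0, s1, sm, ss⟩ := b1 h' hs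
    obtain ⟨t0, t1, tm, ts⟩ := b1 h'' ht
    have hE : (fun i j => P.π (E i j)) = cmb (algebraMap ℝ _ (f1 s t)) (algebraMap ℝ _ (f2 s t))
        (algebraMap ℝ _ (f3 s t)) (fun i j => P.π (E' i j)) fun i j => P.π (E'' i j) := by
      ext i j
      simp only [E, cmb, flip, map_add, map_mul, map_smul, map_sub, map_sum, hκ _ c_f1, hκ _ c_f2,
        hκ _ c_f3]
    obtain ⟨m1, m2⟩ := fibre s0 sm tm ss ts (fun i j k l => (hc i j k l).map P.π) hE
    exact ⟨s, t, s0, s1, t1, hs, ht, hκ, hE, m1, by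
      rw [map_hh, hh, m2, Algebra.algebraMap_eq_smul_one]⟩
  refine ⟨E, ⟨⟨fun i j => eq_of_pq fun P => ?_, fun i j k l => eq_of_pq fun P => ?_,
    ⟨κ fun s t => √(mf s t), eq_of_pq fun P => ?_⟩⟩,
    ⟨κ fun s t => √(1 - mf s t), eq_of_pq fun P => ?_⟩⟩, fun P => ?_⟩
  · obtain ⟨s, t, -, -, -, -, -, -, hE, -⟩ := key P
    have sA : ∀ i j, star (P.π (E' i j)) = P.π (E' j i) := fun i j => by
      rw [← map_star, h'.star_eq]
    have sB : ∀ i j, star (P.π (E'' i j)) = P.π (E'' j i) := fun i j => by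
      rw [← map_star, h''.star_eq]
    have hF := star_flip sA sB fun i j k l => (hc i j k l).map P.π
    rw [map_star, congrFun₂ hE i j, congrFun₂ hE j i]
    simp only [cmb, ← Algebra.smul_def, star_add, star_smul, star_sub, star_mul, sA, sB, hF,
      star_trivial, Complex.star_def, Complex.conj_I]
    module
  · obtain ⟨s, t, -, -, -, -, -, -, -, m1, m2⟩ := key P
    rw [map_mul, m1]
    split_ifs
    · rw [map_mul, m2, Algebra.smul_def]
    · simp
  · obtain ⟨s, t, s0, -, -, -, -, hκ, -, -, m2⟩ := key P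
    rw [m2, map_mul, map_star, hκ _ c_mf.sqrt, ← algebraMap_star_comm, ← map_mul, star_trivial,
      Real.mul_self_sqrt (x := mf s t) (le_min (le_max_of_le_left s0) (le_max_left _ _))]
  · obtain ⟨s, t, s0, s1, t1, -, -, hκ, -, -, m2⟩ := key P
    rw [map_sub, m2, map_mul, map_star, hκ _ (continuous_const.sub c_mf).sqrt,
      ← algebraMap_star_comm, ← map_mul, star_trivial,
      Real.mul_self_sqrt (x := 1 - mf s t) (sub_nonneg.2 (min_le_of_left_le (max_le s1 t1))),
      map_one, map_sub, map_one]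
  · obtain ⟨s, t, s0, s1, t1, hs, ht, -, hE, -, m2⟩ := key P
    refine ⟨s, t, s1, t1, hs, ht, m2, ?_, ?_⟩
    · rintro rfl i j
      have h0 : th 1 t = 0 := by norm_num [th]
      have h1 : mf 1 t = 1 := by rw [mf_big (le_max_of_le_left (by norm_num)), max_eq_left t1]
      rw [congrFun₂ hE i j]
      norm_num [cmb, f1, f2, f3, h0, h1]
    · rintro rfl h2 i j
      have h0 : th s 1 = 1 := th_one h2 (by norm_num)
      have h1 : mf s 1 = 1 := by rw [mf_big (le_max_of_le_right (by norm_num)), max_eq_right s1]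
      rw [congrFun₂ hE i j]
      norm_num [cmb, f1, f2, f3, h0, h1]

end Comb

variable {G : Type u} [CStarAlgebra G] {ι : Type} [Fintype ι] [DecidableEq ι]

theorem combine {E' E'' : ι → ι → G} (h' : IsOZ E') (h'' : IsOZ E'')
    (hc : ∀ i j k l, Commute (E' i j) (E'' k l)) :
    ∃ E : ι → ι → G, IsOZ E ∧
      (∀ ξ, hh E' * ξ = ξ → ∀ i j, E i j * ξ = E' i j * ξ) ∧
      (∀ ξ, hh E'' * ξ = ξ → Gb (hh E') * ξ = 0 → ∀ i j, E i j * ξ = E'' i j * ξ) ∧
      (∀ ξ, Gb (hh E') * ξ = 0 → Gb (hh E'') * ξ = 0 → Gb (hh E) * ξ = 0) ∧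
      (∀ ξ, Ga (hh E') * ξ = 0 → Ga (hh E) * ξ = 0) ∧
      (∀ ξ, Ga (hh E'') * ξ = 0 → Ga (hh E) * ξ = 0) := by
  have hx : Commute (hh E') (hh E'') :=
    Commute.sum_left _ _ _ fun _ _ => Commute.sum_right _ _ _ fun _ _ => hc ..
  let S := cent {hh E', hh E''}
  have mem : ∀ g, Commute (hh E') g → Commute (hh E'') g → g ∈ S := fun g h1 h2 =>
    mem_cent.2 (by
      rintro s (rfl | rfl)
      · exact ⟨h1, by rwa [h'.hh_sa.star_eq]⟩
      · exact ⟨h2, by rwa [h''.hh_sa.star_eq]⟩)
  let A : ι → ι → S := fun i j => ⟨E' i j, mem _ (h'.commute i j)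
    (Commute.sum_left _ _ _ fun _ _ => (hc ..).symm)⟩
  let B : ι → ι → S := fun i j => ⟨E'' i j, mem _ (Commute.sum_left _ _ _ fun _ _ => hc ..)
    (h''.commute i j)⟩
  have hk : ∀ a b : S, S.subtype a = S.subtype b → StarAlgHom.id ℂ S a = StarAlgHom.id ℂ S b :=
    fun a b h => Subtype.ext h
  have hA : IsOZ A := IsOZ.transfer hk h'
  have hB : IsOZ B := IsOZ.transfer hk h''
  have eA : S.subtype (hh A) = hh E' := map_hh _ _
  have eB : S.subtype (hh B) = hh E'' := map_hh _ _
  have cA : ∀ g, Commute (hh A) g := fun g => Subtype.ext (by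
    have := (mem_cent.1 g.2 (hh E') (by simp)).1
    rw [← eA] at this
    exact this)
  have cB : ∀ g, Commute (hh B) g := fun g => Subtype.ext (by
    have := (mem_cent.1 g.2 (hh E'') (by simp)).1
    rw [← eB] at this
    exact this)
  obtain ⟨E, hE, key⟩ := Comb.central hA hB (fun i j k l => Subtype.ext (hc i j k l)) cA cB
  have cb : Continuous fun t : ℝ => max (t - 2 / 3) 0 := by fun_prop
  have ca : Continuous fun t : ℝ => max (1 / 3 - t) 0 := by fun_prop
  have one : ∀ {X : S} {ξ : G} {P : PQ S} {r : ℝ}, (∀ g, Commute X g) → S.subtype X * ξ = ξ →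
      (∀ c, (∀ g, Commute c g) → S.subtype c * ξ = 0 → P.π c = 0) →
      P.π X = algebraMap ℝ _ r → r = 1 := fun {X ξ P r} hX h hP hr => by
    have := hP (1 - X) (fun g => (Commute.one_left g).sub_left (hX g))
      (by rw [map_sub, map_one, sub_mul, one_mul, h, sub_self])
    rw [map_sub, map_one, hr, ← map_one (algebraMap ℝ P.Q), ← map_sub,
      map_eq_zero_iff _ (algebraMap ℝ P.Q).injective] at this
    linarith
  have fz : ∀ {X : S} {ξ : G} {P : PQ S} {r : ℝ} {f : ℝ → ℝ}, Continuous f → IsSelfAdjoint X →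
      (∀ g, Commute X g) → cfc f (S.subtype X) * ξ = 0 →
      (∀ c, (∀ g, Commute c g) → S.subtype c * ξ = 0 → P.π c = 0) →
      P.π X = algebraMap ℝ _ r → f r = 0 := fun {X ξ P r f} hf hs hX h hP hr => by
    have := hP (cfc f X) (fun g => (hX g).cfc_real f) (by rwa [map_cfc_real _ hf hs])
    rwa [map_cfc_real _ hf hs, hr, cfc_algebraMap,
      map_eq_zero_iff _ (algebraMap ℝ P.Q).injective] at this
  have out : ∀ {ξ : G} {f : ℝ → ℝ}, Continuous f →
      (∀ P : PQ S, (∀ c, (∀ g, Commute c g) → S.subtype c * ξ = 0 → P.π c = 0) →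
        ∃ r, P.π (hh E) = algebraMap ℝ _ r ∧ f r = 0) →
      cfc f (hh fun i j => S.subtype (E i j)) * ξ = 0 := fun {ξ f} hf h => by
    rw [← map_hh, ← map_cfc_real _ hf hE.hh_sa]
    refine ann_of_pq _ _ _ fun P hP => ?_
    obtain ⟨r, h1, h2⟩ := h P hP
    rw [map_cfc_real _ hf hE.hh_sa, h1, cfc_algebraMap, h2, map_zero]
  refine ⟨fun i j => S.subtype (E i j), hE.map _, fun ξ h i j => ?_, fun ξ h h2 i j => ?_,
    fun ξ h h2 => out cb fun P hP => ?_, fun ξ h => out ca fun P hP => ?_,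
    fun ξ h => out ca fun P hP => ?_⟩
  · have := ann_of_pq S.subtype ξ (E i j - A i j) fun P hP => by
      obtain ⟨s, t, -, -, hs, -, -, k, -⟩ := key P
      rw [map_sub, k (one cA (by rwa [eA]) hP hs), sub_self]
    rwa [map_sub, sub_mul, sub_eq_zero] at this
  · have := ann_of_pq S.subtype ξ (E i j - B i j) fun P hP => by
      obtain ⟨s, t, -, -, hs, ht, -, -, k⟩ := key P
      have := fz cb hA.hh_sa cA (by rwa [eA]) hP hs
      rw [map_sub, k (one cB (by rwa [eB]) hP ht) (by simp only [max_eq_right_iff] at this; linarith),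
        sub_self]
    rwa [map_sub, sub_mul, sub_eq_zero] at this
  · obtain ⟨s, t, -, -, hs, ht, hm, -⟩ := key P
    have h1 := fz cb hA.hh_sa cA (by rwa [eA]) hP hs
    have h3 := fz cb hB.hh_sa cB (by rwa [eB]) hP ht
    simp only [max_eq_right_iff] at h1 h3
    have : Comb.mf s t ≤ 2 / 3 := min_le_of_left_le (max_le (by linarith) (by linarith))
    exact ⟨_, hm, max_eq_right (by linarith)⟩
  · obtain ⟨s, t, -, -, hs, ht, hm, -⟩ := key P
    have h1 := fz ca hA.hh_sa cA (by rwa [eA]) hP hs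
    simp only [max_eq_right_iff] at h1
    have h2 : 1 / 3 ≤ max s t := le_max_of_le_left (by linarith)
    exact ⟨_, hm, max_eq_right (by rw [Comb.mf_big h2]; linarith)⟩
  · obtain ⟨s, t, -, -, hs, ht, hm, -⟩ := key P
    have h1 := fz ca hB.hh_sa cB (by rwa [eB]) hP ht
    simp only [max_eq_right_iff] at h1
    have h2 : 1 / 3 ≤ max s t := le_max_of_le_right (by linarith)
    exact ⟨_, hm, max_eq_right (by rw [Comb.mf_big h2]; linarith)⟩

end Vale.Agent.P101
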