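import Vale.Agent.P101.DropA

/-! The Rørdam–Winter relations give a unital homomorphism from `Z_{k,k+1}`. -/

namespace Vale.Agent.P101
open scoped Matrix.Norms.L2Operator unitInterval
universe u

/-- The index involution. -/
def swp (k : ℕ) (x : Fin k × Fin (k + 1)) : Fin k × Fin (k + 1) :=
  Fin.cases (x.1, 0) (fun i => (i, x.1.succ)) x.2

lemma swp_swp (k : ℕ) : Function.Involutive (swp k) := by
  rintro ⟨c, i⟩
  refine Fin.cases ?_ (fun i => ?_) i <;> simp [swp]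

lemma exists_eta (k : ℕ) : ∃ u : unitary (MM k (k + 1)), ∀ Z : MM k (k + 1),
    (u : MM k (k + 1)) * Z * star (u : MM k (k + 1)) = Z.submatrix (swp k) (swp k) := by
  have h : ∀ Z : MM k (k + 1), (swp_swp k).toPerm.permMatrix ℂ * Z *
      star ((swp_swp k).toPerm.permMatrix ℂ) = Z.submatrix (swp k) (swp k) := by
    intro Z
    rw [Matrix.star_eq_conjTranspose, Matrix.conjTranspose_permMatrix,
      PEquiv.toMatrix_toPEquiv_mul, PEquiv.mul_toMatrix_toPEquiv]
    rfl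
  refine ⟨⟨(swp_swp k).toPerm.permMatrix ℂ, Matrix.mem_unitaryGroup_iff.2 ?_⟩, h⟩
  have := h 1
  rw [mul_one] at this
  rw [this]
  exact Matrix.submatrix_one_equiv (swp_swp k).toPerm

theorem drop_central {G : Type u} [CStarAlgebra G] {k : ℕ} {o : Fin k} {E : Fin k → Fin k → G}
    {a v : G} (h : RW o E a v) (hc : ∀ g, Commute (HH o E a v) g) :
    Nonempty (dropAlg k (k + 1) →⋆ₐ[ℂ] G) := by
  obtain ⟨u, hu⟩ := exists_eta k
  obtain ⟨γ, g0, g1, g2, -⟩ := unitary_path u.2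
  let γ' : C(I, MM k (k + 1)) := γ.comp ⟨unitInterval.symm, unitInterval.continuous_symm⟩
  have hγ : γ' ∈ unitary C(I, MM k (k + 1)) :=
    ⟨ContinuousMap.ext fun s => (g2 _).1, ContinuousMap.ext fun s => (g2 _).2⟩
  let e : dropAlg k (k + 1) →⋆ₐ[ℂ] C(I, MM k (k + 1)) :=
    (Unitary.conjStarAlgAut ℂ _ ⟨γ', hγ⟩ : C(I, MM k (k + 1)) →⋆ₐ[ℂ] _).comp
      (dropAlg k (k + 1)).subtype
  have he : ∀ d s, e d s = γ (unitInterval.symm s) * d.1 s * star (γ (unitInterval.symm s)) :=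
    fun _ _ => rfl
  let η₀ : Matrix (Fin k) (Fin k) ℂ →⋆ₐ[ℂ] MM k (k + 1) :=
    (Unitary.conjStarAlgAut ℂ _ u : MM k (k + 1) →⋆ₐ[ℂ] _).comp (kL _ _)
  have hη : ∀ X, η₀ X = (kL _ _ X).submatrix (swp k) (swp k) := fun X => hu _
  let Λ : ∀ {ι : Type} [Fintype ι], (ι → KK k (k + 1)) → (ι → ι → G) → MM k (k + 1) →ₗ[ℂ] G :=
    fun p f =>
      { toFun := fun Z => ∑ x, ∑ y, Z (p x) (p y) • f x y
        map_add' := fun Z Z' => by simp [add_smul, Finset.sum_add_distrib]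
        map_smul' := fun c Z => by simp [Finset.smul_sum, mul_smul] }
  have hΛ : ∀ {ι : Type} [Fintype ι] (p : ι → KK k (k + 1)) (f : ι → ι → G) Z,
      Λ p f Z = ∑ x, ∑ y, Z (p x) (p y) • f x y := fun _ _ _ => rfl
  refine patch1 e η₀ (kR _ _) (fun d => ?_) (fun d => ?_) (H := HH o E a v) h.H_sa hc
    (Λ (fun c => (c, 0)) fun c d => E c d * (1 - HH o E a v + (1 - hh E)))
    (Λ (fun i => (o, i)) fun i j => sv o E a v i * star (sv o E a v j))
    (Λ id fun x y => sv o E a v x.2 * E x.1 y.1 * star (sv o E a v y.2)) fun P t ht => ?_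
  · obtain ⟨X, hX⟩ := (mem_dropAlg.1 d.2).1
    exact ⟨X, by rw [he, unitInterval.symm_zero, g1, hX]; rfl⟩
  · obtain ⟨Y, hY⟩ := (mem_dropAlg.1 d.2).2
    exact ⟨Y, by rw [he, unitInterval.symm_one, g0, hY, star_one, one_mul, mul_one]⟩
  have h' := h.map P.π
  rw [map_HH] at ht
  simp only [hΛ, map_sum, map_smul, map_mul, map_add, map_sub, map_one, map_star, map_sv, map_HH,
    map_hh, id]
  obtain ⟨F, hF⟩ : ∃ F, F = fun i j => P.π (E i j) := ⟨_, rfl⟩
  have hF' : ∀ i j, P.π (E i j) = F i j := fun i j => by rw [hF]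
  simp only [hF'] at h' ht ⊢
  generalize P.π a = a' at h' ht ⊢
  generalize P.π v = v' at h' ht ⊢
  have e00 : ∀ X c d, η₀ X (c, 0) (d, 0) = X c d := fun X c d => by simp [hη, swp, kL_apply]
  have e0s : ∀ X c d j, η₀ X (c, 0) (d, Fin.succ j) = 0 := fun X c d j => by
    simp [hη, swp, kL_apply, Matrix.one_apply, (Fin.succ_ne_zero _).symm]
  have es0 : ∀ X c d j, η₀ X (c, Fin.succ j) (d, 0) = 0 := fun X c d j => by
    simp [hη, swp, kL_apply]
  have ess : ∀ X c d i j, η₀ X (c, Fin.succ i) (d, Fin.succ j) = if c = d then X i j else 0 :=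
    fun X c d i j => by simp [hη, swp, kL_apply, Matrix.one_apply]
  have eR : ∀ Y c d i j, kR (Fin k) (Fin (k + 1)) Y (c, i) (d, j) = if c = d then Y i j else 0 :=
    fun Y c d i j => by simp [kR_apply, Matrix.one_apply]
  have sE : ∀ i j, ∑ c, sv o F a' v' i * F c c * star (sv o F a' v' j) =
      (1 - t) • (sv o F a' v' i * star (sv o F a' v' j)) := fun i j => by
    rw [← Finset.sum_mul, ← Finset.mul_sum, ← hh, h'.sh ht, smul_mul_assoc]
  simp only [e00, eR, if_true]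
  refine ⟨(h'.range ht).1, (h'.range ht).2, h'.fib0 ht, h'.fib1 ht, fun t0 t1 => ?_⟩
  obtain ⟨φ, hφ⟩ := h'.fibm ht t0 t1
  refine ⟨φ, hφ, fun X => smul_right_injective _ t0.ne' ?_,
    fun Y => smul_right_injective _ (sub_pos.2 t1).ne' ?_⟩
  · simp only [smul_smul, ← hφ, Fintype.sum_prod_type_right, Fin.sum_univ_succ, e00, e0s, es0,
      ess, zero_smul, Finset.sum_const_zero, add_zero, zero_add, ite_smul, Finset.sum_ite_eq,
      Finset.mem_univ, if_true, sv_zero]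
    rw [Finset.sum_congr rfl fun i _ => Finset.sum_comm]
    simp only [← Finset.smul_sum, sE, h'.ss ht]
    simp only [Finset.smul_sum, ← Finset.sum_add_distrib]
    refine Finset.sum_congr rfl fun c _ => Finset.sum_congr rfl fun d _ => ?_
    rw [h'.sa, h'.comm, mul_assoc, h'.aa, ht, Algebra.algebraMap_eq_smul_one]
    generalize 1 - hh F = r
    simp only [mul_add, mul_sub, mul_smul_comm, mul_one]
    module
  · simp only [smul_smul, mul_comm (1 - t), ← hφ, Fintype.sum_prod_type_right, eR, ite_smul,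
      zero_smul, Finset.sum_ite_eq, Finset.mem_univ, if_true]
    rw [Finset.sum_congr rfl fun i _ => Finset.sum_comm (s := Finset.univ (α := Fin k))]
    simp only [← Finset.smul_sum, sE]
    simp only [Finset.smul_sum, smul_comm (1 - t)]

theorem drop_hom {G : Type u} [CStarAlgebra G] {k : ℕ} {o : Fin k} {E : Fin k → Fin k → G} {v : G}
    (hE : IsOZ E) (hv : star v * v = 1 - hh E) (ho : E o o * v = v) :
    Nonempty (dropAlg k (k + 1) →⋆ₐ[ℂ] G) := by
  let _ := CStarAlgebra.spectralOrder G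
  have _ := CStarAlgebra.spectralOrderedRing G
  have r0 : 0 ≤ 1 - hh E := pos_iff.1 hE.le_one
  have h : RW o E (cfc Real.sqrt (1 - hh E)) v := by
    refine ⟨hE, cfc_predicate (p := IsSelfAdjoint) _ _, ?_, hv, ho, fun c d => ?_⟩
    · rw [← cfc_mul ..]
      conv_rhs => rw [← cfc_id' ℝ (1 - hh E)]
      exact cfc_congr fun t ht => Real.mul_self_sqrt (spectrum_nonneg_of_nonneg r0 ht)
    · refine cfc_intertwine r0.isSelfAdjoint r0.isSelfAdjoint ?_ Real.continuous_sqrt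
      rw [sub_mul, mul_sub, (hE.toPreOZ.commute c d).eq, one_mul, mul_one]
  generalize cfc Real.sqrt (1 - hh E) = a at h
  let G₀ := cent ({HH o E a v} : Set G)
  have mem : ∀ {x}, HH o E a v * x = x * HH o E a v → x ∈ G₀ := fun hx => mem_cent.2 (by
    rintro _ rfl
    exact ⟨hx, by rw [h.H_sa]; exact hx⟩)
  let E₀ : Fin k → Fin k → G₀ := fun c d => ⟨E c d, mem ((h.HE c d).trans (h.HE' c d).symm)⟩
  let a₀ : G₀ := ⟨a, mem h.Ha⟩
  let v₀ : G₀ := ⟨v, mem h.Hv⟩
  have e1 : G₀.subtype (1 - hh E₀) = 1 - hh E := by rw [map_sub, map_one, map_hh]; rfl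
  have h₀ : RW o E₀ a₀ v₀ :=
    ⟨IsOZ.transfer (π := G₀.subtype) (θ := StarAlgHom.id ℂ G₀) (fun _ _ e => Subtype.ext e) hE,
      Subtype.ext h.sa, Subtype.ext (h.aa.trans e1.symm), Subtype.ext (h.vv.trans e1.symm),
      Subtype.ext h.ov, fun c d => Subtype.ext (h.comm c d)⟩
  obtain ⟨φ⟩ := drop_central h₀ fun g => Subtype.ext (by
    have e2 : G₀.subtype (HH o E₀ a₀ v₀) = HH o E a v := map_HH _
    change G₀.subtype _ * g.1 = g.1 * G₀.subtype _
    rw [e2]
    exact (mem_cent.1 g.2 _ rfl).1)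
  exact ⟨G₀.subtype.comp φ⟩

end Vale.Agent.P101
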