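import Vale.Agent.P101.Prime

/-! From a full square-zero element to a normalised full order zero map. -/

namespace Vale.Agent.P101
universe u
variable {G : Type u} [CStarAlgebra G]

namespace FrameAux

lemma ne_zero_of_full {c : G} (h : Full1 c) (P : PQ G) : P.π c ≠ 0 := by
  obtain ⟨m, _, u, v, hs⟩ := h
  intro h0
  have := congrArg P.π hs
  simp [map_sum, h0] at this

lemma full1_of_pq {c : G} (h : ∀ P : PQ G, P.π c ≠ 0) : Full1 c :=
  full_of_pq _ fun P => ⟨(), h P⟩

lemma two_frame {x : G} (hx : x * x = 0) (hf : Full1 x) :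
    ∃ (s : Fin 2 → G) (c : G), (∀ i j, star (s i) * s j = if i = j then c else 0) ∧ Full1 c := by
  let _ := CStarAlgebra.spectralOrder G
  have _ := CStarAlgebra.spectralOrderedRing G
  have hsa := IsSelfAdjoint.star_mul_self x
  have hr : IsSelfAdjoint (cfc Real.sqrt (star x * x)) := cfc_predicate _ _
  have h1 : cfc Real.sqrt (star x * x) * cfc Real.sqrt (star x * x) = star x * x := by
    rw [← cfc_mul ..]
    conv_rhs => rw [← cfc_id' ℝ (star x * x)]
    exact cfc_congr fun t ht =>
      Real.mul_self_sqrt (spectrum_nonneg_of_nonneg (star_mul_self_nonneg x) ht)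
  have h2 : cfc Real.sqrt (star x * x) * x = 0 := by
    rw [cfc_mul_of_eigen hsa (t := 0) (by rw [mul_assoc, hx, mul_zero, zero_smul])
      Real.continuous_sqrt, Real.sqrt_zero, zero_smul]
  have h3 : star x * cfc Real.sqrt (star x * x) = 0 := by
    have := congrArg star h2
    rwa [star_mul, hr.star_eq, star_zero] at this
  refine ⟨![cfc Real.sqrt (star x * x), x], star x * x, fun i j => ?_, full1_of_pq fun P h => ?_⟩
  · fin_cases i <;> fin_cases j <;> simp [hr.star_eq, h1, h2, h3]
  · rw [map_mul, map_star, CStarRing.star_mul_self_eq_zero_iff] at h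
    exact ne_zero_of_full hf P h

lemma step (hSA : SA G) {ι κ : Type} [Finite ι] [Finite κ] [DecidableEq ι] [DecidableEq κ]
    {s : ι → G} {c : G} (hs : ∀ i j, star (s i) * s j = if i = j then c else 0) (hc : Full1 c)
    {r : κ → G} {d : G} (hr : ∀ i j, star (r i) * r j = if i = j then d else 0) (hd : Full1 d) :
    ∃ (s' : ι × κ → G) (c' : G), (∀ i j, star (s' i) * s' j = if i = j then c' else 0) ∧
      Full1 c' := by
  obtain ⟨m, _, u, v, hw⟩ := hd
  obtain ⟨E, _, π, θ, hk, hl, hcm⟩ := hSA (insert d (Set.range r ∪ (Set.range u ∪ Set.range v))) {c}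
    (((Set.finite_range r).union ((Set.finite_range u).union (Set.finite_range v))).insert d)
    (Set.finite_singleton c)
  obtain ⟨d₀, ed⟩ := hl d (.inl rfl)
  choose r₀ er using fun i => hl (r i) (.inr (.inl ⟨i, rfl⟩))
  choose u₀ eu using fun i => hl (u i) (.inr (.inr (.inl ⟨i, rfl⟩)))
  choose v₀ ev using fun i => hl (v i) (.inr (.inr (.inr ⟨i, rfl⟩)))
  have h1 : ∀ i j, star (θ (r₀ i)) * θ (r₀ j) = if i = j then θ d₀ else 0 := by
    intro i j
    have := hk (star (r₀ i) * r₀ j) (if i = j then d₀ else 0) (by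
      rw [map_mul, map_star, er, er, hr]; split_ifs <;> simp [ed])
    rw [map_mul, map_star] at this
    rw [this]; split_ifs <;> simp
  have h2 : ∑ t, θ (u₀ t) * θ d₀ * θ (v₀ t) = 1 := by
    have := hk (∑ t, u₀ t * d₀ * v₀ t) 1 (by simpa only [map_sum, map_mul, map_one, eu, ed, ev])
    simpa only [map_sum, map_mul, map_one] using this
  refine ⟨fun p => s p.1 * θ (r₀ p.2), c * θ d₀, fun p q => ?_, full1_of_pq fun P h => ?_⟩
  · have e : star (s p.1 * θ (r₀ p.2)) * (s q.1 * θ (r₀ q.2)) =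
        star (θ (r₀ p.2)) * (star (s p.1) * s q.1) * θ (r₀ q.2) := by
      rw [star_mul]; simp only [mul_assoc]
    rw [e, hs]
    by_cases h : p.1 = q.1
    · rw [if_pos h, ← map_star, (hcm _ c rfl).eq, map_star, mul_assoc, h1]
      by_cases h' : p.2 = q.2
      · rw [if_pos h', if_pos (Prod.ext h h')]
      · rw [if_neg h', if_neg fun e => h' (congrArg _ e), mul_zero]
    · rw [if_neg h, if_neg fun e => h (congrArg _ e), mul_zero, zero_mul]
  · refine ne_zero_of_full hc P ?_
    have e : c = ∑ t, θ (u₀ t) * (c * θ d₀) * θ (v₀ t) := by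
      conv_lhs => rw [← mul_one c, ← h2, Finset.mul_sum]
      refine Finset.sum_congr rfl fun t _ => ?_
      simp only [← mul_assoc]
      rw [(hcm _ c rfl).eq]
    rw [e, map_sum]
    exact Finset.sum_eq_zero fun t _ => by rw [map_mul, map_mul, h, mul_zero, zero_mul]

lemma star_sum_le [PartialOrder G] [StarOrderedRing G] {n : ℕ} (a : Fin n → G) :
    star (∑ t, a t) * ∑ t, a t ≤ (n : ℝ) • ∑ t, star (a t) * a t := by
  have h0 : 0 ≤ ∑ s, ∑ t, star (a s - a t) * (a s - a t) :=
    Finset.sum_nonneg fun s _ => Finset.sum_nonneg fun t _ => star_mul_self_nonneg _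
  have e : ∑ s, ∑ t, star (a s - a t) * (a s - a t) =
      (2 : ℝ) • ((n : ℝ) • ∑ t, star (a t) * a t - star (∑ t, a t) * ∑ t, a t) := by
    have e1 : star (∑ t, a t) * ∑ t, a t = ∑ s, ∑ t, star (a s) * a t := by
      rw [star_sum, Finset.sum_mul_sum]
    have e2 : ∑ s, ∑ t, star (a t) * a s = ∑ s, ∑ t, star (a s) * a t := Finset.sum_comm
    simp only [star_sub, sub_mul, mul_sub, Finset.sum_sub_distrib, e2, e1, Finset.sum_const,
      Finset.card_univ, Fintype.card_fin, ← Finset.smul_sum, Nat.cast_smul_eq_nsmul, two_smul]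
    abel
  rw [e] at h0
  have := smul_nonneg (show (0 : ℝ) ≤ 2⁻¹ by norm_num) h0
  rwa [smul_smul, inv_mul_cancel₀ two_ne_zero, one_smul, sub_nonneg] at this

lemma renorm_fix {ι : Type} [Fintype ι] [DecidableEq ι] {E : ι → ι → G} (hP : PreOZ E) (o : ι)
    {ε : ℝ} (hε : 0 < ε) {g : ℝ → ℝ} (cg : Continuous g) (hg : ∀ t, g t = max (t - ε) 0) :
    renorm ε E o o * (cfc g (hh E) * E o o) = cfc g (hh E) * E o o := by
  have hsa := hP.hh_sa
  have hoo : E o o * E o o = hh E * E o o := by simpa using hP.mul_eq o o o o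
  obtain ⟨j, cj, hj⟩ : ∃ j : ℝ → ℝ, Continuous j ∧ j = fun t => (max ε t)⁻¹ :=
    ⟨_, continuous_inv_max hε, rfl⟩
  have e : cfc g (hh E) = cfc j (hh E) * cfc g (hh E) * hh E := by
    have e1 : cfc (fun t : ℝ => j t * g t * t) (hh E) = cfc j (hh E) * cfc g (hh E) * hh E := by
      rw [cfc_mul .., cfc_mul .., cfc_id' ℝ (hh E)]
    rw [← e1]
    refine cfc_congr fun t _ => ?_
    simp only [hg, hj]
    rcases le_total t ε with h | h
    · rw [max_eq_right (a := t - ε) (by linarith)]; simp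
    · rw [max_eq_right h]
      have : t ≠ 0 := (hε.trans_le h).ne'
      field_simp
  have cm : Commute (cfc g (hh E)) (E o o) := (hP.commute o o).cfc_real _
  rw [renorm, ← hj, mul_assoc, ← mul_assoc (E o o), ← cm.eq, mul_assoc, hoo]
  conv_rhs => rw [e]
  simp only [mul_assoc]

end FrameAux
open FrameAux

theorem exists_frame (hSA : SA G) {x : G} (hx : x * x = 0) (hf : Full1 x) (k : ℕ) :
    ∃ (s : Fin k → G) (c : G), (∀ i j, star (s i) * s j = if i = j then c else 0) ∧ Full1 c := by
  have h1 : Full1 (1 : G) := full1_of_pq fun P => by simp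
  obtain ⟨r, d, hr, hd⟩ := two_frame hx hf
  rcases k with _ | k
  · exact ⟨Fin.elim0, 1, fun i => i.elim0, h1⟩
  induction k with
  | zero => exact ⟨fun _ => 1, 1, fun i j => by simp [Fin.fin_one_eq_zero i, Fin.fin_one_eq_zero j], h1⟩
  | succ k ih =>
    obtain ⟨s, c, hs, hc⟩ := ih
    obtain ⟨s', c', hs', hc'⟩ := step hSA hs hc hr hd
    obtain ⟨e⟩ : Nonempty (Fin (k + 1 + 1) ↪ Fin (k + 1) × Fin 2) :=
      Function.Embedding.nonempty_of_card_le (by simp only [Fintype.card_prod, Fintype.card_fin]; omega)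
    exact ⟨fun i => s' (e i), c', fun i j => by simp [hs'], hc'⟩

theorem exists_base (hSA : SA G) {x : G} (hx : x * x = 0) (hf : Full1 x) (k : ℕ) (o : Fin k) :
    ∃ (E : Fin k → Fin k → G) (n : ℕ) (z : Fin n → G) (C : ℝ), IsOZ E ∧
      (∀ l, E o o * z l = z l) ∧ 0 ≤ C ∧ Pos (C • ∑ l, star (z l) * z l - 1) := by
  let _ := CStarAlgebra.spectralOrder G
  have _ := CStarAlgebra.spectralOrderedRing G
  obtain ⟨s, c, hs, hc⟩ := exists_frame hSA hx hf k
  obtain ⟨E, hE⟩ : ∃ E : Fin k → Fin k → G, ∀ i j, E i j = s i * star (s j) := ⟨_, fun _ _ => rfl⟩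
  have hm : ∀ i j a b, E i j * E a b = if j = a then s i * c * star (s b) else 0 := by
    intro i j a b
    rw [hE, hE, mul_assoc, ← mul_assoc (star (s j)), hs]
    split_ifs <;> simp [mul_assoc]
  have hP : PreOZ E := by
    refine ⟨fun i j => by simp [hE], fun i j a b => ?_, ?_⟩
    · rw [hm, hh, Finset.sum_mul]
      simp only [hm, Finset.sum_ite_eq', Finset.mem_univ, if_true]
    · rw [pos_iff]
      exact Finset.sum_nonneg fun i _ => by rw [hE]; exact mul_star_self_nonneg _
  have hsa := hP.hh_sa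
  have h0 := pos_iff.1 hP.pos
  have hoo : E o o * E o o = hh E * E o o := by simpa using hP.mul_eq o o o o
  have hF : Full1 (hh E * E o o) := full1_of_pq fun P h => by
    refine ne_zero_of_full hc P ?_
    rw [← hoo, map_mul] at h
    nth_rw 1 [← hP.star_eq o o] at h
    rw [map_star, CStarRing.star_mul_self_eq_zero_iff, hE, map_mul, map_star,
      CStarRing.mul_star_self_eq_zero_iff] at h
    have := hs o o
    rw [if_pos rfl] at this
    rw [← this, map_mul, h, mul_zero]
  obtain ⟨γ, hγ, hb⟩ := Full.bound.{u, u} hF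
  obtain ⟨ε, hε, hεγ⟩ : ∃ ε : ℝ, 0 < ε ∧ ε * ‖E o o‖ < γ := by
    refine ⟨γ / (‖E o o‖ + 1), by positivity, ?_⟩
    rw [div_mul_eq_mul_div, div_lt_iff₀ (by positivity)]
    linarith
  obtain ⟨g, cg, hg⟩ : ∃ g : ℝ → ℝ, Continuous g ∧ ∀ t, g t = max (t - ε) 0 :=
    ⟨_, by fun_prop, fun _ => rfl⟩
  have hp : Full1 (cfc g (hh E) * E o o) := full1_of_pq fun P h => by
    obtain ⟨_, h1⟩ := hb P.Q P.π
    have e : hh E * E o o = cfc (fun t => t - g t) (hh E) * E o o + cfc g (hh E) * E o o := by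
      rw [cfc_sub .., cfc_id' ℝ (hh E), sub_mul, sub_add_cancel]
    have h2 : ‖cfc (fun t => t - g t) (hh E)‖ ≤ ε := norm_cfc_le hε.le fun t ht => by
      have := spectrum_nonneg_of_nonneg h0 ht
      rw [hg, Real.norm_eq_abs, abs_le]
      rcases le_total (t - ε) 0 with h | h
      · rw [max_eq_right h]; constructor <;> linarith
      · rw [max_eq_left h]; constructor <;> linarith
    rw [e, map_add, h, add_zero] at h1
    have h3 := NonUnitalStarAlgHom.norm_apply_le P.π (cfc (fun t => t - g t) (hh E) * E o o)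
    have h4 := (norm_mul_le _ (E o o)).trans (mul_le_mul_of_nonneg_right h2 (norm_nonneg _))
    linarith
  have hfix := renorm_fix hP o hε cg hg
  obtain ⟨n, _, u, v, hw⟩ := hp
  generalize cfc g (hh E) * E o o = p at hw hfix
  refine ⟨renorm ε E, n, fun l => p * v l, n * ∑ t, ‖star (u t) * u t‖, hP.renorm hε,
    fun l => by rw [← mul_assoc, hfix], by positivity, ?_⟩
  rw [pos_iff, sub_nonneg]
  have h1 := star_sum_le fun t => u t * p * v t
  rw [hw, star_one, one_mul] at h1
  refine h1.trans ?_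
  rw [mul_smul]
  refine smul_le_smul_of_nonneg_left ?_ (Nat.cast_nonneg n)
  rw [Finset.smul_sum]
  refine Finset.sum_le_sum fun t _ => ?_
  have e : star (u t * p * v t) * (u t * p * v t) =
      star (p * v t) * (star (u t) * u t) * (p * v t) := by
    simp only [star_mul, mul_assoc]
  rw [e]
  refine (CStarAlgebra.star_left_conjugate_le_norm_smul (IsSelfAdjoint.star_mul_self _)).trans ?_
  exact smul_le_smul_of_nonneg_right
    (Finset.single_le_sum (f := fun t => ‖star (u t) * u t‖) (fun _ _ => norm_nonneg _)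
      (Finset.mem_univ t)) (star_mul_self_nonneg _)

end Vale.Agent.P101
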