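import Vale.Agent.P101.Prime

/-! Ultrapowers as C*-algebras and the self-copy property of the central sequence algebra. -/

namespace Vale.Agent.P101
open Filter Topology
open scoped BoundedContinuousFunction CStarAlgebra
universe u v

variable (ω : Ultrafilter ℕ) (A : Type u) [CStarAlgebra A]

lemma mem_nullIdeal {ω : Ultrafilter ℕ} {A : Type u} [CStarAlgebra A] {x : ℕ →ᵇ A} :
    x ∈ nullIdeal ω A ↔ ∀ ε : ℝ, 0 < ε → ∀ᶠ n in ω, ‖x n‖ < ε := by
  change Tendsto (fun n => ‖x n‖) ω (𝓝 0) ↔ _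
  rw [Metric.tendsto_nhds]
  simp only [dist_zero_right, norm_norm]

instance isClosed_nullIdeal : IsClosed (nullIdeal ω A : Set (ℕ →ᵇ A)) := by
  refine isClosed_of_closure_subset fun x hx => mem_nullIdeal.2 fun ε hε => ?_
  obtain ⟨y, hy, hxy⟩ := Metric.mem_closure_iff.1 hx (ε / 2) (half_pos hε)
  filter_upwards [mem_nullIdeal.1 hy (ε / 2) (half_pos hε)] with n hn
  have h1 : ‖x n - y n‖ ≤ ‖x - y‖ := (x - y).norm_coe_le_norm n
  have h2 := norm_le_insert' (x n) (y n)
  rw [dist_eq_norm] at hxy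
  linarith

instance isClosed_centralSeq : IsClosed (centralSeq ω A : Set (Ultrapower ω A)) :=
  isClosed_cent _

/-- Constant sequences as a homomorphism. -/
noncomputable def constHom : A →⋆ₐ[ℂ] Ultrapower ω A where
  toFun := constSeq ω A
  map_one' := rfl
  map_mul' _ _ := rfl
  map_zero' := rfl
  map_add' _ _ := rfl
  commutes' _ := rfl
  map_star' _ := rfl

variable {ω A}

lemma ult_mk_eq {x y : ℕ →ᵇ A} (h : ∀ᶠ n in ω, x n = y n) :
    Quo.mk (nullIdeal ω A) x = Quo.mk (nullIdeal ω A) y := by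
  rw [← sub_eq_zero, ← map_sub, Quo.mk_eq_zero, mem_nullIdeal]
  intro ε hε
  filter_upwards [h] with n hn
  change ‖x n - y n‖ < ε
  rwa [hn, sub_self, norm_zero]

lemma tendsto_norm_mk (x : ℕ →ᵇ A) :
    Tendsto (fun n => ‖x n‖) ω (𝓝 ‖Quo.mk (nullIdeal ω A) x‖) := by
  rw [tendsto_order]
  refine ⟨fun r hr => ?_, fun r hr => ?_⟩
  · by_contra h
    have h1 := Ultrafilter.eventually_not.2 h
    obtain ⟨n₀, hn₀⟩ := h1.exists
    have hr0 : 0 ≤ r := (norm_nonneg _).trans (not_lt.1 hn₀)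
    have hb : ∀ n, ‖if r < ‖x n‖ then 0 else x n‖ ≤ r := fun n => by
      split_ifs with h2
      · rwa [norm_zero]
      · exact not_lt.1 h2
    have e := ult_mk_eq (ω := ω) (x := x)
      (y := BoundedContinuousFunction.ofNormedAddCommGroupDiscrete _ r hb) (by
        filter_upwards [h1] with n hn
        exact (if_neg hn).symm)
    have h3 := Quo.norm_mk_le (nullIdeal ω A)
      (BoundedContinuousFunction.ofNormedAddCommGroupDiscrete _ r hb)
    rw [← e] at h3
    have h4 : ‖BoundedContinuousFunction.ofNormedAddCommGroupDiscrete _ r hb‖ ≤ r :=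
      (BoundedContinuousFunction.norm_le hr0).2 hb
    linarith
  · have hε : 0 < (r - ‖Quo.mk (nullIdeal ω A) x‖) / 2 := by linarith
    obtain ⟨a, ha, hn⟩ := Quo.norm_mk_lt (nullIdeal ω A) (Quo.mk (nullIdeal ω A) x) hε
    have h1 : x - a ∈ nullIdeal ω A := by rw [← Quo.mk_eq_zero, map_sub, ha, sub_self]
    filter_upwards [mem_nullIdeal.1 h1 _ hε] with n hn'
    have h2 := a.norm_coe_le_norm n
    have h3 := norm_le_insert' (x n) (a n)
    change ‖x n - a n‖ < _ at hn'
    linarith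

/-- Evaluation of a bounded sequence. -/
noncomputable def ultEv (A : Type u) [CStarAlgebra A] (n : ℕ) : (ℕ →ᵇ A) →⋆ₐ[ℂ] A where
  toFun x := x n
  map_one' := rfl
  map_mul' _ _ := rfl
  map_zero' := rfl
  map_add' _ _ := rfl
  commutes' _ := rfl
  map_star' _ := rfl

/-- Termwise application of a homomorphism. -/
noncomputable def ultSeqMap {B : Type v} [CStarAlgebra B] (i : A →⋆ₐ[ℂ] B) :
    (ℕ →ᵇ A) →⋆ₐ[ℂ] (ℕ →ᵇ B) where
  toFun x := BoundedContinuousFunction.ofNormedAddCommGroupDiscrete (fun n => i (x n)) ‖x‖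
    fun n => (NonUnitalStarAlgHom.norm_apply_le i (x n)).trans (x.norm_coe_le_norm n)
  map_one' := by ext n; exact map_one i
  map_mul' x y := by ext n; exact map_mul i (x n) (y n)
  map_zero' := by ext n; exact map_zero i
  map_add' x y := by ext n; exact map_add i (x n) (y n)
  commutes' c := by ext n; exact i.commutes c
  map_star' x := by ext n; exact map_star i (x n)

/-- Reindexing of bounded sequences. -/
noncomputable def ultReindex (A : Type u) [CStarAlgebra A] (r : ℕ → ℕ) :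
    (ℕ →ᵇ A) →⋆ₐ[ℂ] (ℕ →ᵇ A) where
  toFun x := x.compContinuous ⟨r, continuous_of_discreteTopology⟩
  map_one' := rfl
  map_mul' _ _ := rfl
  map_zero' := rfl
  map_add' _ _ := rfl
  commutes' _ := rfl
  map_star' _ := rfl

lemma exists_ultMap {B : Type v} [CStarAlgebra B] (i : A →⋆ₐ[ℂ] B) :
    ∃ (L : (ℕ →ᵇ A) → (ℕ →ᵇ B)) (Φ : Ultrapower ω A →⋆ₐ[ℂ] Ultrapower ω B),
      (∀ x n, L x n = i (x n)) ∧
      ∀ x, Φ (Quo.mk (nullIdeal ω A) x) = Quo.mk (nullIdeal ω B) (L x) := by
  let F : (ℕ →ᵇ A) →⋆ₐ[ℂ] Ultrapower ω B := (Quo.mk (nullIdeal ω B)).comp (ultSeqMap i)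
  have hF : ∀ a ∈ nullIdeal ω A, F.toAlgHom a = 0 := fun a ha => by
    refine (Quo.mk_eq_zero _).2 (mem_nullIdeal.2 fun ε hε => ?_)
    filter_upwards [mem_nullIdeal.1 ha ε hε] with n hn
    exact (NonUnitalStarAlgHom.norm_apply_le i (a n)).trans_lt hn
  refine ⟨ultSeqMap i, ⟨Ideal.Quotient.liftₐ (nullIdeal ω A) F.toAlgHom hF, fun x => ?_⟩,
    fun _ _ => rfl, fun _ => rfl⟩
  obtain ⟨x, rfl⟩ := Quo.mk_surj _ x
  exact map_star F x

lemma ult_polar {B : Type u} [CStarAlgebra B] (x : B) : ∃ y : B,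
    (∀ (Q : Type u) [CStarAlgebra Q] (π : B →⋆ₐ[ℂ] Q), star (π x) * π x = 1 → π y = π x) ∧
    ∀ (Q : Type u) [CStarAlgebra Q] (π : B →⋆ₐ[ℂ] Q), ‖star (π x) * π x - 1‖ < 2⁻¹ →
      star (π y) * π y = 1 := by
  have hpos : ∀ t : ℝ, 0 < √(max 2⁻¹ t) := fun t =>
    Real.sqrt_pos.2 (lt_max_of_lt_left (by norm_num))
  obtain ⟨f, hc, hf⟩ : ∃ f : ℝ → ℝ, Continuous f ∧ ∀ t, f t = (√(max 2⁻¹ t))⁻¹ :=
    ⟨_, Continuous.inv₀ (by fun_prop) fun t => (hpos t).ne', fun _ => rfl⟩
  have hsa := IsSelfAdjoint.star_mul_self x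
  refine ⟨x * cfc f (star x * x), fun Q _ π h => ?_, fun Q _ π h1 => ?_⟩
  · rw [map_mul, map_cfc_real _ hc hsa, map_mul, map_star, h, cfc_apply_one, hf,
      max_eq_right (by norm_num), Real.sqrt_one, inv_one, map_one, mul_one]
  · rw [map_mul, map_cfc_real _ hc hsa, map_mul, map_star]
    generalize π x = w at h1
    have hs := IsSelfAdjoint.star_mul_self w
    have hk : IsSelfAdjoint (cfc f (star w * w)) := cfc_predicate _ _
    have e4 : star (w * cfc f (star w * w)) * (w * cfc f (star w * w)) =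
        cfc (fun t => f t * t * f t) (star w * w) := by
      rw [cfc_mul (fun t => f t * t) f _, cfc_mul f (fun t => t) _, cfc_id' ℝ _, star_mul,
        hk.star_eq]
      simp only [mul_assoc]
    rw [e4, ← cfc_const_one ℝ (star w * w)]
    refine cfc_congr fun t ht => ?_
    have h3 := norm_apply_le_norm_cfc (fun s : ℝ => s - 1) (star w * w) ht
    rw [cfc_sub (fun s => s) (fun _ => 1) _, cfc_id' ℝ _, cfc_const_one ℝ _] at h3
    have h4 : 2⁻¹ ≤ t := by
      have := (abs_lt.1 (h3.trans_lt h1)).1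
      linarith
    have h5 := hpos t
    simp only [hf]
    rw [max_eq_right h4] at h5 ⊢
    nth_rw 2 [← Real.mul_self_sqrt (show 0 ≤ t by linarith)]
    field_simp

lemma lift_unitary {u : Ultrapower ω A} (hu : u ∈ unitary (Ultrapower ω A)) :
    ∃ v : ℕ →ᵇ A, (∀ n, v n ∈ unitary A) ∧ Quo.mk (nullIdeal ω A) v = u := by
  classical
  obtain ⟨x, rfl⟩ := Quo.mk_surj _ u
  obtain ⟨y, hy1, hy2⟩ := ult_polar x
  have e1 : Quo.mk (nullIdeal ω A) y = Quo.mk (nullIdeal ω A) x := hy1 _ _ hu.1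
  have n1 : star x * x - 1 ∈ nullIdeal ω A := by
    rw [← Quo.mk_eq_zero, map_sub, map_mul, map_star, hu.1, map_one, sub_self]
  have n2 : 1 - y * star y ∈ nullIdeal ω A := by
    rw [← Quo.mk_eq_zero, map_sub, map_mul, map_star, e1, hu.2, map_one, sub_self]
  have ev : ∀ᶠ n in ω, y n ∈ unitary A := by
    filter_upwards [mem_nullIdeal.1 n1 2⁻¹ (by norm_num), mem_nullIdeal.1 n2 1 one_pos]
      with n h1 h2
    change ‖star (x n) * x n - 1‖ < 2⁻¹ at h1
    change ‖1 - y n * star (y n)‖ < 1 at h2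
    have e3 : star (y n) * y n = 1 := hy2 A (ultEv A n) h1
    refine ⟨e3, ?_⟩
    have e5 : (1 - y n * star (y n)) * (1 - y n * star (y n)) = 1 - y n * star (y n) := by
      have : y n * star (y n) * (y n * star (y n)) = y n * star (y n) := by
        rw [mul_assoc, ← mul_assoc (star (y n)), e3, one_mul]
      rw [sub_mul, mul_sub, mul_sub, this]
      simp
    have h6 := norm_mul_le (1 - y n * star (y n)) (1 - y n * star (y n))
    rw [e5] at h6
    have h7 : ‖1 - y n * star (y n)‖ = 0 := by nlinarith [norm_nonneg (1 - y n * star (y n))]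
    exact (sub_eq_zero.1 (norm_eq_zero.1 h7)).symm
  have hb : ∀ n, ‖if y n ∈ unitary A then y n else 1‖ ≤ ‖y‖ + ‖(1 : A)‖ := fun n => by
    split_ifs
    · exact (y.norm_coe_le_norm n).trans (le_add_of_nonneg_right (norm_nonneg _))
    · exact le_add_of_nonneg_left (norm_nonneg _)
  refine ⟨BoundedContinuousFunction.ofNormedAddCommGroupDiscrete _ _ hb, fun n => ?_, ?_⟩
  · change (if y n ∈ unitary A then y n else 1) ∈ unitary A
    split_ifs with h
    · exact h
    · exact one_mem _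
  · rw [← e1]
    refine ult_mk_eq ?_
    filter_upwards [ev] with n hn
    exact if_pos hn

lemma ult_exists_sep {B : Type*} [CStarAlgebra B] {s : Set B} (hs : s.Countable) :
    ∃ C : StarSubalgebra ℂ B, IsClosed (C : Set B) ∧ TopologicalSpace.IsSeparable (C : Set B) ∧
      s ⊆ C := by
  refine ⟨(StarAlgebra.adjoin ℂ s).topologicalClosure, StarSubalgebra.isClosed_topologicalClosure _,
    TopologicalSpace.IsSeparable.closure ?_, (StarAlgebra.subset_adjoin ℂ s).trans subset_closure⟩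
  have h1 : (s ∪ star s).Countable := hs.union (hs.preimage star_injective)
  have h2 : (Submonoid.closure (s ∪ star s) : Set B).Countable := by
    have := h1.to_subtype
    rw [Submonoid.closure_eq_image_prod, ← Set.range_list_map_coe]
    exact (Set.countable_range _).image _
  have h3 := h2.isSeparable.span (R := ℂ)
  rwa [← Algebra.adjoin_eq_span] at h3

lemma ult_reindex (hω : (ω : Filter ℕ) ≤ cofinite) (d z : ℕ → (ℕ →ᵇ A))
    (hd : ∀ j, Quo.mk (nullIdeal ω A) (d j) ∈ centralSeq ω A) :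
    ∃ r : ℕ → ℕ, ∀ j, ‖Quo.mk (nullIdeal ω A) (ultReindex A r (d j))‖ ≤
        ‖Quo.mk (nullIdeal ω A) (d j)‖ ∧
      ∀ i, Commute (Quo.mk (nullIdeal ω A) (ultReindex A r (d j))) (Quo.mk (nullIdeal ω A) (z i)) := by
  have hp : ∀ n : ℕ, (0 : ℝ) < 1 / (n + 1) := fun n => by positivity
  have key : ∀ n : ℕ, ∃ m, ∀ j ∈ Finset.range (n + 1),
      ‖d j m‖ < ‖Quo.mk (nullIdeal ω A) (d j)‖ + 1 / (n + 1) ∧
      ∀ i ∈ Finset.range (n + 1), ‖d j m * z i n - z i n * d j m‖ < 1 / (n + 1) := fun n => by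
    refine Filter.Eventually.exists (f := (ω : Filter ℕ)) ?_
    rw [eventually_all_finset]
    refine fun j _ => ((tendsto_norm_mk (d j)).eventually_lt_const (by linarith [hp n])).and ?_
    rw [eventually_all_finset]
    intro i _
    have h1 : d j * BoundedContinuousFunction.const ℕ (z i n) -
        BoundedContinuousFunction.const ℕ (z i n) * d j ∈ nullIdeal ω A := by
      rw [← Quo.mk_eq_zero, map_sub, map_mul, map_mul, sub_eq_zero]
      exact ((mem_cent.1 (hd j) _ ⟨z i n, rfl⟩).1.eq).symm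
    exact mem_nullIdeal.1 h1 _ (hp n)
  choose r hr using key
  have hω' : (ω : Filter ℕ) ≤ atTop := Nat.cofinite_eq_atTop ▸ hω
  have ht : Tendsto (fun n : ℕ => (1 : ℝ) / (n + 1)) ω (𝓝 0) :=
    tendsto_one_div_add_atTop_nhds_zero_nat.mono_left hω'
  have hge : ∀ j, ∀ᶠ n in (ω : Filter ℕ), j ∈ Finset.range (n + 1) := fun j =>
    hω' ((eventually_ge_atTop j).mono fun n hn => Finset.mem_range.2 (Nat.lt_succ_of_le hn))
  refine ⟨r, fun j => ⟨?_, fun i => ?_⟩⟩
  · have h2 := ht.const_add ‖Quo.mk (nullIdeal ω A) (d j)‖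
    rw [add_zero] at h2
    refine le_of_tendsto_of_tendsto (tendsto_norm_mk _) h2 ?_
    filter_upwards [hge j] with n hn
    exact (hr n j hn).1.le
  · rw [Commute, SemiconjBy, ← sub_eq_zero, ← map_mul, ← map_mul, ← map_sub, Quo.mk_eq_zero]
    refine squeeze_zero' (Eventually.of_forall fun _ => norm_nonneg _) ?_ ht
    filter_upwards [hge j, hge i] with n hn hn'
    exact ((hr n j hn).2 i hn').le

theorem sa_centralSeq [TopologicalSpace.SeparableSpace A] (hω : (ω : Filter ℕ) ≤ cofinite) :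
    SA (centralSeq ω A) := by
  intro X Y hX hY
  choose lf hlf using fun x : centralSeq ω A => Quo.mk_surj (nullIdeal ω A) x.1
  obtain ⟨C, hC, sC, hXC⟩ := ult_exists_sep (hX.image lf).countable
  have cmk : Continuous (Quo.mk (nullIdeal ω A)) := map_continuous _
  let E : StarSubalgebra ℂ (ℕ →ᵇ A) := C ⊓ (centralSeq ω A).comap (Quo.mk (nullIdeal ω A))
  have hE : IsClosed (E : Set (ℕ →ᵇ A)) := hC.inter ((isClosed_centralSeq ω A).preimage cmk)
  have sE : TopologicalSpace.SeparableSpace E := (sC.mono Set.inter_subset_left).separableSpace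
  have mE : ∀ e : E, Quo.mk (nullIdeal ω A) e.1 ∈ centralSeq ω A := fun e => e.2.2
  obtain ⟨z, hz⟩ := ((Set.countable_range fun i => BoundedContinuousFunction.const ℕ
    (TopologicalSpace.denseSeq A i)).union (hY.image lf).countable).exists_eq_range
    ⟨_, Or.inl ⟨0, rfl⟩⟩
  obtain ⟨r, hr⟩ := ult_reindex hω (fun j => (TopologicalSpace.denseSeq E j).1) z fun j => mE _
  let θ : E →⋆ₐ[ℂ] Ultrapower ω A :=
    (Quo.mk (nullIdeal ω A)).comp ((ultReindex A r).comp E.subtype)
  let π : E →⋆ₐ[ℂ] Ultrapower ω A := (Quo.mk (nullIdeal ω A)).comp E.subtype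
  have cθ : Continuous θ := map_continuous _
  have cπ : Continuous π := map_continuous _
  have h1 : ∀ e, ‖θ e‖ ≤ ‖π e‖ := fun e =>
    (TopologicalSpace.denseRange_denseSeq E).induction_on e (isClosed_le cθ.norm cπ.norm)
      fun j => (hr j).1
  have h2 : ∀ i e, θ e * Quo.mk (nullIdeal ω A) (z i) = Quo.mk (nullIdeal ω A) (z i) * θ e :=
    fun i e => (TopologicalSpace.denseRange_denseSeq E).induction_on e
      (isClosed_eq (cθ.mul continuous_const) (continuous_const.mul cθ)) fun j => ((hr j).2 i).eq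
  have cc : Continuous (constHom ω A) := map_continuous _
  have h3 : ∀ e a, constHom ω A a * θ e = θ e * constHom ω A a := fun e a =>
    (TopologicalSpace.denseRange_denseSeq A).induction_on a
      (isClosed_eq (cc.mul continuous_const) (continuous_const.mul cc)) fun i => by
        obtain ⟨k, hk⟩ : BoundedContinuousFunction.const ℕ (TopologicalSpace.denseSeq A i) ∈
          Set.range z := hz ▸ Or.inl ⟨i, rfl⟩
        have := h2 k e
        rw [hk] at this
        exact this.symm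
  have mθ : ∀ e, θ e ∈ centralSeq ω A := fun e => mem_cent.2 (by
    rintro _ ⟨a, rfl⟩
    exact ⟨h3 e a, h3 e (star a)⟩)
  refine ⟨E, inferInstance, π.codRestrict _ mE, θ.codRestrict _ mθ, fun a b h => ?_,
    fun x hx => ⟨⟨lf x, hXC ⟨x, hx, rfl⟩, ?_⟩, Subtype.ext (hlf x)⟩, fun e y hy => ?_⟩
  · have h4 : π a = π b := congrArg Subtype.val h
    have h5 := h1 (a - b)
    rw [map_sub, map_sub, h4, sub_self, norm_zero, norm_le_zero_iff, sub_eq_zero] at h5
    exact Subtype.ext h5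
  · change Quo.mk (nullIdeal ω A) (lf x) ∈ centralSeq ω A
    rw [hlf]
    exact x.2
  · obtain ⟨k, hk⟩ : lf y ∈ Set.range z := hz ▸ Or.inr ⟨y, hy, rfl⟩
    have := h2 k e
    rw [hk, hlf] at this
    exact Subtype.ext this

end Vale.Agent.P101
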