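import Vale.Agent.P101.Red
import Vale.Agent.P101.Frame
import Vale.Agent.P101.Blk
import Vale.Agent.P101.Drop
import Vale.Agent.P101.Ult

/-! No characters on the central sequence algebra gives all `Z_{k,k+1}`. -/

namespace Vale.Agent.P101
universe u

theorem drop_of_sa {G : Type u} [CStarAlgebra G] (hSA : SA G) (h : IsEmpty (G →⋆ₐ[ℂ] ℂ)) {k : ℕ}
    (hk : 0 < k) : Nonempty (dropAlg k (k + 1) →⋆ₐ[ℂ] G) := by
  obtain ⟨x, hx, hf⟩ := one_nil hSA h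
  obtain ⟨E, n, z, C, hE, hz, hC, hp⟩ := exists_base hSA hx hf k ⟨0, hk⟩
  obtain ⟨E, v, hE, hv, ho⟩ := exists_rw hSA hE hz hC hp
  exact drop_hom hE hv ho

theorem drop_centralSeq {A : Type u} [CStarAlgebra A] [TopologicalSpace.SeparableSpace A]
    {ω : Ultrafilter ℕ} (hω : (ω : Filter ℕ) ≤ Filter.cofinite)
    (h : IsEmpty (centralSeq ω A →⋆ₐ[ℂ] ℂ)) {k : ℕ} (hk : 0 < k) :
    Nonempty (dropAlg k (k + 1) →⋆ₐ[ℂ] centralSeq ω A) :=
  drop_of_sa (sa_centralSeq hω) h hk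

end Vale.Agent.P101
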