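import Vale.Agent.P101.DDA

/-! Fibres, quotients and traces of dimension drop algebras. -/

namespace Vale.Agent.P101
open scoped Matrix.Norms.L2Operator unitInterval
variable {p q : ℕ}

/-- If the coordinate goes to a scalar, the homomorphism factors through a fibre. -/
theorem drop_fiber {Q : Type*} [CStarAlgebra Q] [Nontrivial Q] (φ : dropAlg p q →⋆ₐ[ℂ] Q) {t : ℝ}
    (h : φ (scal p q coordX) = algebraMap ℝ Q t) :
    ∃ s : I, (s : ℝ) = t ∧ (∀ ψ, φ (scal p q ψ) = algebraMap ℂ Q (ψ s)) ∧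
      ∀ f : dropAlg p q, f.1 s = 0 → φ f = 0 := by
  have ht : t ∈ I := by
    by_contra ht
    have hne : ∀ u : I, ((u : ℝ) : ℂ) - t ≠ 0 := fun u h0 =>
      ht (Complex.ofReal_injective (sub_eq_zero.1 h0) ▸ u.2)
    let w : C(I, ℂ) := ⟨fun u => (((u : ℝ) : ℂ) - t)⁻¹, Continuous.inv₀ (by fun_prop) hne⟩
    have e : (coordX - algebraMap ℂ _ (t : ℂ)) * w = 1 := by
      ext u
      simp only [w, ContinuousMap.coe_mk, ContinuousMap.sub_apply, coordX_apply,
        Algebra.algebraMap_eq_smul_one, ContinuousMap.smul_apply, ContinuousMap.one_apply,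
        ContinuousMap.mul_apply, smul_eq_mul, mul_one]
      exact mul_inv_cancel₀ (hne u)
    have e2 : φ (scal p q (coordX - algebraMap ℂ _ (t : ℂ))) = 0 := by
      rw [map_sub, map_sub, h, AlgHomClass.commutes, AlgHomClass.commutes]
      exact sub_self _
    have := congrArg (fun x => φ (scal p q x)) e
    simp only [map_mul, e2, zero_mul, map_one] at this
    exact zero_ne_one this
  refine ⟨⟨t, ht⟩, rfl, fun ψ => ?_, dd_kill (s := ⟨t, ht⟩) φ h⟩
  have := dd_kill (s := ⟨t, ht⟩) φ h (scal p q ψ - algebraMap ℂ _ (ψ ⟨t, ht⟩)) (by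
    rw [← ev_apply, map_sub, AlgHomClass.commutes, ev_apply, scal_apply, Algebra.algebraMap_eq_smul_one,
      sub_self])
  rwa [map_sub, AlgHomClass.commutes, sub_eq_zero] at this

theorem commute_kR_iff {a b : Type} [Fintype a] [DecidableEq a] [Fintype b] [DecidableEq b]
    [Nonempty b] {Z : Matrix (a × b) (a × b) ℂ} :
    (∀ Y, Commute Z (kR a b Y)) ↔ ∃ X, Z = kL a b X := by
  refine ⟨fun h => ?_, ?_⟩
  · obtain ⟨o⟩ := ‹Nonempty b›
    refine ⟨Matrix.of fun i j => Z (i, o) (j, o), ?_⟩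
    ext ⟨i, x⟩ ⟨j, y⟩
    have := congrFun (congrFun (h (Matrix.single y o 1)).eq (i, x)) (j, o)
    simp only [kR_apply, Matrix.mul_apply, Fintype.sum_prod_type, Matrix.kroneckerMap_apply,
      Matrix.one_apply, Matrix.single_apply] at this
    simp only [kL_apply, Matrix.kroneckerMap_apply, Matrix.one_apply, Matrix.of_apply]
    by_cases hxy : x = y
    · subst hxy
      simpa using this
    · simpa [hxy, Ne.symm hxy] using this
  · rintro ⟨X, rfl⟩ Y
    exact kL_comm_kR X Y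

theorem commute_kL_iff {a b : Type} [Fintype a] [DecidableEq a] [Fintype b] [DecidableEq b]
    [Nonempty a] {Z : Matrix (a × b) (a × b) ℂ} :
    (∀ X, Commute Z (kL a b X)) ↔ ∃ Y, Z = kR a b Y := by
  refine ⟨fun h => ?_, ?_⟩
  · obtain ⟨o⟩ := ‹Nonempty a›
    refine ⟨Matrix.of fun i j => Z (o, i) (o, j), ?_⟩
    ext ⟨x, i⟩ ⟨y, j⟩
    have := congrFun (congrFun (h (Matrix.single y o 1)).eq (x, i)) (o, j)
    simp only [kL_apply, Matrix.mul_apply, Fintype.sum_prod_type, Matrix.kroneckerMap_apply,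
      Matrix.one_apply, Matrix.single_apply] at this
    simp only [kR_apply, Matrix.kroneckerMap_apply, Matrix.one_apply, Matrix.of_apply]
    by_cases hxy : x = y
    · subst hxy
      simpa using this
    · simpa [hxy, Ne.symm hxy] using this
  · rintro ⟨Y, rfl⟩ X
    exact (kL_comm_kR X Y).symm

lemma dd_fib_inj {Q : Type*} [CStarAlgebra Q] [Nontrivial Q] (π : dropAlg p q →⋆ₐ[ℂ] Q) {s : I}
    (hs : ∀ f : dropAlg p q, f.1 s = 0 → π f = 0) {n : Type} [Fintype n] [DecidableEq n]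
    (η : Matrix n n ℂ →⋆ₐ[ℂ] MM p q) (h1 : ∀ f : dropAlg p q, ∃ X, f.1 s = η X)
    (h2 : ∀ X, ∃ f : dropAlg p q, f.1 s = η X) (f : dropAlg p q) (hf : π f = 0) : f.1 s = 0 := by
  choose sc hsc using h2
  have key : ∀ a b : dropAlg p q, ev p q s a = ev p q s b → π a = π b := fun a b h => by
    rw [← sub_eq_zero, ← map_sub]
    refine hs _ ?_
    change ev p q s (a - b) = 0
    rw [map_sub, h, sub_self]
  have hsc' : ∀ X, ev p q s (sc X) = η X := hsc
  let ψ : Matrix n n ℂ →+* Q :=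
    { toFun := fun X => π (sc X)
      map_one' := by rw [key _ 1 (by rw [hsc', map_one, map_one]), map_one]
      map_mul' := fun X Y => by
        rw [← map_mul]; exact key _ _ (by rw [map_mul, hsc', hsc', hsc', map_mul])
      map_zero' := by rw [key _ 0 (by rw [hsc', map_zero, map_zero]), map_zero]
      map_add' := fun X Y => by
        rw [← map_add]; exact key _ _ (by rw [map_add, hsc', hsc', hsc', map_add]) }
  obtain ⟨X, hX⟩ := h1 f
  rcases isEmpty_or_nonempty n with hn | hn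
  · rw [hX, Subsingleton.elim X 0, map_zero]
  have e : ψ X = ψ 0 := by
    rw [map_zero, ← hf]
    exact key _ _ (by rw [hsc', ev_apply, hX])
  rw [hX, ψ.injective e, map_zero]

lemma dd_bump (b : C(I, ℂ)) (Z : MM p q) (h0 : ∃ X', b 0 • Z = kL (Fin p) (Fin q) X')
    (h1 : ∃ Y', b 1 • Z = kR (Fin p) (Fin q) Y') : ∃ f : dropAlg p q, ∀ s, f.1 s = b s • Z :=
  ⟨⟨⟨fun s => b s • Z, by fun_prop⟩, mem_dropAlg.2 ⟨h0, h1⟩⟩, fun _ => rfl⟩

theorem drop_norm_ge {Q : Type*} [CStarAlgebra Q] [Nontrivial Q] (φ : dropAlg p q →⋆ₐ[ℂ] Q)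
    (g : dropAlg p q) {r : ℝ} (h : ∀ s, r ≤ ‖g.1 s‖) : r ≤ ‖φ g‖ := by
  obtain ⟨P, hP⟩ := exists_pq_le φ
  have hsa : IsSelfAdjoint (scal p q coordX) := by
    rw [IsSelfAdjoint, ← map_star]
    congr 1
    ext s
    simp
  obtain ⟨t, ht⟩ := P.scalar hsa (dd_scal_comm _)
  obtain ⟨s, -, -, hs⟩ := drop_fiber P.π ht
  have key : ∀ f, P.π f = 0 → f.1 s = 0 := by
    rcases eq_or_ne s 0 with rfl | s0
    · refine dd_fib_inj P.π hs (kL (Fin p) (Fin q)) (fun f => (mem_dropAlg.1 f.2).1) fun X => ?_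
      obtain ⟨f, hf⟩ := dd_bump (1 - coordX) (kL (Fin p) (Fin q) X) ⟨X, by simp⟩ ⟨0, by simp⟩
      exact ⟨f, by simp [hf]⟩
    rcases eq_or_ne s 1 with rfl | s1
    · refine dd_fib_inj P.π hs (kR (Fin p) (Fin q)) (fun f => (mem_dropAlg.1 f.2).2) fun X => ?_
      obtain ⟨f, hf⟩ := dd_bump coordX (kR (Fin p) (Fin q) X) ⟨0, by simp⟩ ⟨X, by simp⟩
      exact ⟨f, by simp [hf]⟩
    refine dd_fib_inj P.π hs (StarAlgHom.id ℂ _) (fun f => ⟨_, rfl⟩) fun X => ?_
    have a0 : ((s : ℝ) : ℂ) ≠ 0 := fun h0 => s0 (Subtype.ext (Complex.ofReal_eq_zero.1 h0))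
    have a1 : 1 - ((s : ℝ) : ℂ) ≠ 0 := fun h0 =>
      s1 (Subtype.ext (Complex.ofReal_eq_one.1 (sub_eq_zero.1 h0).symm))
    obtain ⟨f, hf⟩ := dd_bump ((((s : ℝ) : ℂ) * (1 - ((s : ℝ) : ℂ)))⁻¹ • (coordX * (1 - coordX))) X
      ⟨0, by simp⟩ ⟨0, by simp⟩
    refine ⟨f, ?_⟩
    rw [hf]
    change ((((s : ℝ) : ℂ) * (1 - ((s : ℝ) : ℂ)))⁻¹ * (((s : ℝ) : ℂ) * (1 - ((s : ℝ) : ℂ)))) • X = X
    rw [inv_mul_cancel₀ (mul_ne_zero a0 a1), one_smul]
  have n1 : ‖ev p q s g‖ ≤ ‖P.π g‖ := norm_transfer (fun a b hab => by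
    rw [← sub_eq_zero, ← map_sub] at hab ⊢
    exact key _ hab) g
  have n2 : ‖P.π g‖ ≤ ‖φ g‖ := norm_transfer (fun a b hab => by
    rw [← sub_eq_zero, ← map_sub] at hab ⊢
    exact hP _ hab) g
  exact (h s).trans (n1.trans n2)

lemma dd_col_traceless (hp : 0 < p) (hq : 0 < q) (τ : dropAlg p q →L[ℂ] ℂ)
    (ht : ∀ a b, τ (a * b) = τ (b * a)) (g : dropAlg p q) (hg : ∀ s, Matrix.trace (g.1 s) = 0) :
    τ (col p q g) = 0 := by
  obtain ⟨⟨X, hX⟩, ⟨Y, hY⟩⟩ := mem_dropAlg.1 g.2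
  have tX : Matrix.trace X = 0 := by
    have := hg 0
    rw [hX, kL_apply, Matrix.trace_kronecker, Matrix.trace_one, mul_eq_zero] at this
    exact this.resolve_right (by simpa using hq.ne')
  have tY : Matrix.trace Y = 0 := by
    have := hg 1
    rw [hY, kR_apply, Matrix.trace_kronecker, Matrix.trace_one, mul_eq_zero] at this
    exact this.resolve_left (by simpa using hp.ne')
  let r : C(I, ℂ) := coordX.comp rho
  have hr : ∀ s, r s = ((rho s : ℝ) : ℂ) := fun _ => rfl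
  let b₀ : C(I, ℂ) := ⟨fun s => ((min 1 (3 - 3 * (s : ℝ)) : ℝ) : ℂ), by fun_prop⟩
  let b₁ : C(I, ℂ) := ⟨fun s => ((min 1 (3 * (s : ℝ)) : ℝ) : ℂ), by fun_prop⟩
  have c0 : ∀ s, b₀ s = 1 ∨ rho s = 1 := fun s => by
    rcases le_total (s : ℝ) (2 / 3) with h | h
    · left
      change ((min 1 (3 - 3 * (s : ℝ)) : ℝ) : ℂ) = 1
      rw [min_eq_left (by linarith), Complex.ofReal_one]
    · right
      refine Subtype.ext ?_
      rw [rho_coe, min_eq_left (by linarith), max_eq_right zero_le_one]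
      rfl
  have c1 : ∀ s, b₁ s = 1 ∨ rho s = 0 := fun s => by
    rcases le_total (1 / 3) (s : ℝ) with h | h
    · left
      change ((min 1 (3 * (s : ℝ)) : ℝ) : ℂ) = 1
      rw [min_eq_left (by linarith), Complex.ofReal_one]
    · right
      refine Subtype.ext ?_
      rw [rho_coe, max_eq_left (min_le_of_right_le (by linarith))]
      rfl
  have z0 : b₀ 1 = 0 := by simp [b₀]
  have z1 : b₁ 0 = 0 := by simp [b₁]
  have r0 : r 0 = 0 := by simp [hr, rho_zero]
  have r1 : r 1 = 1 := by simp [hr, rho_one]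
  obtain ⟨f₀, hf₀⟩ := dd_bump (1 - r) (kL (Fin p) (Fin q) X) ⟨X, by simp [r0]⟩ ⟨0, by simp [r1]⟩
  obtain ⟨f₁, hf₁⟩ := dd_bump r (kR (Fin p) (Fin q) Y) ⟨0, by simp [r0]⟩ ⟨Y, by simp [r1]⟩
  have t0 : τ f₀ = 0 := dd_traceless (⟨0, hp⟩ : Fin p) τ ht (kL (Fin p) (Fin q)) b₀
    (fun Z => ⟨b₀ 0 • Z, (map_smul _ _ _).symm⟩) (fun Z => ⟨0, by simp [z0]⟩)
    ⟨fun s => (1 - r) s • X, by fun_prop⟩
    (fun s => (c0 s).imp_right fun h => by simp [hr, h]) (fun s => by simp [tX]) f₀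
    fun s => by rw [hf₀, ← map_smul]; rfl
  have t1 : τ f₁ = 0 := dd_traceless (⟨0, hq⟩ : Fin q) τ ht (kR (Fin p) (Fin q)) b₁
    (fun Z => ⟨0, by simp [z1]⟩) (fun Z => ⟨b₁ 1 • Z, (map_smul _ _ _).symm⟩)
    ⟨fun s => r s • Y, by fun_prop⟩
    (fun s => (c1 s).imp_right fun h => by simp [hr, h]) (fun s => by simp [tY]) f₁
    fun s => by rw [hf₁, ← map_smul]; rfl
  have em : ∀ s, (col p q g - f₀ - f₁).1 s = g.1 (rho s) - (1 - r s) • g.1 0 - r s • g.1 1 :=
    fun s => by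
      change g.1 (rho s) - f₀.1 s - f₁.1 s = _
      rw [hf₀, hf₁, hX, hY]
      rfl
  have tm : τ (col p q g - f₀ - f₁) = 0 :=
    dd_traceless ((⟨0, hp⟩, ⟨0, hq⟩) : KK p q) τ ht (StarAlgHom.id ℂ _) (b₀ * b₁)
      (fun Z => ⟨0, by simp [z1]⟩) (fun Z => ⟨0, by simp [z0]⟩) (col p q g - f₀ - f₁).1
      (fun s => by
        rw [em, hr]
        rcases c0 s with h0 | h0
        · rcases c1 s with h1 | h1
          · left; simp [h0, h1]
          · right; simp [h1]
        · right; simp [h0])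
      (fun s => by rw [em]; simp [hg]) _ fun _ => rfl
  rwa [map_sub, map_sub, t0, t1, sub_zero, sub_zero] at tm

theorem drop_trace_flat (hp : 0 < p) (hq : 0 < q) (τ : dropAlg p q →L[ℂ] ℂ) (h1 : τ 1 = 1)
    (ht : ∀ a b, τ (a * b) = τ (b * a)) {γ : C(I, MM p q)} (hγ : ∀ s, γ s ∈ unitary (MM p q))
    {g : dropAlg p q} {ε : ℝ} (hg : Flat γ g ε) :
    ‖τ (col p q g) - Matrix.trace (g.1 0) / (p * q : ℂ)‖ ≤ ‖τ‖ * ε := by
  have hpq : (p * q : ℂ) ≠ 0 := mul_ne_zero (by simpa using hp.ne') (by simpa using hq.ne')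
  have hε : 0 ≤ ε := (norm_nonneg _).trans (hg 0)
  let ν : C(I, ℂ) := ⟨fun s => Matrix.trace (g.1 s) / (p * q : ℂ),
    (g.1.continuous.matrix_trace).div_const _⟩
  have hν : ∀ s, ν s = Matrix.trace (g.1 s) / (p * q : ℂ) := fun _ => rfl
  have e1 := dd_col_traceless hp hq τ ht (g - scal p q ν) fun s => by
    change Matrix.trace (g.1 s - ν s • (1 : MM p q)) = 0
    rw [Matrix.trace_sub, Matrix.trace_smul, Matrix.trace_one, hν]
    simp only [Fintype.card_prod, Fintype.card_fin, smul_eq_mul, Nat.cast_mul]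
    rw [div_mul_cancel₀ _ hpq, sub_self]
  rw [map_sub, map_sub, sub_eq_zero] at e1
  have e2 : τ (col p q g) - Matrix.trace (g.1 0) / (p * q : ℂ) =
      τ (col p q (scal p q ν) - ν 0 • 1) := by
    rw [map_sub, map_smul, h1, e1, smul_eq_mul, mul_one, hν]
  rw [e2]
  refine (τ.le_opNorm _).trans (mul_le_mul_of_nonneg_left ?_ (norm_nonneg _))
  refine (drop_norm_le _ hε).2 fun s => ?_
  change ‖ν (rho s) • (1 : MM p q) - ν 0 • (1 : MM p q)‖ ≤ ε
  have : Nonempty (KK p q) := ⟨(⟨0, hp⟩, ⟨0, hq⟩)⟩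
  rw [← sub_smul, norm_smul, norm_one, mul_one]
  have e3 : ν (rho s) - ν 0 =
      Matrix.trace (g.1 (rho s) - γ (rho s) * g.1 0 * star (γ (rho s))) / (p * q : ℂ) := by
    rw [Matrix.trace_sub, Matrix.trace_mul_cycle, (hγ _).1, one_mul, sub_div, hν, hν]
  rw [e3]
  exact (dd_trace_le hp hq _).trans (hg _)

open scoped ComplexOrder in
theorem drop_exists_trace (hp : 0 < p) (hq : 0 < q) :
    ∃ τ : dropAlg p q →L[ℂ] ℂ, IsTracialState τ := by
  have hpq : (p * q : ℂ) ≠ 0 := mul_ne_zero (by simpa using hp.ne') (by simpa using hq.ne')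
  let T : dropAlg p q →ₗ[ℂ] ℂ :=
    { toFun := fun f => Matrix.trace (f.1 0) / (p * q : ℂ)
      map_add' := fun f g => by
        change Matrix.trace (f.1 0 + g.1 0) / _ = _
        rw [Matrix.trace_add, add_div]
      map_smul' := fun c f => by
        change Matrix.trace (c • f.1 0) / _ = c * _
        rw [Matrix.trace_smul, smul_eq_mul, mul_div_assoc] }
  refine ⟨T.mkContinuous 1 fun f => ?_, ?_, fun a => ?_, fun a b => ?_⟩
  · rw [one_mul]
    exact (dd_trace_le hp hq _).trans (drop_apply_le f 0)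
  · change Matrix.trace (1 : MM p q) / (p * q : ℂ) = 1
    rw [Matrix.trace_one]
    simp only [Fintype.card_prod, Fintype.card_fin, Nat.cast_mul]
    exact div_self hpq
  · change 0 ≤ Matrix.trace (star (a.1 0) * a.1 0) / (p * q : ℂ)
    refine div_nonneg (Matrix.posSemidef_conjTranspose_mul_self (a.1 0)).trace_nonneg ?_
    positivity
  · change Matrix.trace (a.1 0 * b.1 0) / (p * q : ℂ) = Matrix.trace (b.1 0 * a.1 0) / (p * q : ℂ)
    rw [Matrix.trace_mul_comm]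

theorem drop_not_finite (hp : 0 < p) (hq : 0 < q) : ¬ Module.Finite ℂ (dropAlg p q) := by
  intro h
  have : Nonempty (KK p q) := ⟨(⟨0, hp⟩, ⟨0, hq⟩)⟩
  have : Infinite I := Set.Icc.infinite zero_lt_one
  refine Polynomial.not_finite (R := ℂ) (Module.Finite.of_injective
    (Polynomial.aeval (scal p q coordX)).toLinearMap ((injective_iff_map_eq_zero _).2 fun P hP => ?_))
  refine P.eq_zero_of_infinite_isRoot (Set.infinite_of_injective_forall_mem
    (f := fun s : I => ((s : ℝ) : ℂ)) (Complex.ofReal_injective.comp Subtype.val_injective)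
    fun s => ?_)
  have h1 : Polynomial.aeval (scal p q coordX) P = 0 := hP
  have h2 := Polynomial.aeval_algHom_apply (ev p q s) (scal p q coordX) P
  rw [h1, map_zero, ev_apply, scal_apply, coordX_apply, ← Algebra.algebraMap_eq_smul_one,
    Polynomial.aeval_algebraMap_apply_eq_algebraMap_eval] at h2
  exact (map_eq_zero _).1 h2

instance drop_separable : TopologicalSpace.SeparableSpace (dropAlg p q) := by
  have : SecondCountableTopology (MM p q) := inferInstanceAs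
    (SecondCountableTopology (KK p q → KK p q → ℂ))
  have : SecondCountableTopology C(I, MM p q) := inferInstance
  infer_instance

end Vale.Agent.P101
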