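import Vale.Agent.P101.Prime

/-! Dimension drop algebras: definitions. -/

namespace Vale.Agent.P101
open scoped Kronecker Matrix.Norms.L2Operator unitInterval

/-- `X ↦ X ⊗ 1`. -/
def kL (a b : Type) [Fintype a] [DecidableEq a] [Fintype b] [DecidableEq b] :
    Matrix a a ℂ →⋆ₐ[ℂ] Matrix (a × b) (a × b) ℂ where
  toFun X := X ⊗ₖ (1 : Matrix b b ℂ)
  map_one' := Matrix.one_kronecker_one
  map_mul' X Y := by simp [← Matrix.mul_kronecker_mul]
  map_zero' := by simp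
  map_add' X Y := by simp [Matrix.add_kronecker]
  commutes' c := by simp [Algebra.algebraMap_eq_smul_one, Matrix.smul_kronecker]
  map_star' X := by simp [Matrix.star_eq_conjTranspose, Matrix.conjTranspose_kronecker]

/-- `Y ↦ 1 ⊗ Y`. -/
def kR (a b : Type) [Fintype a] [DecidableEq a] [Fintype b] [DecidableEq b] :
    Matrix b b ℂ →⋆ₐ[ℂ] Matrix (a × b) (a × b) ℂ where
  toFun Y := (1 : Matrix a a ℂ) ⊗ₖ Y
  map_one' := Matrix.one_kronecker_one
  map_mul' X Y := by simp [← Matrix.mul_kronecker_mul]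
  map_zero' := by simp
  map_add' X Y := by simp [Matrix.kronecker_add]
  commutes' c := by simp [Algebra.algebraMap_eq_smul_one, Matrix.kronecker_smul]
  map_star' X := by simp [Matrix.star_eq_conjTranspose, Matrix.conjTranspose_kronecker]

section
variable {a b : Type} [Fintype a] [DecidableEq a] [Fintype b] [DecidableEq b]

lemma kL_apply (X : Matrix a a ℂ) : kL a b X = X ⊗ₖ (1 : Matrix b b ℂ) := rfl

lemma kR_apply (Y : Matrix b b ℂ) : kR a b Y = (1 : Matrix a a ℂ) ⊗ₖ Y := rfl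

lemma kL_comm_kR (X : Matrix a a ℂ) (Y : Matrix b b ℂ) : Commute (kL a b X) (kR a b Y) := by
  simp [Commute, SemiconjBy, kL_apply, kR_apply, ← Matrix.mul_kronecker_mul]

end

/-- Index set of the fibres. -/
abbrev KK (p q : ℕ) : Type := Fin p × Fin q

/-- The fibre matrix algebra. -/
abbrev MM (p q : ℕ) : Type := Matrix (KK p q) (KK p q) ℂ

lemma mem_dropAlg {p q : ℕ} {f : C(I, MM p q)} : f ∈ dropAlg p q ↔
    (∃ X, f 0 = kL (Fin p) (Fin q) X) ∧ ∃ Y, f 1 = kR (Fin p) (Fin q) Y := Iff.rfl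

instance isClosed_dropAlg (p q : ℕ) : IsClosed (dropAlg p q : Set C(I, MM p q)) := by
  have h0 : IsClosed (Set.range (kL (Fin p) (Fin q))) :=
    (LinearMap.range (kL (Fin p) (Fin q)).toAlgHom.toLinearMap).closed_of_finiteDimensional
  have h1 : IsClosed (Set.range (kR (Fin p) (Fin q))) :=
    (LinearMap.range (kR (Fin p) (Fin q)).toAlgHom.toLinearMap).closed_of_finiteDimensional
  have : (dropAlg p q : Set C(I, MM p q)) = (fun f => f 0) ⁻¹' Set.range (kL (Fin p) (Fin q)) ∩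
      (fun f => f 1) ⁻¹' Set.range (kR (Fin p) (Fin q)) := by
    ext f
    simp only [SetLike.mem_coe, mem_dropAlg, Set.mem_inter_iff, Set.mem_preimage, Set.mem_range,
      eq_comm]
  rw [this]
  exact (h0.preimage (by fun_prop)).inter (h1.preimage (by fun_prop))

noncomputable instance (p q : ℕ) : CStarAlgebra (dropAlg p q) := StarSubalgebra.cstarAlgebra _

/-- Evaluation at a point. -/
noncomputable def ev (p q : ℕ) (s : I) : dropAlg p q →⋆ₐ[ℂ] MM p q where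
  toFun f := f.1 s
  map_one' := rfl
  map_mul' _ _ := rfl
  map_zero' := rfl
  map_add' _ _ := rfl
  commutes' _ := rfl
  map_star' _ := rfl

@[simp] lemma ev_apply {p q : ℕ} (s : I) (f : dropAlg p q) : ev p q s f = f.1 s := rfl

lemma drop_ext {p q : ℕ} {f g : dropAlg p q} (h : ∀ s, f.1 s = g.1 s) : f = g :=
  Subtype.ext (ContinuousMap.ext h)

lemma drop_norm_le {p q : ℕ} (f : dropAlg p q) {r : ℝ} (hr : 0 ≤ r) :
    ‖f‖ ≤ r ↔ ∀ s, ‖f.1 s‖ ≤ r := ContinuousMap.norm_le f.1 hr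

lemma drop_apply_le {p q : ℕ} (f : dropAlg p q) (s : I) : ‖f.1 s‖ ≤ ‖f‖ :=
  ContinuousMap.norm_coe_le_norm f.1 s

/-- The collar retraction: `0` on `[0,1/3]`, `1` on `[2/3,1]`, affine in between. -/
noncomputable def rho : C(I, I) :=
  ⟨fun s => Set.projIcc 0 1 zero_le_one (3 * (s : ℝ) - 1),
    continuous_projIcc.comp (by fun_prop)⟩

lemma rho_coe (s : I) : (rho s : ℝ) = max 0 (min 1 (3 * (s : ℝ) - 1)) := rfl

lemma rho_zero : rho 0 = 0 := Subtype.ext (by norm_num [rho_coe])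

lemma rho_one : rho 1 = 1 := Subtype.ext (by norm_num [rho_coe])

/-- Precomposition with the collar retraction. -/
noncomputable def col (p q : ℕ) : dropAlg p q →⋆ₐ[ℂ] dropAlg p q where
  toFun f := ⟨f.1.comp rho, by
    rw [mem_dropAlg]; simpa [rho_zero, rho_one] using mem_dropAlg.1 f.2⟩
  map_one' := rfl
  map_mul' _ _ := rfl
  map_zero' := rfl
  map_add' _ _ := rfl
  commutes' _ := rfl
  map_star' _ := rfl

@[simp] lemma col_apply {p q : ℕ} (f : dropAlg p q) (s : I) : (col p q f).1 s = f.1 (rho s) := rfl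

/-- Scalar functions as central elements. -/
noncomputable def scal (p q : ℕ) : C(I, ℂ) →⋆ₐ[ℂ] dropAlg p q where
  toFun φ := ⟨⟨fun s => φ s • (1 : MM p q), by fun_prop⟩,
    mem_dropAlg.2 ⟨⟨φ 0 • 1, by simp⟩, ⟨φ 1 • 1, by simp⟩⟩⟩
  map_one' := drop_ext fun s => by simp
  map_mul' _ _ := drop_ext fun s => by simp [smul_smul, mul_comm]
  map_zero' := drop_ext fun s => by simp
  map_add' _ _ := drop_ext fun s => by simp [add_smul]
  commutes' c := drop_ext fun s => by simp [Algebra.algebraMap_eq_smul_one]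
  map_star' _ := drop_ext fun s => by simp

@[simp] lemma scal_apply {p q : ℕ} (φ : C(I, ℂ)) (s : I) :
    (scal p q φ).1 s = φ s • (1 : MM p q) := rfl

/-- The coordinate function. -/
noncomputable def coordX : C(I, ℂ) := ⟨fun s => ((s : ℝ) : ℂ), by fun_prop⟩

@[simp] lemma coordX_apply (s : I) : coordX s = ((s : ℝ) : ℂ) := rfl

/-- Modulus of continuity bound. -/
def Modc {p q : ℕ} (f : dropAlg p q) (δ ε : ℝ) : Prop :=
  ∀ s t : I, |(s : ℝ) - t| ≤ δ → ‖f.1 s - f.1 t‖ ≤ ε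

/-- `g` is almost constant up to the unitary path `γ`. -/
def Flat {p q : ℕ} (γ : C(I, MM p q)) (g : dropAlg p q) (ε : ℝ) : Prop :=
  ∀ s, ‖g.1 s - γ s * g.1 0 * star (γ s)‖ ≤ ε

/-- Boundary conditions describing `Z_{p,q} ⊗ Z_{p,q}` inside functions on the square. -/
structure Bdry {p q : ℕ} (U : C(I × I, Matrix (KK p q × KK p q) (KK p q × KK p q) ℂ)) : Prop where
  s0 : ∀ t Y, Commute (U (0, t)) (kL (KK p q) (KK p q) (kR (Fin p) (Fin q) Y))
  s1 : ∀ t X, Commute (U (1, t)) (kL (KK p q) (KK p q) (kL (Fin p) (Fin q) X))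
  t0 : ∀ s Y, Commute (U (s, 0)) (kR (KK p q) (KK p q) (kR (Fin p) (Fin q) Y))
  t1 : ∀ s X, Commute (U (s, 1)) (kR (KK p q) (KK p q) (kL (Fin p) (Fin q) X))

/-- Working form of `JiangSu`. -/
def IsJiangSu (Z : Type*) [CStarAlgebra Z] : Prop :=
  (∀ J : TwoSidedIdeal Z, IsClosed (J : Set Z) → J = ⊥ ∨ J = ⊤) ∧
  ¬ Module.Finite ℂ Z ∧
  (∃! τ : Z →L[ℂ] ℂ, IsTracialState τ) ∧
  ∃ (p q : ℕ → ℕ) (μ : ∀ n, dropAlg (p n) (q n) →⋆ₐ[ℂ] Z),
    (∀ n, 2 ≤ p n ∧ 2 ≤ q n ∧ Nat.Coprime (p n) (q n)) ∧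
    (∀ n, Function.Injective (μ n)) ∧
    (∀ n, Set.range (μ n) ⊆ Set.range (μ (n + 1))) ∧
    Dense (⋃ n, Set.range (μ n))

lemma IsJiangSu.jiangSu {Z : Type*} [CStarAlgebra Z] (h : IsJiangSu Z) : JiangSu Z := by
  obtain ⟨h1, h2, h3, p, q, μ, h4, h5, h6, h7⟩ := h
  exact ⟨h1, h2, h3, p, q, fun n => Set.range (μ n),
    fun n => ⟨(h4 n).1, (h4 n).2.1, (h4 n).2.2, μ n, h5 n, rfl⟩, h6, h7⟩

/-- An inductive system of dimension drop algebras with asymptotically flat connecting maps. -/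
structure Sys where
  /-- the limit -/
  Z : Type
  [inst : CStarAlgebra Z]
  /-- sizes -/
  p : ℕ → ℕ
  /-- embeddings -/
  μ : ∀ m, dropAlg (p m) (p m + 1) →⋆ₐ[ℂ] Z
  /-- unitary paths -/
  γ : ∀ m, C(I, MM (p m) (p m + 1))
  two_le : ∀ m, 2 ≤ p m
  inj : ∀ m, Function.Injective (μ m)
  mono : ∀ m, Set.range (μ m) ⊆ Set.range (μ (m + 1))
  dense : Dense (⋃ m, Set.range (μ m))
  γ_zero : ∀ m, γ m 0 = 1
  γ_unitary : ∀ m s, γ m s ∈ unitary (MM (p m) (p m + 1))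
  trace : ∃ τ : Z →L[ℂ] ℂ, IsTracialState τ
  flat : ∀ z ∈ ⋃ m, Set.range (μ m), ∀ ε : ℝ, 0 < ε → ∀ᶠ m in Filter.atTop,
    ∃ g : dropAlg (p m) (p m + 1), μ m (col _ _ g) = z ∧ Flat (γ m) g ε ∧ ∀ s, ‖z‖ ≤ ‖g.1 s‖ + ε

attribute [instance] Sys.inst

end Vale.Agent.P101
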