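import Vale.Agent.P101.DD0

/-! Auxiliary lemmas on dimension drop algebras. -/

namespace Vale.Agent.P101
open scoped Matrix.Norms.L2Operator unitInterval CStarAlgebra
variable {p q : ℕ}

lemma dd_scal_mul (ψ : C(I, ℂ)) (f : dropAlg p q) (s : I) :
    (scal p q ψ * f).1 s = ψ s • f.1 s := by
  change (ψ s • (1 : MM p q)) * f.1 s = _
  rw [smul_mul_assoc, one_mul]

lemma dd_scal_comm (ψ : C(I, ℂ)) (f : dropAlg p q) : Commute (scal p q ψ) f :=
  drop_ext fun s => by
    change (ψ s • (1 : MM p q)) * f.1 s = f.1 s * (ψ s • (1 : MM p q))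
    rw [smul_mul_assoc, one_mul, mul_smul_comm, mul_one]

lemma dd_kill {Q : Type*} [CStarAlgebra Q] (φ : dropAlg p q →⋆ₐ[ℂ] Q) {s : I}
    (h : φ (scal p q coordX) = algebraMap ℝ Q s) (f : dropAlg p q) (hf : f.1 s = 0) :
    φ f = 0 := by
  rw [← norm_le_zero_iff]
  refine le_of_forall_pos_le_add fun ε hε => ?_
  rw [zero_add]
  obtain ⟨δ, hδ, hd⟩ := Metric.continuous_iff.1 f.1.continuous s ε hε
  have hp : ∀ u : I, 0 < max (((u : ℝ) - s) ^ 2) (δ ^ 2) := fun u => lt_max_of_lt_right (by positivity)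
  let w : C(I, ℂ) := ⟨fun u => ((((u : ℝ) - s) / max (((u : ℝ) - s) ^ 2) (δ ^ 2) : ℝ) : ℂ),
    Complex.continuous_ofReal.comp (Continuous.div (by fun_prop) (by fun_prop) fun u => (hp u).ne')⟩
  have e : φ (scal p q (coordX - algebraMap ℂ _ ((s : ℝ) : ℂ))) = 0 := by
    rw [map_sub, map_sub, h, AlgHomClass.commutes, AlgHomClass.commutes]
    exact sub_self _
  have e2 : φ f = φ (f - scal p q (coordX - algebraMap ℂ _ ((s : ℝ) : ℂ)) * (scal p q w * f)) := by
    rw [map_sub, map_mul, e, zero_mul, sub_zero]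
  rw [e2]
  refine (NonUnitalStarAlgHom.norm_apply_le φ _).trans ((drop_norm_le _ hε.le).2 fun u => ?_)
  have e3 : (f - scal p q (coordX - algebraMap ℂ _ ((s : ℝ) : ℂ)) * (scal p q w * f)).1 u =
      ((1 - ((u : ℝ) - s) ^ 2 / max (((u : ℝ) - s) ^ 2) (δ ^ 2) : ℝ) : ℂ) • f.1 u := by
    change f.1 u - (scal p q _ * (scal p q w * f)).1 u = _
    rw [dd_scal_mul, dd_scal_mul, smul_smul, Complex.ofReal_sub, sub_smul, Complex.ofReal_one,
      one_smul]
    congr 2
    simp only [w, ContinuousMap.coe_mk, ContinuousMap.sub_apply, coordX_apply,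
      Algebra.algebraMap_eq_smul_one, ContinuousMap.smul_apply, ContinuousMap.one_apply,
      smul_eq_mul, mul_one]
    push_cast
    ring
  rw [e3, norm_smul, Complex.norm_real]
  rcases lt_or_ge |(u : ℝ) - s| δ with h1 | h1
  · have h2 := hd u h1
    rw [hf, dist_zero_right] at h2
    have h3 : 0 ≤ ((u : ℝ) - s) ^ 2 / max (((u : ℝ) - s) ^ 2) (δ ^ 2) := by
      have := hp u
      positivity
    have h4 : ((u : ℝ) - s) ^ 2 / max (((u : ℝ) - s) ^ 2) (δ ^ 2) ≤ 1 :=
      (div_le_one (hp u)).2 (le_max_left _ _)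
    rw [Real.norm_of_nonneg (by linarith)]
    nlinarith [norm_nonneg (f.1 u)]
  · have h2 : δ ^ 2 ≤ ((u : ℝ) - s) ^ 2 := by
      rw [← sq_abs ((u : ℝ) - s)]
      exact pow_le_pow_left₀ hδ.le h1 2
    have h3 := hp u
    rw [max_eq_left h2] at h3 ⊢
    rw [div_self h3.ne', sub_self, norm_zero, zero_mul]
    exact hε.le

lemma dd_diag_le {n : Type} [Fintype n] [DecidableEq n] (Z : Matrix n n ℂ) (i : n) :
    ‖Z i i‖ ≤ ‖Z‖ := by
  have h1 : ∀ c : ℂ, ‖(Matrix.single i i c : Matrix n n ℂ)‖ = ‖c‖ := fun c => by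
    rw [← Matrix.diagonal_single, Matrix.l2_opNorm_diagonal, Pi.norm_single]
  have h2 := Matrix.single_mul_mul_single i i i i (1 : ℂ) Z 1
  rw [one_mul, mul_one] at h2
  rw [← h1, ← h2]
  refine (norm_mul_le _ _).trans ?_
  rw [h1, norm_one, mul_one]
  refine (norm_mul_le _ _).trans ?_
  rw [h1, norm_one, one_mul]

lemma dd_trace_le (hp : 0 < p) (hq : 0 < q) (Z : MM p q) :
    ‖Matrix.trace Z / (p * q : ℂ)‖ ≤ ‖Z‖ := by
  have h0 : (0 : ℝ) < p * q := by positivity
  have h1 : ‖(p * q : ℂ)‖ = p * q := by simp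
  rw [norm_div, h1, div_le_iff₀ h0]
  refine (norm_sum_le _ _).trans ((Finset.sum_le_sum fun i _ => dd_diag_le Z i).trans_eq ?_)
  simp [mul_comm]

lemma dd_traceless {n : Type} [Fintype n] [DecidableEq n] (o : n) (τ : dropAlg p q →L[ℂ] ℂ)
    (ht : ∀ a b, τ (a * b) = τ (b * a)) (η : Matrix n n ℂ →⋆ₐ[ℂ] MM p q) (b : C(I, ℂ))
    (h0 : ∀ X, ∃ X', b 0 • η X = kL (Fin p) (Fin q) X')
    (h1 : ∀ X, ∃ Y', b 1 • η X = kR (Fin p) (Fin q) Y') (W : C(I, Matrix n n ℂ))
    (hb : ∀ s, b s = 1 ∨ W s = 0) (hW : ∀ s, Matrix.trace (W s) = 0) (f : dropAlg p q)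
    (hf : ∀ s, f.1 s = η (W s)) : τ f = 0 := by
  let E : n → n → dropAlg p q := fun x y =>
    ⟨⟨fun s => b s • η (Matrix.single x y 1), by fun_prop⟩, mem_dropAlg.2 ⟨h0 _, h1 _⟩⟩
  have hE : ∀ x y s, (E x y).1 s = b s • η (Matrix.single x y 1) := fun _ _ _ => rfl
  let w : n → n → C(I, ℂ) := fun x y => ⟨fun s => W s x y, W.continuous.matrix_elem x y⟩
  have hw : ∀ x y s, w x y s = W s x y := fun _ _ _ => rfl
  have hwb : ∀ x y s, w x y s * b s = w x y s := fun x y s => by
    rcases hb s with h | h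
    · rw [h, mul_one]
    · rw [hw, h, Matrix.zero_apply, zero_mul]
  have e1 : f = ∑ x, ∑ y, scal p q (w x y) * E x y := drop_ext fun s => by
    change _ = ev p q s _
    simp only [map_sum, ev_apply, dd_scal_mul, hE, smul_smul, hwb]
    rw [hf]
    conv_lhs => rw [Matrix.matrix_eq_sum_single (W s)]
    simp only [map_sum, hw, ← map_smul, Matrix.smul_single, smul_eq_mul, mul_one]
  have e2 : ∀ x y, τ (scal p q (w x y) * E x y) =
      if y = x then τ (scal p q (w x y) * E o o) else 0 := fun x y => by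
    have a1 : scal p q (w x y) * E x y = scal p q (w x y) * E x o * E o y := drop_ext fun s => by
      change _ = (scal p q (w x y) * E x o).1 s * (E o y).1 s
      simp only [dd_scal_mul, hE, smul_smul, hwb, smul_mul_smul_comm, ← map_mul,
        Matrix.single_mul_single_same, mul_one]
    have a2 : E o y * (scal p q (w x y) * E x o) =
        if y = x then scal p q (w x y) * E o o else 0 := drop_ext fun s => by
      change (E o y).1 s * (scal p q (w x y) * E x o).1 s = _
      simp only [dd_scal_mul, hE, smul_smul, hwb, smul_mul_smul_comm, ← map_mul]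
      split_ifs with h
      · subst h
        rw [dd_scal_mul, hE, smul_smul, hwb, mul_comm, hwb, Matrix.single_mul_single_same, mul_one]
      · rw [Matrix.single_mul_single_of_ne _ _ _ _ h, map_zero, smul_zero]
        rfl
    rw [a1, ht, a2]
    split_ifs
    · rfl
    · exact map_zero τ
  have e3 : ∑ x, w x x = 0 := by
    ext s
    rw [ContinuousMap.sum_apply]
    exact hW s
  rw [e1]
  simp only [map_sum, e2, Finset.sum_ite_eq', Finset.mem_univ, if_true]
  rw [← map_sum, ← Finset.sum_mul, ← map_sum, e3, map_zero, zero_mul, map_zero]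

end Vale.Agent.P101
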