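import Mathlib

/-! Definitions used in the statement for P101. -/

namespace Vale.Agent.P101
open Filter Topology
open scoped BoundedContinuousFunction Kronecker ComplexOrder

/-- A two-sided ideal closed under the involution. -/
class StarIdeal {A : Type*} [Ring A] [StarRing A] (I : Ideal A) : Prop extends I.IsTwoSided where
  star_mem : ∀ x ∈ I, star x ∈ I

/-- The quotient of `A` by an ideal. -/
abbrev Quo {A : Type*} [Ring A] (I : Ideal A) : Type _ := A ⧸ I

section
variable {A : Type*} [Ring A] [StarRing A] [Algebra ℂ A] [StarModule ℂ A] (I : Ideal A)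
  [StarIdeal I]

instance : Star (Quo I) where
  star := Quotient.map' star fun a b h => by
    rw [Submodule.quotientRel_def] at h ⊢
    simpa using StarIdeal.star_mem _ h

instance : StarRing (Quo I) where
  star_involutive x := by
    obtain ⟨x, rfl⟩ := Ideal.Quotient.mk_surjective x
    exact congrArg (Ideal.Quotient.mk I) (star_star x)
  star_mul x y := by
    obtain ⟨x, rfl⟩ := Ideal.Quotient.mk_surjective x
    obtain ⟨y, rfl⟩ := Ideal.Quotient.mk_surjective y
    exact congrArg (Ideal.Quotient.mk I) (star_mul x y)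
  star_add x y := by
    obtain ⟨x, rfl⟩ := Ideal.Quotient.mk_surjective x
    obtain ⟨y, rfl⟩ := Ideal.Quotient.mk_surjective y
    exact congrArg (Ideal.Quotient.mk I) (star_add x y)

instance : StarModule ℂ (Quo I) where
  star_smul c x := by
    obtain ⟨x, rfl⟩ := Ideal.Quotient.mk_surjective x
    exact congrArg (Ideal.Quotient.mk I) (star_smul c x)

/-- The quotient map. -/
def Quo.mk : A →⋆ₐ[ℂ] Quo I where
  __ := Ideal.Quotient.mkₐ ℂ I
  map_star' _ := rfl

end

section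
variable (ω : Ultrafilter ℕ) (A : Type*) [CStarAlgebra A]

/-- Bounded sequences whose norm tends to zero along `ω`. -/
def nullIdeal : Ideal (ℕ →ᵇ A) where
  carrier := {x | Tendsto (fun n => ‖x n‖) ω (𝓝 0)}
  add_mem' {x y} hx hy := by
    refine squeeze_zero (fun _ => norm_nonneg _) (fun n => norm_add_le (x n) (y n)) ?_
    simpa using Tendsto.add hx hy
  zero_mem' := by simp
  smul_mem' c x hx := by
    refine squeeze_zero (fun _ => norm_nonneg _) (fun n => (norm_mul_le (c n) (x n)).trans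
      (mul_le_mul_of_nonneg_right (c.norm_coe_le_norm n) (norm_nonneg _))) ?_
    simpa using Tendsto.const_mul ‖c‖ hx

instance : StarIdeal (nullIdeal ω A) where
  mul_mem_of_left {x} c hx := by
    refine squeeze_zero (fun _ => norm_nonneg _) (fun n => (norm_mul_le (x n) (c n)).trans
      (mul_le_mul_of_nonneg_left (c.norm_coe_le_norm n) (norm_nonneg _))) ?_
    simpa using Tendsto.mul_const ‖c‖ hx
  star_mem x hx := by
    change Tendsto (fun n => ‖star (x n)‖) ω (𝓝 0)
    simp only [norm_star]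
    exact hx

/-- The ultrapower `A_ω`: bounded sequences in `A` modulo `ω`-null sequences. -/
abbrev Ultrapower : Type _ := Quo (nullIdeal ω A)

/-- The class of the constant sequence. -/
noncomputable def constSeq (a : A) : Ultrapower ω A :=
  Quo.mk (nullIdeal ω A) (BoundedContinuousFunction.const ℕ a)

/-- The central sequence algebra `F_ω(A) = A_ω ∩ A'`. -/
noncomputable def centralSeq : StarSubalgebra ℂ (Ultrapower ω A) :=
  StarSubalgebra.centralizer ℂ (Set.range (constSeq ω A))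

end

/-- The dimension drop algebra `Z_{p,q}`. -/
def dropAlg (p q : ℕ) :
    StarSubalgebra ℂ C(unitInterval, Matrix (Fin p × Fin q) (Fin p × Fin q) ℂ) where
  carrier := {f | (∃ X : Matrix (Fin p) (Fin p) ℂ, f 0 = X ⊗ₖ (1 : Matrix (Fin q) (Fin q) ℂ)) ∧
    ∃ Y : Matrix (Fin q) (Fin q) ℂ, f 1 = (1 : Matrix (Fin p) (Fin p) ℂ) ⊗ₖ Y}
  mul_mem' := by
    rintro f g ⟨⟨X, hX⟩, ⟨Y, hY⟩⟩ ⟨⟨X', hX'⟩, ⟨Y', hY'⟩⟩
    refine ⟨⟨X * X', ?_⟩, ⟨Y * Y', ?_⟩⟩
    · simp [hX, hX', ← Matrix.mul_kronecker_mul]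
    · simp [hY, hY', ← Matrix.mul_kronecker_mul]
  add_mem' := by
    rintro f g ⟨⟨X, hX⟩, ⟨Y, hY⟩⟩ ⟨⟨X', hX'⟩, ⟨Y', hY'⟩⟩
    refine ⟨⟨X + X', ?_⟩, ⟨Y + Y', ?_⟩⟩
    · simp [hX, hX', Matrix.add_kronecker]
    · simp [hY, hY', Matrix.kronecker_add]
  algebraMap_mem' c := by
    refine ⟨⟨c • 1, ?_⟩, ⟨c • 1, ?_⟩⟩
    · simp [Algebra.algebraMap_eq_smul_one, Matrix.smul_kronecker]
    · simp [Algebra.algebraMap_eq_smul_one, Matrix.kronecker_smul]
  star_mem' := by
    rintro f ⟨⟨X, hX⟩, ⟨Y, hY⟩⟩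
    refine ⟨⟨star X, ?_⟩, ⟨star Y, ?_⟩⟩
    · simp [hX, Matrix.star_eq_conjTranspose, Matrix.conjTranspose_kronecker]
    · simp [hY, Matrix.star_eq_conjTranspose, Matrix.conjTranspose_kronecker]

/-- A tracial state. -/
def IsTracialState {Z : Type*} [CStarAlgebra Z] (τ : Z →L[ℂ] ℂ) : Prop :=
  τ 1 = 1 ∧ (∀ a, 0 ≤ τ (star a * a)) ∧ ∀ a b, τ (a * b) = τ (b * a)

section
variable {M : Type*} [Ring M] [StarRing M] [Algebra ℂ M] [StarModule ℂ M]

/-- The star subalgebra `S` has no character, i.e. no unital `*`-homomorphism to `ℂ`. -/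
def NoCharacter (S : StarSubalgebra ℂ M) : Prop := IsEmpty (S →⋆ₐ[ℂ] ℂ)

/-- `T` is the image of `S` under an injective unital `*`-homomorphism. -/
def IsCopy {Z : Type*} [CStarAlgebra Z] (S : StarSubalgebra ℂ M) (T : Set Z) : Prop :=
  ∃ μ : S →⋆ₐ[ℂ] Z, Function.Injective μ ∧ Set.range μ = T

end

/-- The Jiang–Su characterisation of `𝒵`: a simple infinite-dimensional unital C*-algebra with a
unique tracial state that is an inductive limit of prime dimension drop algebras with injective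
unital connecting maps. -/
def JiangSu (Z : Type*) [CStarAlgebra Z] : Prop :=
  (∀ I : TwoSidedIdeal Z, IsClosed (I : Set Z) → I = ⊥ ∨ I = ⊤) ∧
  ¬ Module.Finite ℂ Z ∧
  (∃! τ : Z →L[ℂ] ℂ, IsTracialState τ) ∧
  ∃ (p q : ℕ → ℕ) (T : ℕ → Set Z),
    (∀ n, 2 ≤ p n ∧ 2 ≤ q n ∧ Nat.Coprime (p n) (q n) ∧ IsCopy (dropAlg (p n) (q n)) (T n)) ∧
    (∀ n, T n ⊆ T (n + 1)) ∧ Dense (⋃ n, T n)

/-- `B` is generated by commuting unital copies of `A` (faithful) and `Z`, as `A ⊗ Z` is. -/
def IsTensorPair {A Z B : Type*} [CStarAlgebra A] [CStarAlgebra Z] [CStarAlgebra B]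
    (i : A →⋆ₐ[ℂ] B) (j : Z →⋆ₐ[ℂ] B) : Prop :=
  Function.Injective i ∧ (∀ a z, Commute (i a) (j z)) ∧
    Dense (Submodule.span ℂ {b | ∃ a z, b = i a * j z} : Set B)

end Vale.Agent.P101
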