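import Vale.Agent.P101.Patch

/-! Algebra of the Rørdam–Winter relations and the fibres. -/

namespace Vale.Agent.P101
universe u

variable {G : Type u} [CStarAlgebra G] {k : ℕ} {o : Fin k} {E : Fin k → Fin k → G} {a v : G}

/-- The relations, with a square root `a` of `1 - hh E`. -/
structure RW (o : Fin k) (E : Fin k → Fin k → G) (a v : G) : Prop where
  oz : IsOZ E
  sa : star a = a
  aa : a * a = 1 - hh E
  vv : star v * v = 1 - hh E
  ov : E o o * v = v
  comm : ∀ c d, a * E c d = E c d * a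

/-- The frame. -/
def sv (o : Fin k) (E : Fin k → Fin k → G) (a v : G) : Fin (k + 1) → G :=
  Fin.cons a fun i => E i o * v

/-- The central parameter. -/
def HH (o : Fin k) (E : Fin k → Fin k → G) (a v : G) : G :=
  ∑ i, sv o E a v i * star (sv o E a v i)

@[simp] lemma sv_zero : sv o E a v 0 = a := rfl

@[simp] lemma sv_succ (i : Fin k) : sv o E a v i.succ = E i o * v := rfl

lemma map_sv {Q : Type u} [CStarAlgebra Q] (π : G →⋆ₐ[ℂ] Q) (i : Fin (k + 1)) :
    π (sv o E a v i) = sv o (fun i j => π (E i j)) (π a) (π v) i := by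
  refine Fin.cases ?_ (fun i => ?_) i <;> simp

lemma map_HH {Q : Type u} [CStarAlgebra Q] (π : G →⋆ₐ[ℂ] Q) :
    π (HH o E a v) = HH o (fun i j => π (E i j)) (π a) (π v) := by
  simp [HH, map_sv, map_star]

namespace RW

lemma map {Q : Type u} [CStarAlgebra Q] (π : G →⋆ₐ[ℂ] Q) (h : RW o E a v) :
    RW o (fun i j => π (E i j)) (π a) (π v) :=
  ⟨h.oz.map π, by rw [← map_star, h.sa], by rw [← map_mul, h.aa, map_sub, map_one, map_hh],
    by rw [← map_star, ← map_mul, h.vv, map_sub, map_one, map_hh], by rw [← map_mul, h.ov],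
    fun c d => by rw [← map_mul, h.comm, map_mul]⟩

variable (h : RW o E a v)
include h

lemma hv : hh E * v = v := h.oz.toPreOZ.hh_mul_of h.ov

lemma vh : star v * hh E = star v := by
  simpa [h.oz.toPreOZ.hh_sa.star_eq] using congrArg star h.hv

lemma hE (c d : Fin k) : hh E * E c d = E c d * hh E := (h.oz.toPreOZ.commute c d).eq

lemma rE (c d : Fin k) : (1 - hh E) * E c d = E c d * (1 - hh E) := by
  rw [sub_mul, mul_sub, h.hE, one_mul, mul_one]

lemma rv : (1 - hh E) * v = 0 := by rw [sub_mul, h.hv, one_mul, sub_self]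

lemma av : a * v = 0 := by
  rw [← CStarRing.star_mul_self_eq_zero_iff, star_mul, h.sa, mul_assoc, ← mul_assoc a, h.aa, h.rv,
    mul_zero]

lemma va : star v * a = 0 := by simpa [h.sa] using congrArg star h.av

lemma ar : a * (1 - hh E) = (1 - hh E) * a := by rw [← h.aa, mul_assoc]

lemma EEv (i j c : Fin k) : E i j * (E c o * v) = if j = c then E i o * v else 0 := by
  rw [← mul_assoc, h.oz.mul_eq]
  split_ifs
  · rw [h.hE, mul_assoc, h.hv]
  · rw [zero_mul]

lemma fr (i j : Fin (k + 1)) :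
    star (sv o E a v i) * sv o E a v j = if i = j then 1 - hh E else 0 := by
  refine Fin.cases ?_ (fun i => ?_) i <;> refine Fin.cases ?_ (fun j => ?_) j
  · simp [h.sa, h.aa]
  · rw [sv_zero, sv_succ, h.sa, ← mul_assoc, h.comm, mul_assoc, h.av, mul_zero,
      if_neg (Fin.succ_ne_zero j).symm]
  · rw [sv_zero, sv_succ, star_mul, h.oz.star_eq, mul_assoc, ← h.comm, ← mul_assoc, h.va,
      zero_mul, if_neg (Fin.succ_ne_zero i)]
  · rw [sv_succ, sv_succ, star_mul, h.oz.star_eq, mul_assoc, h.EEv]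
    by_cases e : i = j
    · simp [e, h.ov, h.vv]
    · simp [e]

lemma Hs (i : Fin (k + 1)) : HH o E a v * sv o E a v i = sv o E a v i * (1 - hh E) := by
  simp [HH, Finset.sum_mul, mul_assoc, h.fr]

lemma H_sa : star (HH o E a v) = HH o E a v := by simp [HH, star_sum]

lemma HE' (c d : Fin k) : E c d * HH o E a v =
    (1 - hh E) * E c d + sv o E a v c.succ * star (sv o E a v d.succ) := by
  rw [HH, Fin.sum_univ_succ, mul_add, sv_zero, h.sa, h.aa, h.rE, Finset.mul_sum]
  simp only [sv_succ, ← mul_assoc (E c d) (_ * v), h.EEv]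
  simp

lemma HE (c d : Fin k) : HH o E a v * E c d =
    (1 - hh E) * E c d + sv o E a v c.succ * star (sv o E a v d.succ) := by
  have := congrArg star (h.HE' d c)
  rw [star_mul, h.H_sa, h.oz.star_eq, star_add, star_mul, star_mul, star_star, h.oz.star_eq,
    star_sub, star_one, h.oz.toPreOZ.hh_sa.star_eq, ← h.rE] at this
  exact this

lemma Ha : HH o E a v * a = a * HH o E a v := by
  have := h.Hs 0
  have h2 := congrArg star this
  rw [sv_zero] at this h2
  rw [star_mul, star_mul, h.H_sa, h.sa, star_sub, star_one, h.oz.toPreOZ.hh_sa.star_eq] at h2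
  rw [this, h2, h.ar]

lemma Hv : HH o E a v * v = v * HH o E a v := by
  have e1 : HH o E a v * v = v * (1 - hh E) := by simpa [h.ov] using h.Hs o.succ
  have e2 : ∀ i, v * (E i o * v) = 0 := fun i => by
    rw [← CStarRing.star_mul_self_eq_zero_iff, star_mul, mul_assoc, ← mul_assoc (star v), h.vv,
      ← mul_assoc (1 - hh E), h.rE, mul_assoc, h.rv, mul_zero, mul_zero]
  rw [e1, HH, Fin.sum_univ_succ, mul_add, sv_zero, h.sa, h.aa, Finset.mul_sum]
  simp only [sv_succ, ← mul_assoc v (_ * v), e2, zero_mul, Finset.sum_const_zero, add_zero]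

variable {t : ℝ} (ht : HH o E a v = algebraMap ℝ G t)
include ht

lemma sr (i : Fin (k + 1)) : sv o E a v i * (1 - hh E) = t • sv o E a v i := by
  rw [← h.Hs, ht, Algebra.algebraMap_eq_smul_one, smul_mul_assoc, one_mul]

lemma sh (i : Fin (k + 1)) : sv o E a v i * hh E = (1 - t) • sv o E a v i := by
  rw [sub_smul, ← h.sr ht, mul_sub, mul_one, one_smul, sub_sub_cancel]

lemma rr : (1 - hh E) * (1 - hh E) = t • (1 - hh E) := by
  have := h.sr ht 0
  rw [sv_zero] at this
  nth_rewrite 1 [← h.aa]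
  rw [mul_assoc, this, mul_smul_comm, h.aa]

lemma rh : (1 - hh E) * hh E = (1 - t) • (1 - hh E) := by
  rw [sub_smul, ← h.rr ht, mul_sub, mul_one, one_smul, sub_sub_cancel]

lemma ss (c d : Fin k) : sv o E a v c.succ * star (sv o E a v d.succ) =
    t • E c d - E c d * (1 - hh E) := by
  have := h.HE c d
  rw [ht, Algebra.algebraMap_eq_smul_one, smul_mul_assoc, one_mul, h.rE] at this
  rw [this, add_sub_cancel_left]

lemma range [Nontrivial G] : 0 ≤ t ∧ t ≤ 1 := by
  let _ := CStarAlgebra.spectralOrder G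
  have _ := CStarAlgebra.spectralOrderedRing G
  have h0 : 0 ≤ t := by
    rw [← pos_algebraMap_iff (G := G), ← ht, pos_iff]
    exact Finset.sum_nonneg fun i _ => mul_star_self_nonneg _
  refine ⟨h0, le_of_not_gt fun h1 => ?_⟩
  have r0 : 0 ≤ 1 - hh E := pos_iff.1 h.oz.le_one
  have r1 : 0 ≤ (1 - t) • (1 - hh E) := by
    rw [← h.rh ht]
    exact Commute.mul_nonneg r0 (pos_iff.1 h.oz.pos) ((Commute.one_left _).sub_left (.refl _))
  have r2 : 1 - hh E = 0 := by
    refine le_antisymm ?_ r0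
    have := smul_nonneg (inv_nonneg.2 (sub_nonneg.2 h1.le)) r1
    rw [smul_smul, show (t - 1)⁻¹ * (1 - t) = -1 by
      rw [← neg_sub t, mul_neg, inv_mul_cancel₀ (by linarith)], neg_smul, one_smul] at this
    exact neg_nonneg.1 this
  have r3 : ∀ i, sv o E a v i = 0 := fun i => by
    rw [← CStarRing.star_mul_self_eq_zero_iff, h.fr, if_pos rfl, r2]
  have : Pos (algebraMap ℝ G (-t)) := by
    rw [map_neg, ← ht, HH]
    exact ⟨0, by simp [r3]⟩
  have := pos_algebraMap_iff.1 this
  linarith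

lemma fib0 (h1 : t < 1) : ∃ φ : Matrix (Fin k) (Fin k) ℂ →⋆ₐ[ℂ] G, ∀ X,
    ∑ c, ∑ d, X c d • (E c d * (1 - HH o E a v + (1 - hh E))) = (1 - t) • φ X := by
  have n : 1 - t ≠ 0 := by linarith
  obtain ⟨g, hg⟩ : ∃ g, g = 1 + (1 - t)⁻¹ • (1 - hh E) := ⟨_, rfl⟩
  have gE : ∀ c d, g * E c d = E c d * g := fun c d => by
    rw [hg, add_mul, mul_add, smul_mul_assoc, mul_smul_comm, h.rE, one_mul, mul_one]
  have hg1 : hh E * g = 1 := by
    rw [hg, mul_add, mul_smul_comm, ← ((Commute.one_left _).sub_left (.refl (hh E))).eq, h.rh ht,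
      smul_smul, inv_mul_cancel₀ n, one_smul, mul_one, add_sub_cancel]
  have gs : star g = g := by simp [hg, h.oz.toPreOZ.hh_sa.star_eq]
  obtain ⟨φ, hφ⟩ := exists_unitsHom (fun c d => E c d * g)
    (fun i j => by rw [star_mul, gs, h.oz.star_eq, gE])
    (fun i j c d => by
      rw [mul_assoc, ← mul_assoc g, gE, ← mul_assoc, ← mul_assoc (E i j), h.oz.mul_eq]
      split_ifs
      · rw [h.hE, mul_assoc (E i d) _ g, hg1, mul_one]
      · simp)
    (by rw [← Finset.sum_mul]; exact hg1)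
  refine ⟨φ, fun X => ?_⟩
  simp only [hφ, Finset.smul_sum, smul_comm (1 - t), ← mul_smul_comm (1 - t)]
  rw [hg, smul_add, smul_smul, mul_inv_cancel₀ n, one_smul, ht, Algebra.algebraMap_eq_smul_one,
    sub_smul 1 t, one_smul]

lemma fib1 (h0 : 0 < t) : ∃ φ : Matrix (Fin (k + 1)) (Fin (k + 1)) ℂ →⋆ₐ[ℂ] G, ∀ Y,
    ∑ i, ∑ j, Y i j • (sv o E a v i * star (sv o E a v j)) = t • φ Y := by
  obtain ⟨φ, hφ⟩ := exists_unitsHom (fun i j => t⁻¹ • (sv o E a v i * star (sv o E a v j)))
    (fun i j => by simp)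
    (fun i j c d => by
      rw [smul_mul_smul_comm, mul_assoc, ← mul_assoc (star _), h.fr]
      split_ifs
      · rw [← mul_assoc, h.sr ht, smul_mul_assoc, smul_smul, mul_assoc, inv_mul_cancel₀ h0.ne',
          mul_one]
      · simp)
    (by rw [← Finset.smul_sum, ← HH, ht, Algebra.algebraMap_eq_smul_one, smul_smul,
      inv_mul_cancel₀ h0.ne', one_smul])
  refine ⟨φ, fun Y => ?_⟩
  simp only [hφ, Finset.smul_sum, smul_comm t, inv_smul_smul₀ h0.ne']

lemma fibm (h0 : 0 < t) (h1 : t < 1) :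
    ∃ φ : Matrix (Fin k × Fin (k + 1)) (Fin k × Fin (k + 1)) ℂ →⋆ₐ[ℂ] G, ∀ Z,
    ∑ x, ∑ y, Z x y • (sv o E a v x.2 * E x.1 y.1 * star (sv o E a v y.2)) =
      (t * (1 - t)) • φ Z := by
  have n : t * (1 - t) ≠ 0 := mul_ne_zero h0.ne' (by linarith)
  obtain ⟨φ, hφ⟩ := exists_unitsHom (fun x y : Fin k × Fin (k + 1) =>
      (t * (1 - t))⁻¹ • (sv o E a v x.2 * E x.1 y.1 * star (sv o E a v y.2)))
    (fun i j => by simp [h.oz.star_eq, mul_assoc])
    (fun x y z w => by
      rw [smul_mul_smul_comm, mul_assoc _ (star _), mul_assoc (sv o E a v z.2),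
        ← mul_assoc (star _), h.fr]
      by_cases e2 : y.2 = z.2
      · rw [if_pos e2, mul_assoc, ← mul_assoc (E _ _), ← h.rE, mul_assoc, ← mul_assoc (E _ _),
          h.oz.mul_eq]
        by_cases e1 : y.1 = z.1
        · rw [if_pos e1, if_pos (Prod.ext e1 e2), mul_assoc (hh E), ← mul_assoc (1 - hh E),
            h.rh ht, smul_mul_assoc, mul_smul_comm, ← mul_assoc, h.sr ht, smul_mul_assoc,
            smul_smul, smul_smul, mul_assoc (sv o E a v x.2)]
          congr 1
          field_simp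
        · rw [if_neg e1, if_neg fun e => e1 (congrArg _ e)]
          simp
      · rw [if_neg e2, if_neg fun e => e2 (congrArg _ e)]
        simp)
    (by
      rw [← Finset.smul_sum, Fintype.sum_prod_type_right]
      simp only [← Finset.sum_mul, ← Finset.mul_sum]
      rw [← hh]
      simp only [h.sh ht, smul_mul_assoc, ← Finset.smul_sum]
      rw [← HH, ht, Algebra.algebraMap_eq_smul_one, smul_smul, smul_smul, mul_assoc,
        mul_comm (1 - t), inv_mul_cancel₀ n, one_smul])
  refine ⟨φ, fun Y => ?_⟩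
  simp only [hφ, Finset.smul_sum, smul_comm (t * (1 - t)), inv_smul_smul₀ n]

end RW

end Vale.Agent.P101
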