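import Vale.Agent.P101.DD0

/-! The half flip unitary on the square. -/

namespace Vale.Agent.P101
open scoped Matrix.Norms.L2Operator unitInterval CStarAlgebra

namespace Flip

section rot
variable {R : Type*} [CStarAlgebra R]

/-- Rotation from `1` to `i F`. -/
noncomputable def rot (F : R) (y : ℝ) : R :=
  (Real.cos (Real.pi / 2 * y) : ℂ) • 1 + (Complex.I * Real.sin (Real.pi / 2 * y)) • F

lemma rot_zero (F : R) : rot F 0 = 1 := by simp [rot]

lemma rot_one (F : R) : rot F 1 = Complex.I • F := by simp [rot]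

lemma rot_cont (F : R) : Continuous (rot F) := by unfold rot; fun_prop

lemma rot_comm {F T : R} (h : Commute T F) (y : ℝ) : Commute T (rot F y) :=
  ((Commute.one_right T).smul_right _).add_right (h.smul_right _)

lemma rot_unitary {F : R} (hF : F * F = 1) (hs : star F = F) (y : ℝ) : rot F y ∈ unitary R := by
  have h : ((Real.cos (Real.pi / 2 * y) : ℂ)) ^ 2 + (Real.sin (Real.pi / 2 * y) : ℂ) ^ 2 = 1 := by
    exact_mod_cast Real.cos_sq_add_sin_sq _
  have hI := Complex.I_mul_I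
  unfold rot
  generalize Real.cos (Real.pi / 2 * y) = c at h ⊢
  generalize Real.sin (Real.pi / 2 * y) = d at h ⊢
  constructor <;>
  · simp only [star_add, star_smul, star_one, hs, Complex.star_def, map_mul, Complex.conj_I,
      Complex.conj_ofReal, mul_add, add_mul, smul_mul_smul_comm, hF, one_mul, mul_one]
    match_scalars
    · linear_combination h - (d : ℂ) ^ 2 * hI
    · ring

lemma conj_comm {F T T' W : R} (h1 : F * T = T' * F) (h2 : F * T' = T * F) (h : Commute T' W) :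
    Commute T (F * W * F) := by
  rw [Commute, SemiconjBy, ← mul_assoc, ← mul_assoc, ← h2, mul_assoc F, h.eq, ← mul_assoc,
    mul_assoc _ T', ← h1, mul_assoc, mul_assoc, mul_assoc]

/-- Approximate intertwining. -/
def AI (u a b : R) (ε : ℝ) : Prop := u ∈ unitary R ∧ ‖u * a - b * u‖ ≤ ε

lemma AI.mul {u v a b c : R} {ε δ : ℝ} (h1 : AI u b c ε) (h2 : AI v a b δ) :
    AI (u * v) a c (ε + δ) := by
  refine ⟨mul_mem h1.1 h2.1, ?_⟩
  have : u * v * a - c * (u * v) = (u * b - c * u) * v + u * (v * a - b * v) := by noncomm_ring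
  rw [this]
  refine (norm_add_le _ _).trans (add_le_add ?_ ?_)
  · rw [CStarRing.norm_mul_mem_unitary _ h2.1]; exact h1.2
  · rw [CStarRing.norm_mem_unitary_mul _ h1.1]; exact h2.2

lemma AI.of_eq {u a b : R} (hu : u ∈ unitary R) (h : u * a = b * u) : AI u a b 0 :=
  ⟨hu, by simp [h]⟩

lemma AI.symm {u a b : R} {ε : ℝ} (h : AI u a b ε) : AI (star u) b a ε := by
  refine ⟨Unitary.star_mem h.1, ?_⟩
  have : star u * b - a * star u = star u * (-(u * a - b * u)) * star u := by
    calc _ = star u * b * (u * star u) - star u * u * a * star u := by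
          rw [Unitary.mul_star_self_of_mem h.1, Unitary.star_mul_self_of_mem h.1]; simp
      _ = _ := by noncomm_ring
  rw [this, CStarRing.norm_mul_mem_unitary _ (Unitary.star_mem h.1),
    CStarRing.norm_mem_unitary_mul _ (Unitary.star_mem h.1), norm_neg]
  exact h.2

lemma AI.map {S : Type*} [CStarAlgebra S] (φ : R →⋆ₐ[ℂ] S) {u a b : R} {ε : ℝ} (h : AI u a b ε) :
    AI (φ u) (φ a) (φ b) ε :=
  ⟨Unitary.map_mem φ h.1, by
    rw [← map_mul, ← map_mul, ← map_sub]; exact (NonUnitalStarAlgHom.norm_apply_le φ _).trans h.2⟩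

end rot

variable {a b : Type} [Fintype a] [DecidableEq a] [Fintype b] [DecidableEq b]

/-- Swap of the first legs. -/
def sA (a b : Type) : Equiv.Perm ((a × b) × (a × b)) where
  toFun x := ((x.2.1, x.1.2), (x.1.1, x.2.2))
  invFun x := ((x.2.1, x.1.2), (x.1.1, x.2.2))

/-- Swap of the second legs. -/
def sB (a b : Type) : Equiv.Perm ((a × b) × (a × b)) where
  toFun x := ((x.1.1, x.2.2), (x.2.1, x.1.2))
  invFun x := ((x.1.1, x.2.2), (x.2.1, x.1.2))

lemma perm_mul {n : Type} [Fintype n] [DecidableEq n] (τ : Equiv.Perm n) {W W' : Matrix n n ℂ}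
    (h : ∀ x y, W (τ x) (τ y) = W' x y) : τ.permMatrix ℂ * W = W' * τ.permMatrix ℂ := by
  rw [PEquiv.toMatrix_toPEquiv_mul, PEquiv.mul_toMatrix_toPEquiv]
  ext x y
  simp [← h]

lemma perm_sq {n : Type} [Fintype n] [DecidableEq n] {τ : Equiv.Perm n} (h : τ * τ = 1) :
    τ.permMatrix ℂ * τ.permMatrix ℂ = 1 ∧ star (τ.permMatrix ℂ) = τ.permMatrix ℂ := by
  constructor
  · rw [← Matrix.permMatrix_mul, h, Matrix.permMatrix_one]
  · rw [Matrix.star_eq_conjTranspose, Matrix.conjTranspose_permMatrix, inv_eq_of_mul_eq_one_left h]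

lemma exists_flips (a b : Type) [Fintype a] [DecidableEq a] [Fintype b] [DecidableEq b] :
    ∃ FA FB : Matrix ((a × b) × (a × b)) ((a × b) × (a × b)) ℂ,
      (FA * FA = 1 ∧ star FA = FA) ∧ (FB * FB = 1 ∧ star FB = FB) ∧
      (∀ X, FA * kL _ _ (kL a b X) = kR _ _ (kL a b X) * FA) ∧
      (∀ X, FA * kR _ _ (kL a b X) = kL _ _ (kL a b X) * FA) ∧
      (∀ Y, Commute FA (kL _ _ (kR a b Y))) ∧ (∀ Y, Commute FA (kR _ _ (kR a b Y))) ∧
      (∀ Y, FB * kL _ _ (kR a b Y) = kR _ _ (kR a b Y) * FB) ∧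
      (∀ Y, FB * kR _ _ (kR a b Y) = kL _ _ (kR a b Y) * FB) ∧
      (∀ X, Commute FB (kL _ _ (kL a b X))) ∧ (∀ X, Commute FB (kR _ _ (kL a b X))) ∧
      ∀ Z, FA * FB * kL _ _ Z = kR _ _ Z * (FA * FB) := by
  refine ⟨(sA a b).permMatrix ℂ, (sB a b).permMatrix ℂ, perm_sq rfl, perm_sq rfl,
    fun X => perm_mul _ ?_, fun X => perm_mul _ ?_, fun X => perm_mul _ ?_, fun X => perm_mul _ ?_,
    fun X => perm_mul _ ?_, fun X => perm_mul _ ?_, fun X => perm_mul _ ?_, fun X => perm_mul _ ?_,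
    fun Z => ?_⟩
  on_goal 9 => rw [← Matrix.permMatrix_mul]; refine perm_mul _ ?_
  all_goals
    rintro ⟨⟨x1, x2⟩, x3, x4⟩ ⟨⟨y1, y2⟩, y3, y4⟩
    simp only [sA, sB, kL_apply, kR_apply, Equiv.coe_fn_mk, Matrix.kroneckerMap_apply,
      Matrix.one_apply, Prod.mk.injEq, ite_and, Equiv.Perm.coe_mul, Function.comp_apply]
    split_ifs <;> simp

end Flip

open Flip in
theorem exists_flip {p q : ℕ} (γ : C(I, MM p q)) (h0 : γ 0 = 1)
    (hγ : ∀ s, γ s ∈ unitary (MM p q)) :
    ∃ U : C(I × I, Matrix (KK p q × KK p q) (KK p q × KK p q) ℂ),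
      (∀ z, U z ∈ unitary (Matrix (KK p q × KK p q) (KK p q × KK p q) ℂ)) ∧ Bdry U ∧
      ∀ (g : dropAlg p q) (ε : ℝ), Flat γ g ε → ∀ s t : I,
        ‖U (s, t) * kL (KK p q) (KK p q) (g.1 s) - kR (KK p q) (KK p q) (g.1 t) * U (s, t)‖
          ≤ 4 * ε := by
  obtain ⟨FA, FB, ⟨A2, As⟩, ⟨B2, Bs⟩, A1, A1', Ac1, Ac2, B1, B1', Bc1, Bc2, AB⟩ :=
    exists_flips (Fin p) (Fin q)
  set L := kL (KK p q) (KK p q)
  set R := kR (KK p q) (KK p q)
  have LR : ∀ X Y, Commute (L X) (R Y) := kL_comm_kR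
  have uA : FA ∈ unitary _ := ⟨by rw [As, A2], by rw [As, A2]⟩
  obtain ⟨V, hV⟩ : ∃ V : I → I → ℝ → ℝ → ℝ → Matrix (KK p q × KK p q) (KK p q × KK p q) ℂ,
      ∀ s t x y z, V s t x y z = R (γ t) * (FA * (rot FB x * (L (star (γ 1)) * (rot FA y *
        (L (γ 1) * (star (rot FB z) * L (star (γ s)))))))) := ⟨_, fun _ _ _ _ _ => rfl⟩
  have hc : Continuous fun w : I × I => V w.1 w.2 (min (2 * (w.2 : ℝ)) 1)
      (max (w.1 : ℝ) (2 * w.2 - 1)) ((1 - w.1) * min (2 * (w.2 : ℝ)) 1) := by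
    have c1 := rot_cont FA
    have c2 := rot_cont FB
    have c3 : Continuous L := map_continuous L
    have c4 : Continuous R := map_continuous R
    simp only [hV]
    fun_prop
  have g1 : L (star (γ 1)) * L (γ 1) = 1 := by
    rw [← map_mul, Unitary.star_mul_self_of_mem (hγ 1), map_one]
  have g2 : L (γ 1) * L (star (γ 1)) = 1 := by
    rw [← map_mul, Unitary.mul_star_self_of_mem (hγ 1), map_one]
  have g3 : R (γ 1) * R (star (γ 1)) = 1 := by
    rw [← map_mul, Unitary.mul_star_self_of_mem (hγ 1), map_one]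
  have key : ∀ (g : dropAlg p q) (ε : ℝ), Flat γ g ε → ∀ s t x y z,
      AI (V s t x y z) (L (g.1 s)) (R (g.1 t)) (4 * ε) := fun g ε hg s t x y z => by
    have base : ∀ s, AI (γ s) (g.1 0) (g.1 s) ε := fun s => ⟨hγ s, by
      have : γ s * g.1 0 - g.1 s * γ s = -(g.1 s - γ s * g.1 0 * star (γ s)) * γ s := by
        rw [neg_sub, sub_mul, mul_assoc _ (star _), Unitary.star_mul_self_of_mem (hγ s), mul_one]
      rw [this, CStarRing.norm_mul_mem_unitary _ (hγ s), norm_neg]
      exact hg s⟩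
    obtain ⟨⟨X, hX⟩, Y, hY⟩ := mem_dropAlg.1 g.2
    have k1 : AI FA (L (g.1 0)) (R (g.1 0)) 0 := .of_eq uA (by rw [hX, A1])
    have k2 : ∀ x, AI (rot FB x) (L (g.1 0)) (L (g.1 0)) 0 := fun x =>
      .of_eq (rot_unitary B2 Bs x) (by rw [hX]; exact (rot_comm (Bc1 X).symm x).symm)
    have k3 : AI (rot FA y) (L (g.1 1)) (L (g.1 1)) 0 :=
      .of_eq (rot_unitary A2 As y) (by rw [hY]; exact (rot_comm (Ac1 Y).symm y).symm)
    have := ((base t).map R).mul (k1.mul ((k2 x).mul (((base 1).symm.map L).mul (k3.mul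
      (((base 1).map L).mul ((k2 z).symm.mul ((base s).symm.map L)))))))
    rw [← hV] at this
    convert this using 1
    ring
  refine ⟨⟨_, hc⟩, fun w => (key 0 0 (fun s => by simp) _ _ _ _ _).1,
    ⟨fun t Y => ?_, fun t X => ?_, fun s Y => ?_, fun s X => ?_⟩,
    fun g ε hg s t => (key g ε hg s t _ _ _).2⟩
  · refine Commute.symm ?_
    simp only [ContinuousMap.coe_mk, hV, h0, star_one, map_one, mul_one, Set.Icc.coe_zero, sub_zero,
      one_mul]
    refine (LR _ _).mul_right ((Ac1 Y).symm.mul_right ?_)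
    rcases le_total (2 * (t : ℝ)) 1 with h | h
    · rw [max_eq_left (by linarith), rot_zero, one_mul, ← mul_assoc (L _), g1, one_mul,
        Unitary.mul_star_self_of_mem (rot_unitary B2 Bs _)]
      exact Commute.one_right _
    · rw [min_eq_right h, rot_one, star_smul, Bs]
      simp only [mul_smul_comm, smul_mul_assoc]
      refine Commute.smul_right (Commute.smul_right ?_ _) _
      have := conj_comm (B1 Y) (B1' Y) (((LR (star (γ 1)) _).symm.mul_right
        (rot_comm (Ac2 Y).symm (max 0 (2 * (t : ℝ) - 1)))).mul_right (LR (γ 1) _).symm)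
      simpa only [mul_assoc] using this
  · refine Commute.symm ?_
    have : max (1 : ℝ) (2 * (t : ℝ) - 1) = 1 := max_eq_left (by linarith [t.2.2])
    simp only [ContinuousMap.coe_mk, hV, Set.Icc.coe_one, sub_self, zero_mul, rot_zero, star_one,
      one_mul, g2, mul_one, this, rot_one, mul_smul_comm]
    refine Commute.smul_right ((LR _ _).mul_right ?_) _
    have := conj_comm (A1 X) (A1' X) ((rot_comm (Bc2 X).symm (min (2 * (t : ℝ)) 1)).mul_right
      (LR (star (γ 1)) _).symm)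
    simpa only [mul_assoc] using this
  · refine Commute.symm ?_
    simp only [ContinuousMap.coe_mk, hV, h0, map_one, one_mul, Set.Icc.coe_zero, mul_zero,
      min_eq_left (zero_le_one' ℝ), rot_zero, star_one]
    exact (Ac2 Y).symm.mul_right ((LR _ _).symm.mul_right ((rot_comm (Ac2 Y).symm _).mul_right
      ((LR _ _).symm.mul_right (LR _ _).symm)))
  · refine Commute.symm ?_
    have h1 : max (s : ℝ) (2 * 1 - 1) = 1 := by rw [max_eq_right (by linarith [s.2.2])]; norm_num
    have h2 : min (2 * 1 : ℝ) 1 = 1 := by norm_num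
    simp only [ContinuousMap.coe_mk, hV, Set.Icc.coe_one, h1, h2, rot_one, mul_smul_comm,
      smul_mul_assoc]
    refine Commute.smul_right (Commute.smul_right ?_ _) _
    have e : ∀ W, R (γ 1) * (FA * (FB * (L (star (γ 1)) * (FA * W)))) = FA * FB * FA * W :=
      fun W => by
        calc _ = R (γ 1) * (FA * FB * L (star (γ 1))) * (FA * W) := by simp only [mul_assoc]
          _ = _ := by rw [AB, ← mul_assoc (R (γ 1)), g3, one_mul, mul_assoc (FA * FB)]
    rw [e]
    refine (conj_comm (A1' X) (A1 X) (Bc1 X).symm).mul_right ((LR _ _).symm.mul_right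
      (Commute.mul_right ?_ (LR _ _).symm))
    have := (rot_comm (Bc2 (star X)).symm ((1 - (s : ℝ)) * 1)).star_star
    rwa [← map_star, ← map_star, star_star] at this

end Vale.Agent.P101
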