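import Mathlib

/-! One-sided approximate intertwining. -/

namespace Vale.Agent.P101
open TopologicalSpace Filter Topology

namespace Inter
variable {A B Z : Type*} [CStarAlgebra A] [CStarAlgebra B] [CStarAlgebra Z]

lemma norm_conj {w : B} (hw : w ∈ unitary B) (x : B) : ‖w * x * star w‖ = ‖x‖ := by
  rw [CStarRing.norm_mul_mem_unitary _ (Unitary.star_mem hw), CStarRing.norm_mem_unitary_mul _ hw]

lemma norm_conj' {w : B} (hw : w ∈ unitary B) (x : B) : ‖star w * x * w‖ = ‖x‖ := by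
  rw [CStarRing.norm_mul_mem_unitary _ hw,
    CStarRing.norm_mem_unitary_mul _ (Unitary.star_mem hw)]

lemma norm_conj_sub {w : B} (hw : w ∈ unitary B) (x : B) :
    ‖w * x * star w - x‖ = ‖w * x - x * w‖ := by
  have h : w * x * star w - x = (w * x - x * w) * star w := by
    rw [sub_mul, mul_assoc x, Unitary.mul_star_self_of_mem hw, mul_one]
  rw [h, CStarRing.norm_mul_mem_unitary _ (Unitary.star_mem hw)]

lemma norm_conj_sub' {w : B} (hw : w ∈ unitary B) (x : B) :
    ‖star w * x * w - x‖ = ‖w * x - x * w‖ := by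
  have h : star w * x * w - x = star w * (x * w - w * x) := by
    rw [mul_sub, ← mul_assoc, ← mul_assoc, Unitary.star_mul_self_of_mem hw, one_mul]
  rw [h, CStarRing.norm_mem_unitary_mul _ (Unitary.star_mem hw), norm_sub_rev]

/-- The approximate relations. -/
def P (i : A →⋆ₐ[ℂ] B) (j : Z →⋆ₐ[ℂ] B) (S : Finset A) (T : Finset Z) (δ : ℝ) (v : B) : Prop :=
  v ∈ unitary B ∧ (∀ a ∈ S, ‖v * i a - i a * v‖ ≤ δ) ∧ ∀ z ∈ T, ∃ a, ‖star v * j z * v - i a‖ ≤ δ

lemma P.mono {i : A →⋆ₐ[ℂ] B} {j : Z →⋆ₐ[ℂ] B} {S S' : Finset A} {T T' : Finset Z} {δ δ' : ℝ}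
    {v : B} (h : P i j S T δ v) (hS : S' ⊆ S) (hT : T' ⊆ T) (hδ : δ ≤ δ') : P i j S' T' δ' v :=
  ⟨h.1, fun a ha => (h.2.1 a (hS ha)).trans hδ, fun z hz =>
    (h.2.2 z (hT hz)).imp fun _ ha => ha.trans hδ⟩

lemma span_good (i : A →⋆ₐ[ℂ] B) (j : Z →⋆ₐ[ℂ] B) (b : B)
    (hb : b ∈ Submodule.span ℂ {b | ∃ a z, b = i a * j z}) :
    ∀ ε : ℝ, 0 < ε → ∃ (S : Finset A) (T : Finset Z) (δ : ℝ), 0 < δ ∧
      ∀ v, P i j S T δ v → ∃ a, ‖star v * b * v - i a‖ ≤ ε := by
  classical
  induction hb using Submodule.span_induction with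
  | mem b hb =>
    obtain ⟨a, z, rfl⟩ := hb
    intro ε hε
    have hM : 0 < ‖j z‖ + ‖i a‖ + 1 := by positivity
    refine ⟨{a}, {z}, ε / (‖j z‖ + ‖i a‖ + 1), div_pos hε hM, fun v hv => ?_⟩
    obtain ⟨hu, h1, h2⟩ := hv
    have h3 := h1 a (Finset.mem_singleton_self a)
    obtain ⟨a', h4⟩ := h2 z (Finset.mem_singleton_self z)
    refine ⟨a * a', ?_⟩
    rw [← norm_conj_sub' hu] at h3
    have e : star v * (i a * j z) * v - i (a * a') =
        (star v * i a * v - i a) * (star v * j z * v) + i a * (star v * j z * v - i a') := by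
      have : star v * (i a * j z) * v = star v * i a * (v * star v) * j z * v := by
        rw [Unitary.mul_star_self_of_mem hu]; noncomm_ring
      rw [this, map_mul]
      noncomm_ring
    rw [e]
    set δ := ε / (‖j z‖ + ‖i a‖ + 1) with hδ
    have hδ0 : 0 < δ := div_pos hε hM
    have hδ1 : δ * (‖j z‖ + ‖i a‖ + 1) = ε := div_mul_cancel₀ _ hM.ne'
    calc _ ≤ ‖star v * i a * v - i a‖ * ‖star v * j z * v‖ + ‖i a‖ * ‖star v * j z * v - i a'‖ :=
          (norm_add_le _ _).trans (add_le_add (norm_mul_le _ _) (norm_mul_le _ _))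
      _ ≤ δ * ‖j z‖ + ‖i a‖ * δ := by
          rw [norm_conj' hu]
          gcongr
      _ ≤ ε := by nlinarith
  | zero =>
    intro ε hε
    exact ⟨∅, ∅, 1, one_pos, fun v _ => ⟨0, by simpa using hε.le⟩⟩
  | add x y _ _ hx hy =>
    intro ε hε
    obtain ⟨S, T, δ, hδ, h1⟩ := hx (ε / 2) (half_pos hε)
    obtain ⟨S', T', δ', hδ', h2⟩ := hy (ε / 2) (half_pos hε)
    refine ⟨S ∪ S', T ∪ T', min δ δ', lt_min hδ hδ', fun v hv => ?_⟩
    obtain ⟨a, ha⟩ := h1 v (hv.mono Finset.subset_union_left Finset.subset_union_left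
      (min_le_left _ _))
    obtain ⟨a', ha'⟩ := h2 v (hv.mono Finset.subset_union_right Finset.subset_union_right
      (min_le_right _ _))
    refine ⟨a + a', ?_⟩
    have e : star v * (x + y) * v - i (a + a') =
        (star v * x * v - i a) + (star v * y * v - i a') := by
      rw [map_add]; noncomm_ring
    rw [e]
    linarith [norm_add_le (star v * x * v - i a) (star v * y * v - i a')]
  | smul c x _ hx =>
    intro ε hε
    have hM : 0 < ‖c‖ + 1 := by positivity
    obtain ⟨S, T, δ, hδ, h1⟩ := hx (ε / (‖c‖ + 1)) (div_pos hε hM)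
    refine ⟨S, T, δ, hδ, fun v hv => ?_⟩
    obtain ⟨a, ha⟩ := h1 v hv
    refine ⟨c • a, ?_⟩
    have e : star v * (c • x) * v - i (c • a) = c • (star v * x * v - i a) := by
      rw [map_smul, smul_sub, mul_smul_comm, smul_mul_assoc]
    rw [e, norm_smul]
    have h2 : ε / (‖c‖ + 1) * (‖c‖ + 1) = ε := div_mul_cancel₀ _ hM.ne'
    have h3 : 0 < ε / (‖c‖ + 1) := div_pos hε hM
    have h4 := mul_le_mul_of_nonneg_left ha (norm_nonneg c)
    nlinarith

lemma upgrade (i : A →⋆ₐ[ℂ] B) (j : Z →⋆ₐ[ℂ] B)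
    (hd : Dense (Submodule.span ℂ {b | ∃ a z, b = i a * j z} : Set B))
    (h : ∀ (S : Finset A) (T : Finset Z) (ε : ℝ), 0 < ε → ∃ v ∈ unitary B,
      (∀ a ∈ S, ‖v * i a - i a * v‖ ≤ ε) ∧ ∀ z ∈ T, ∃ a, ‖star v * j z * v - i a‖ ≤ ε)
    (S : Finset A) (b : B) (ε : ℝ) (hε : 0 < ε) : ∃ v ∈ unitary B,
      (∀ a ∈ S, ‖v * i a - i a * v‖ ≤ ε) ∧ ∃ a, ‖star v * b * v - i a‖ ≤ ε := by
  classical
  obtain ⟨b', hb', hbb⟩ := hd.exists_dist_lt b (half_pos hε)
  obtain ⟨S', T, δ, hδ, h1⟩ := span_good i j b' hb' (ε / 2) (half_pos hε)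
  obtain ⟨v, hv, h2, h3⟩ := h (S ∪ S') T (min δ ε) (lt_min hδ hε)
  have hP : P i j (S ∪ S') T (min δ ε) v := ⟨hv, h2, h3⟩
  obtain ⟨a, ha⟩ := h1 v (hP.mono Finset.subset_union_right le_rfl (min_le_left _ _))
  refine ⟨v, hv, fun a ha => (h2 a (Finset.mem_union_left _ ha)).trans (min_le_right _ _), a, ?_⟩
  have e : star v * b * v - i a = star v * (b - b') * v + (star v * b' * v - i a) := by
    noncomm_ring
  rw [e]
  have h4 := norm_add_le (star v * (b - b') * v) (star v * b' * v - i a)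
  rw [norm_conj' hv] at h4
  rw [dist_eq_norm] at hbb
  linarith

lemma exists_seq (i : A →⋆ₐ[ℂ] B) (α : ℕ → A) (β : ℕ → B)
    (h : ∀ (S : Finset A) (b : B) (ε : ℝ), 0 < ε → ∃ v ∈ unitary B,
      (∀ a ∈ S, ‖v * i a - i a * v‖ ≤ ε) ∧ ∃ a, ‖star v * b * v - i a‖ ≤ ε) :
    ∃ (w : ℕ → B) (S : ℕ → Finset A), (∀ n, w n ∈ unitary B) ∧ (∀ n, S n ⊆ S (n + 1)) ∧
      (∀ n, α n ∈ S (n + 1)) ∧
      (∀ n, ∀ a ∈ S n, ‖w (n + 1) * i a * star (w (n + 1)) - w n * i a * star (w n)‖ ≤
        (1 / 2) ^ n) ∧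
      ∀ n, ∃ a ∈ S (n + 1), ‖β n - w (n + 1) * i a * star (w (n + 1))‖ ≤ (1 / 2) ^ n := by
  classical
  have step : ∀ (n : ℕ) (x : unitary B × Finset A), ∃ y : unitary B × Finset A,
      x.2 ⊆ y.2 ∧ α n ∈ y.2 ∧
      (∀ a ∈ x.2, ‖(y.1 : B) * i a * star (y.1 : B) - (x.1 : B) * i a * star (x.1 : B)‖ ≤
        (1 / 2) ^ n) ∧
      ∃ a ∈ y.2, ‖β n - (y.1 : B) * i a * star (y.1 : B)‖ ≤ (1 / 2) ^ n := by
    rintro n ⟨⟨w, hw⟩, S⟩
    obtain ⟨v, hv, h1, a, h2⟩ := h S (star w * β n * w) ((1 / 2) ^ n) (by positivity)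
    refine ⟨(⟨w * v, mul_mem hw hv⟩, insert (α n) (insert a S)), ?_, ?_, ?_, a, ?_, ?_⟩
    · exact (Finset.subset_insert _ _).trans (Finset.subset_insert _ _)
    · exact Finset.mem_insert_self _ _
    · intro c hc
      have e : w * v * i c * star (w * v) - w * i c * star w =
          w * (v * i c * star v - i c) * star w := by
        rw [star_mul]; noncomm_ring
      show ‖w * v * i c * star (w * v) - w * i c * star w‖ ≤ _
      rw [e, norm_conj hw, norm_conj_sub hv]
      exact h1 c hc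
    · exact Finset.mem_insert_of_mem (Finset.mem_insert_self _ _)
    · show ‖β n - w * v * i a * star (w * v)‖ ≤ _
      have hu : w * v ∈ unitary B := mul_mem hw hv
      have e : β n - w * v * i a * star (w * v) =
          (w * v) * (star v * (star w * β n * w) * v - i a) * star (w * v) := by
        have e1 : star v * (star w * β n * w) * v = star (w * v) * β n * (w * v) := by
          rw [star_mul]; noncomm_ring
        have e2 : (w * v) * (star (w * v) * β n * (w * v)) * star (w * v) =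
            ((w * v) * star (w * v)) * β n * ((w * v) * star (w * v)) := by noncomm_ring
        rw [e1, mul_sub, sub_mul, e2, Unitary.mul_star_self_of_mem hu, one_mul, mul_one]
      rw [e, norm_conj hu]
      exact h2
  choose f hf using step
  let x : ℕ → unitary B × Finset A := fun n => Nat.rec (1, ∅) f n
  exact ⟨fun n => (x n).1, fun n => (x n).2, fun n => (x n).1.2, fun n => (hf n (x n)).1,
    fun n => (hf n (x n)).2.1, fun n => (hf n (x n)).2.2.1, fun n => (hf n (x n)).2.2.2⟩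

lemma inter2 [SeparableSpace A] [SeparableSpace B] (i : A →⋆ₐ[ℂ] B)
    (hi : Function.Injective i)
    (h : ∀ (S : Finset A) (b : B) (ε : ℝ), 0 < ε → ∃ v ∈ unitary B,
      (∀ a ∈ S, ‖v * i a - i a * v‖ ≤ ε) ∧ ∃ a, ‖star v * b * v - i a‖ ≤ ε) :
    Nonempty (A ≃⋆ₐ[ℂ] B) := by
  obtain ⟨w, S, hw, hS, hα, h1, h2⟩ := exists_seq i (denseSeq A)
    (fun n => denseSeq B (Nat.unpair n).1) h
  have hmono : Monotone S := monotone_nat_of_le_succ hS
  have hnorm : ∀ a, ‖i a‖ = ‖a‖ := fun a => NonUnitalStarAlgHom.norm_map i hi a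
  set φ : ℕ → A → B := fun n a => w n * i a * star (w n) with hφ
  have hφn : ∀ n a, ‖φ n a‖ = ‖a‖ := fun n a => by rw [hφ]; simp only; rw [norm_conj (hw n), hnorm]
  have hφs : ∀ n a b, φ n a - φ n b = φ n (a - b) := fun n a b => by
    simp only [hφ, map_sub]; noncomm_ring
  have htail : ∀ n, ∀ a ∈ S n, ∀ k, dist (φ (n + k) a) (φ (n + (k + 1)) a) ≤
      (1 / 2) ^ n * (1 / 2) ^ k := by
    intro n a ha k
    rw [dist_comm, dist_eq_norm, ← pow_add]
    exact h1 (n + k) a (hmono (Nat.le_add_right n k) ha)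
  have hc0 : ∀ n, ∀ a ∈ S n, CauchySeq fun m => φ m a := by
    intro n a ha
    rw [← cauchySeq_shift n]
    have := cauchySeq_of_le_geometric (1 / 2) ((1 / 2) ^ n) (by norm_num)
      (f := fun k => φ (n + k) a) (htail n a ha)
    simpa only [add_comm n] using this
  have hc : ∀ a, CauchySeq fun m => φ m a := by
    intro a
    rw [Metric.cauchySeq_iff]
    intro ε hε
    obtain ⟨k, hk⟩ := (denseRange_denseSeq A).exists_dist_lt a (show 0 < ε / 3 by positivity)
    obtain ⟨N, hN⟩ := Metric.cauchySeq_iff.1 (hc0 _ _ (hα k)) (ε / 3) (by positivity)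
    refine ⟨N, fun m hm n hn => ?_⟩
    have e1 : dist (φ m a) (φ m (denseSeq A k)) = dist a (denseSeq A k) := by
      rw [dist_eq_norm, dist_eq_norm, hφs, hφn]
    have e2 : dist (φ n (denseSeq A k)) (φ n a) = dist a (denseSeq A k) := by
      rw [dist_comm, dist_eq_norm, dist_eq_norm, hφs, hφn]
    have := dist_triangle4 (φ m a) (φ m (denseSeq A k)) (φ n (denseSeq A k)) (φ n a)
    have := hN m hm n hn
    linarith
  choose ψ hψ using fun a => cauchySeq_tendsto_of_complete (hc a)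
  have hlim : ∀ (a : A) (b : B), Tendsto (fun m => φ m a) atTop (𝓝 b) → ψ a = b :=
    fun a b hb => tendsto_nhds_unique (hψ a) hb
  let Ψ : A →⋆ₐ[ℂ] B :=
    { toFun := ψ
      map_one' := hlim _ _ (by
        simp only [hφ, map_one, mul_one, Unitary.mul_star_self_of_mem (hw _)]
        exact tendsto_const_nhds)
      map_mul' := fun a b => hlim _ _ (by
        refine ((hψ a).mul (hψ b)).congr fun m => ?_
        have e : w m * i a * star (w m) * (w m * i b * star (w m)) =
            w m * i a * (star (w m) * w m) * i b * star (w m) := by noncomm_ring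
        simp only [hφ, map_mul]
        rw [e, Unitary.star_mul_self_of_mem (hw m)]
        noncomm_ring)
      map_zero' := hlim _ _ (by
        simp only [hφ, map_zero, mul_zero, zero_mul]
        exact tendsto_const_nhds)
      map_add' := fun a b => hlim _ _ (by
        refine ((hψ a).add (hψ b)).congr fun m => ?_
        simp only [hφ, map_add]
        noncomm_ring)
      commutes' := fun c => hlim _ _ (by
        have e : ∀ m, φ m (algebraMap ℂ A c) = algebraMap ℂ B c := fun m => by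
          simp only [hφ, AlgHomClass.commutes]
          rw [← Algebra.commutes, mul_assoc, Unitary.mul_star_self_of_mem (hw m), mul_one]
        simp only [e]
        exact tendsto_const_nhds)
      map_star' := fun a => hlim _ _ (by
        refine (hψ a).star.congr fun m => ?_
        simp only [hφ, map_star, star_mul, star_star, mul_assoc]) }
  have hΨn : ∀ a, ‖Ψ a‖ = ‖a‖ := fun a => by
    have h3 := (hψ a).norm
    simp only [hφn] at h3
    exact tendsto_nhds_unique h3 tendsto_const_nhds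
  have hiso : Isometry Ψ := AddMonoidHomClass.isometry_of_norm Ψ hΨn
  have hdense : DenseRange Ψ := by
    refine Dense.of_closure (Dense.mono ?_ (denseRange_denseSeq B))
    rintro _ ⟨k, rfl⟩
    rw [Metric.mem_closure_iff]
    intro ε hε
    obtain ⟨N, hN⟩ := exists_pow_lt_of_lt_one (half_pos hε) (show (1 / 2 : ℝ) < 1 by norm_num)
    obtain ⟨a, ha, h3⟩ := h2 (Nat.pair k N)
    simp only [Nat.unpair_pair] at h3
    set n := Nat.pair k N with hn
    have hle : (1 / 2 : ℝ) ^ n ≤ (1 / 2) ^ N :=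
      pow_le_pow_of_le_one (by norm_num) (by norm_num) (Nat.right_le_pair k N)
    refine ⟨Ψ a, ⟨a, rfl⟩, ?_⟩
    have ht : Tendsto (fun k => φ (n + 1 + k) a) atTop (𝓝 (ψ a)) := by
      have := (tendsto_add_atTop_iff_nat (f := fun m => φ m a) (n + 1)).2 (hψ a)
      simpa only [add_comm (n + 1)] using this
    have h4 := dist_le_of_le_geometric_of_tendsto₀ (1 / 2) ((1 / 2) ^ (n + 1)) (by norm_num)
      (f := fun k => φ (n + 1 + k) a) (htail (n + 1) a ha) ht
    have h5 : dist (denseSeq B k) (φ (n + 1) a) ≤ (1 / 2) ^ n := by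
      rw [dist_eq_norm]; exact h3
    have h6 := dist_triangle (denseSeq B k) (φ (n + 1) a) (ψ a)
    have h7 : ((1 / 2 : ℝ) ^ (n + 1)) / (1 - 1 / 2) = (1 / 2) ^ n := by rw [pow_succ]; ring
    rw [h7] at h4
    simp only [add_zero] at h4
    show dist (denseSeq B k) (ψ a) < ε
    linarith
  have hsurj : Function.Surjective Ψ := by
    rw [← Set.range_eq_univ, ← hiso.isClosedEmbedding.isClosed_range.closure_eq]
    exact hdense.closure_range
  exact ⟨StarAlgEquiv.ofBijective Ψ ⟨hiso.injective, hsurj⟩⟩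

end Inter

theorem intertwine {A B Z : Type*} [CStarAlgebra A] [CStarAlgebra B] [CStarAlgebra Z]
    [SeparableSpace A] [SeparableSpace Z] (i : A →⋆ₐ[ℂ] B) (j : Z →⋆ₐ[ℂ] B)
    (hi : Function.Injective i)
    (hd : Dense (Submodule.span ℂ {b | ∃ a z, b = i a * j z} : Set B))
    (h : ∀ (S : Finset A) (T : Finset Z) (ε : ℝ), 0 < ε → ∃ v ∈ unitary B,
      (∀ a ∈ S, ‖v * i a - i a * v‖ ≤ ε) ∧ ∀ z ∈ T, ∃ a, ‖star v * j z * v - i a‖ ≤ ε) :
    Nonempty (A ≃⋆ₐ[ℂ] B) := by
  have hsep : SeparableSpace B := by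
    have hc : Continuous fun p : A × Z => i p.1 * j p.2 :=
      ((AddMonoidHomClass.continuous_of_bound i 1 fun a => by
          simpa using NonUnitalStarAlgHom.norm_apply_le i a).comp continuous_fst).mul
        ((AddMonoidHomClass.continuous_of_bound j 1 fun a => by
          simpa using NonUnitalStarAlgHom.norm_apply_le j a).comp continuous_snd)
    have h1 : IsSeparable {b | ∃ a z, b = i a * j z} := by
      refine (isSeparable_range hc).mono ?_
      rintro _ ⟨a, z, rfl⟩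
      exact ⟨(a, z), rfl⟩
    have h2 := (h1.span (R := ℂ)).closure
    rw [hd.closure_eq] at h2
    exact isSeparable_univ_iff.1 h2
  exact Inter.inter2 i hi (Inter.upgrade i j hd h)

end Vale.Agent.P101
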