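import Vale.Agent.P101.Prime

/-! Inductive limits of C*-algebras with injective connecting maps. -/

namespace Vale.Agent.P101
open Filter Topology
open scoped ENNReal ComplexOrder

theorem IsTracialState.norm_le {Z : Type*} [CStarAlgebra Z] {τ : Z →L[ℂ] ℂ}
    (h : IsTracialState τ) (a : Z) : ‖τ a‖ ≤ 2 * ‖a‖ := by
  let _ := CStarAlgebra.spectralOrder Z
  have _ := CStarAlgebra.spectralOrderedRing Z
  have hp : ∀ b : Z, 0 ≤ b → 0 ≤ τ b := fun b hb => by
    obtain ⟨c, rfl⟩ := pos_iff.2 hb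
    exact h.2.1 c
  have h1 : ∀ r : ℝ, τ (algebraMap ℝ Z r) = r := fun r => by
    rw [Algebra.algebraMap_eq_smul_one, ← Complex.coe_smul, map_smul, h.1, smul_eq_mul, mul_one]
  have hs : ∀ b : Z, IsSelfAdjoint b → ‖τ b‖ ≤ ‖b‖ := fun b hb => by
    have h2 := hp _ (sub_nonneg.2 hb.le_algebraMap_norm_self)
    have h3 := hp _ (sub_nonneg.2 hb.neg.le_algebraMap_norm_self)
    rw [map_sub, h1, Complex.nonneg_iff] at h2 h3
    simp only [map_neg, norm_neg, Complex.sub_re, Complex.ofReal_re, Complex.sub_im,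
      Complex.ofReal_im, Complex.neg_re, Complex.neg_im] at h2 h3
    rw [← Complex.abs_re_eq_norm.2 (by linarith [h2.2]), abs_le]
    constructor <;> linarith [h2.1, h3.1]
  conv_lhs => rw [← realPart_add_I_smul_imaginaryPart a, map_add, map_smul]
  refine (norm_add_le _ _).trans ?_
  rw [norm_smul, Complex.norm_I, one_mul]
  have h2 := (hs _ (realPart a).2).trans (realPart.norm_le a)
  have h3 := (hs _ (imaginaryPart a).2).trans (imaginaryPart.norm_le a)
  linarith

namespace Lim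

variable (D : ℕ → Type) [∀ m, CStarAlgebra (D m)] [∀ m, Nontrivial (D m)]

/-- Bounded sequences. -/
def Sq : Type := lp D ∞

noncomputable instance : CStarAlgebra (lp D ∞) where

noncomputable instance : CStarAlgebra (Sq D) := inferInstanceAs (CStarAlgebra (lp D ∞))

/-- Evaluation. -/
noncomputable def evq (n : ℕ) : Sq D →⋆ₐ[ℂ] D n where
  toFun x := (show lp D ∞ from x) n
  map_one' := rfl
  map_mul' _ _ := rfl
  map_zero' := rfl
  map_add' _ _ := rfl
  commutes' _ := rfl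
  map_star' _ := rfl

variable {D}

theorem exists_sq (x : ∀ n, D n) {r : ℝ} (h : ∀ n, ‖x n‖ ≤ r) : ∃ y : Sq D, ∀ n, evq D n y = x n :=
  ⟨(⟨x, memℓp_infty ⟨r, by rintro _ ⟨n, rfl⟩; exact h n⟩⟩ : lp D ∞), fun _ => rfl⟩

theorem evq_le (n : ℕ) (x : Sq D) : ‖evq D n x‖ ≤ ‖x‖ := NonUnitalStarAlgHom.norm_apply_le _ _

variable (D)

/-- Null sequences. -/
def Nul : Ideal (Sq D) where
  carrier := {x | Tendsto (fun n => ‖evq D n x‖) (hyperfilter ℕ) (𝓝 0)}
  zero_mem' := by simp
  add_mem' {x y} hx hy :=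
    squeeze_zero (g := fun n => ‖evq D n x‖ + ‖evq D n y‖) (fun _ => norm_nonneg _)
      (fun n => by rw [map_add]; exact norm_add_le _ _) (by simpa using Tendsto.add hx hy)
  smul_mem' c x hx :=
    squeeze_zero (g := fun n => ‖c‖ * ‖evq D n x‖) (fun _ => norm_nonneg _) (fun n => by
      rw [smul_eq_mul, map_mul]
      exact (norm_mul_le _ _).trans (mul_le_mul_of_nonneg_right (evq_le n c) (norm_nonneg _)))
      (by simpa using Tendsto.const_mul ‖c‖ hx)

theorem mem_Nul {x : Sq D} :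
    x ∈ Nul D ↔ Tendsto (fun n => ‖evq D n x‖) (hyperfilter ℕ) (𝓝 0) := Iff.rfl

instance : StarIdeal (Nul D) where
  mul_mem_of_left {x} c hx :=
    squeeze_zero (g := fun n => ‖evq D n x‖ * ‖c‖) (fun _ => norm_nonneg _) (fun n => by
      rw [map_mul]
      exact (norm_mul_le _ _).trans (mul_le_mul_of_nonneg_left (evq_le n c) (norm_nonneg _)))
      (by simpa using Tendsto.mul_const ‖c‖ ((mem_Nul D).1 hx))
  star_mem x hx := by
    rw [mem_Nul] at hx ⊢
    simpa only [map_star, norm_star] using hx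

instance : IsClosed (Nul D : Set (Sq D)) := by
  refine isClosed_of_closure_subset fun x hx => ?_
  rw [SetLike.mem_coe, mem_Nul, Metric.tendsto_nhds]
  intro ε hε
  obtain ⟨y, hy, hxy⟩ := Metric.mem_closure_iff.1 hx _ (half_pos hε)
  filter_upwards [Metric.tendsto_nhds.1 ((mem_Nul D).1 hy) _ (half_pos hε)] with n hn
  rw [dist_zero_right, norm_norm] at hn ⊢
  rw [dist_eq_norm] at hxy
  have h1 := evq_le n (x - y)
  rw [map_sub] at h1
  linarith [norm_le_norm_add_norm_sub' (evq D n x) (evq D n y)]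

variable {D}

theorem mk_eq {x y : Sq D} (h : ∀ᶠ n in atTop, evq D n x = evq D n y) :
    Quo.mk (Nul D) x = Quo.mk (Nul D) y := by
  rw [← sub_eq_zero, ← map_sub, Quo.mk_eq_zero, mem_Nul]
  refine tendsto_const_nhds.congr' ?_
  filter_upwards [h.filter_mono Nat.hyperfilter_le_atTop] with n hn
  rw [map_sub, hn, sub_self, norm_zero]

theorem exists_trace (ht : ∀ m, ∃ τ : D m →L[ℂ] ℂ, IsTracialState τ) :
    ∃ τ : Quo (Nul D) →L[ℂ] ℂ, IsTracialState τ := by
  choose τ hτ using ht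
  have hb : ∀ (x : Sq D) n, ‖τ n (evq D n x)‖ ≤ 2 * ‖x‖ := fun x n =>
    ((hτ n).norm_le _).trans (by linarith [evq_le n x])
  have hL : ∀ x : Sq D, ∃ c : ℂ, Tendsto (fun n => τ n (evq D n x)) (hyperfilter ℕ) (𝓝 c) := by
    intro x
    obtain ⟨c, -, hc⟩ := (isCompact_closedBall (0 : ℂ) (2 * ‖x‖)).ultrafilter_le_nhds'
      ((hyperfilter ℕ).map fun n => τ n (evq D n x))
      (mem_map.2 (Eventually.of_forall fun n => by simpa using hb x n))
    exact ⟨c, hc⟩
  choose L hL using hL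
  have hLb : ∀ x, ‖L x‖ ≤ 2 * ‖x‖ := fun x =>
    le_of_tendsto (hL x).norm (Eventually.of_forall (hb x))
  have hLe : ∀ x y, Quo.mk (Nul D) x = Quo.mk (Nul D) y → L x = L y := by
    intro x y h
    rw [← sub_eq_zero, ← map_sub, Quo.mk_eq_zero, mem_Nul] at h
    have h1 : Tendsto (fun n => τ n (evq D n x) - τ n (evq D n y)) (hyperfilter ℕ) (𝓝 0) := by
      refine squeeze_zero_norm (fun n => ?_) (by simpa using h.const_mul 2)
      rw [← map_sub]
      exact (hτ n).norm_le _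
    exact sub_eq_zero.1 (tendsto_nhds_unique ((hL x).sub (hL y)) h1)
  choose s hs using Quo.mk_surj (Nul D)
  have hsL : ∀ x, L (s (Quo.mk (Nul D) x)) = L x := fun x => hLe _ _ (hs _)
  let T : Quo (Nul D) →ₗ[ℂ] ℂ :=
    { toFun := fun z => L (s z)
      map_add' := fun z w => by
        obtain ⟨x, rfl⟩ := Quo.mk_surj _ z
        obtain ⟨y, rfl⟩ := Quo.mk_surj _ w
        rw [← map_add, hsL, hsL, hsL]
        exact tendsto_nhds_unique (hL _) (by simpa only [map_add] using (hL x).add (hL y))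
      map_smul' := fun c z => by
        obtain ⟨x, rfl⟩ := Quo.mk_surj _ z
        rw [← map_smul, hsL, hsL]
        exact tendsto_nhds_unique (hL _)
          (by simpa only [map_smul, RingHom.id_apply] using (hL x).const_smul c) }
  have hT : ∀ x, T (Quo.mk (Nul D) x) = L x := hsL
  have hTb : ∀ z, ‖T z‖ ≤ 2 * ‖z‖ := fun z => le_of_forall_pos_le_add fun ε hε => by
    obtain ⟨x, rfl, hx⟩ := Quo.norm_mk_lt (Nul D) z (half_pos hε)
    rw [hT]
    linarith [hLb x]
  refine ⟨T.mkContinuous 2 hTb, ?_, fun z => ?_, fun z w => ?_⟩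
  · rw [LinearMap.mkContinuous_apply, ← map_one (Quo.mk (Nul D)), hT]
    exact tendsto_nhds_unique (hL 1) (by simp only [map_one, (hτ _).1]; exact tendsto_const_nhds)
  · obtain ⟨x, rfl⟩ := Quo.mk_surj _ z
    rw [LinearMap.mkContinuous_apply, ← map_star, ← map_mul, hT]
    refine ge_of_tendsto' (hL _) fun n => ?_
    rw [map_mul, map_star]
    exact (hτ n).2.1 _
  · obtain ⟨x, rfl⟩ := Quo.mk_surj _ z
    obtain ⟨y, rfl⟩ := Quo.mk_surj _ w
    rw [LinearMap.mkContinuous_apply, LinearMap.mkContinuous_apply, ← map_mul, ← map_mul, hT, hT]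
    refine tendsto_nhds_unique (hL _) ((hL _).congr fun n => ?_)
    rw [map_mul (evq D n), map_mul (evq D n), (hτ n).2.2]

omit [∀ m, Nontrivial (D m)] in
theorem exists_up (ι : ∀ m, D m →⋆ₐ[ℂ] D (m + 1)) (hι : ∀ m, Function.Injective (ι m)) :
    ∃ up : ∀ m n, m ≤ n → (D m →⋆ₐ[ℂ] D n), (∀ m n h, Function.Injective (up m n h)) ∧
      ∀ m n h h' f, up (m + 1) n h (ι m f) = up m n h' f := by
  let up : ∀ m n, m ≤ n → (D m →⋆ₐ[ℂ] D n) := fun m n h =>
    Nat.leRecOn (C := fun k => D m →⋆ₐ[ℂ] D k) h (fun {k} φ => (ι k).comp φ) (StarAlgHom.id ℂ _)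
  have h0 : ∀ m h, up m m h = StarAlgHom.id ℂ _ := fun m _ => Nat.leRecOn_self _
  have h1 : ∀ m n h h', up m (n + 1) h' = (ι n).comp (up m n h) := fun m n h h' =>
    Nat.leRecOn_succ h _
  refine ⟨up, fun m n h => ?_, fun m n h h' f => ?_⟩
  · induction n, h using Nat.le_induction with
    | base => rw [h0]; exact fun _ _ h => h
    | succ n h ih => rw [h1 m n h]; exact (hι n).comp ih
  · induction n, h using Nat.le_induction with
    | base => rw [h0, h1 m m le_rfl, h0]; rfl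
    | succ n h ih =>
      rw [h1 _ n h, h1 m n (by omega), StarAlgHom.comp_apply, StarAlgHom.comp_apply, ih]

theorem exists_emb (ι : ∀ m, D m →⋆ₐ[ℂ] D (m + 1)) (hι : ∀ m, Function.Injective (ι m)) :
    ∃ μ : ∀ m, D m →⋆ₐ[ℂ] Quo (Nul D), (∀ m, Function.Injective (μ m)) ∧
      ∀ m f, μ (m + 1) (ι m f) = μ m f := by
  obtain ⟨up, hu, hu'⟩ := exists_up ι hι
  have hs : ∀ m (f : D m), ∃ y : Sq D, ∀ n (h : m ≤ n), evq D n y = up m n h f := by
    intro m f
    obtain ⟨y, hy⟩ := exists_sq (fun n => if h : m ≤ n then up m n h f else 0) (r := ‖f‖)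
      fun n => by
        split_ifs
        · exact NonUnitalStarAlgHom.norm_apply_le _ _
        · simp
    exact ⟨y, fun n h => by rw [hy, dif_pos h]⟩
  choose s hs using hs
  have key : ∀ m {x y : Sq D}, (∀ n, m ≤ n → evq D n x = evq D n y) →
      Quo.mk (Nul D) x = Quo.mk (Nul D) y := fun m _ _ h => mk_eq (eventually_atTop.2 ⟨m, h⟩)
  let μ : ∀ m, D m →⋆ₐ[ℂ] Quo (Nul D) := fun m =>
    { toFun := fun f => Quo.mk (Nul D) (s m f)
      map_one' := by
        rw [← map_one (Quo.mk (Nul D))]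
        exact key m fun n h => by simp only [hs m _ n h, map_one]
      map_mul' := fun f g => by
        rw [← map_mul]
        exact key m fun n h => by simp only [hs m _ n h, map_mul]
      map_zero' := by
        rw [← map_zero (Quo.mk (Nul D))]
        exact key m fun n h => by simp only [hs m _ n h, map_zero]
      map_add' := fun f g => by
        rw [← map_add]
        exact key m fun n h => by simp only [hs m _ n h, map_add]
      commutes' := fun c => by
        rw [← (Quo.mk (Nul D)).commutes]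
        exact key m fun n h => by simp only [hs m _ n h, AlgHomClass.commutes]
      map_star' := fun f => by
        rw [← map_star]
        exact key m fun n h => by simp only [hs m _ n h, map_star] }
  refine ⟨μ, fun m => (injective_iff_map_eq_zero _).2 fun f hf => ?_, fun m f =>
    key (m + 1) fun n h => by rw [hs _ _ n h, hs m f n (by omega), hu']⟩
  have h1 := (mem_Nul D).1 ((Quo.mk_eq_zero _).1 hf)
  have h2 : Tendsto (fun n => ‖evq D n (s m f)‖) (hyperfilter ℕ) (𝓝 ‖f‖) := by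
    refine tendsto_const_nhds.congr' ?_
    filter_upwards [(eventually_ge_atTop m).filter_mono Nat.hyperfilter_le_atTop] with n hn
    rw [hs m f n hn, NonUnitalStarAlgHom.norm_map _ (hu m n hn)]
  exact norm_eq_zero.1 (tendsto_nhds_unique h2 h1)

end Lim

open Lim in
theorem exists_limit' (D : ℕ → Type) [∀ m, CStarAlgebra (D m)] [∀ m, Nontrivial (D m)]
    (ι : ∀ m, D m →⋆ₐ[ℂ] D (m + 1)) (hι : ∀ m, Function.Injective (ι m))
    (ht : ∀ m, ∃ τ : D m →L[ℂ] ℂ, IsTracialState τ) :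
    ∃ (Z : Type) (_ : CStarAlgebra Z) (μ : ∀ m, D m →⋆ₐ[ℂ] Z), (∀ m, Function.Injective (μ m)) ∧
      (∀ m f, μ (m + 1) (ι m f) = μ m f) ∧ Dense (⋃ m, Set.range (μ m)) ∧
      ∃ τ : Z →L[ℂ] ℂ, IsTracialState τ := by
  obtain ⟨μ, h1, h2⟩ := exists_emb ι hι
  obtain ⟨τ, hτ⟩ := exists_trace ht
  have hm : Monotone fun m => Set.range (μ m) :=
    monotone_nat_of_le_succ fun m => by rintro _ ⟨f, rfl⟩; exact ⟨_, h2 m f⟩
  have h3 : ∀ a ∈ ⋃ m, Set.range (μ m), ∀ b ∈ ⋃ m, Set.range (μ m),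
      ∃ m f g, μ m f = a ∧ μ m g = b := by
    intro a ha b hb
    obtain ⟨m, ha⟩ := Set.mem_iUnion.1 ha
    obtain ⟨n, hb⟩ := Set.mem_iUnion.1 hb
    obtain ⟨f, hf⟩ := hm (le_max_left m n) ha
    obtain ⟨g, hg⟩ := hm (le_max_right m n) hb
    exact ⟨_, f, g, hf, hg⟩
  let S : StarSubalgebra ℂ (Quo (Nul D)) :=
    { carrier := ⋃ m, Set.range (μ m)
      mul_mem' := fun {a b} ha hb => by
        obtain ⟨m, f, g, rfl, rfl⟩ := h3 a ha b hb
        exact Set.mem_iUnion.2 ⟨m, f * g, map_mul _ _ _⟩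
      add_mem' := fun {a b} ha hb => by
        obtain ⟨m, f, g, rfl, rfl⟩ := h3 a ha b hb
        exact Set.mem_iUnion.2 ⟨m, f + g, map_add _ _ _⟩
      algebraMap_mem' := fun c => Set.mem_iUnion.2 ⟨0, _, (μ 0).commutes c⟩
      star_mem' := fun {a} ha => by
        obtain ⟨m, f, rfl⟩ := Set.mem_iUnion.1 ha
        exact Set.mem_iUnion.2 ⟨m, star f, map_star _ _⟩ }
  have hc : IsClosed (S.topologicalClosure : Set (Quo (Nul D))) := S.isClosed_topologicalClosure
  have hmem : ∀ m f, μ m f ∈ S.topologicalClosure := fun m f =>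
    S.le_topologicalClosure (Set.mem_iUnion.2 ⟨m, f, rfl⟩)
  refine ⟨S.topologicalClosure, StarSubalgebra.cstarAlgebra _,
    fun m => (μ m).codRestrict _ (hmem m), fun m f g h => h1 m (congrArg Subtype.val h),
    fun m f => Subtype.ext (h2 m f), ?_, τ.comp S.topologicalClosure.toSubmodule.subtypeL,
    hτ.1, fun a => hτ.2.1 a.1, fun a b => hτ.2.2 a.1 b.1⟩
  rw [Subtype.dense_iff]
  refine fun x hx => closure_mono ?_ hx
  intro a ha
  obtain ⟨m, f, rfl⟩ := Set.mem_iUnion.1 ha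
  exact ⟨_, Set.mem_iUnion.2 ⟨m, f, rfl⟩, rfl⟩

end Vale.Agent.P101
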