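import Vale.Agent.P101.Step
import Vale.Agent.P101.DD
import Vale.Agent.P101.LimA

/-! Inductive limits and the system defining `𝒵`. -/

namespace Vale.Agent.P101
open scoped Matrix.Norms.L2Operator unitInterval CStarAlgebra

theorem exists_limit (D : ℕ → Type) [∀ m, CStarAlgebra (D m)] [∀ m, Nontrivial (D m)]
    (ι : ∀ m, D m →⋆ₐ[ℂ] D (m + 1)) (hι : ∀ m, Function.Injective (ι m))
    (ht : ∀ m, ∃ τ : D m →L[ℂ] ℂ, IsTracialState τ) :
    ∃ (Z : Type) (_ : CStarAlgebra Z) (μ : ∀ m, D m →⋆ₐ[ℂ] Z), (∀ m, Function.Injective (μ m)) ∧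
      (∀ m f, μ (m + 1) (ι m f) = μ m f) ∧ Dense (⋃ m, Set.range (μ m)) ∧
      ∃ τ : Z →L[ℂ] ℂ, IsTracialState τ := exists_limit' D ι hι ht

namespace Lim

/-- The sizes. -/
def pp : ℕ → ℕ
  | 0 => 2
  | m + 1 => nxt (pp m) (m + 6)

theorem two_le_pp : ∀ m, 2 ≤ pp m
  | 0 => le_rfl
  | m + 1 => (two_le_pp m).trans (Nat.le_add_left _ _)

theorem pp_pos (m : ℕ) : 0 < pp m := by have := two_le_pp m; omega

theorem step (m : ℕ) :
    ∃ (ι : dropAlg (pp m) (pp m + 1) →⋆ₐ[ℂ] dropAlg (pp (m + 1)) (pp (m + 1) + 1))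
      (γ : C(I, MM (pp (m + 1)) (pp (m + 1) + 1))), Function.Injective ι ∧ γ 0 = 1 ∧
      (∀ s, γ s ∈ unitary (MM (pp (m + 1)) (pp (m + 1) + 1))) ∧
      (∀ f ε, Modc f (1 / (m + 6 : ℕ)) ε → Flat γ (ι f) ε ∧ ∀ s, ‖f‖ ≤ ‖(ι f).1 s‖ + ε) ∧
      ∀ f δ ε, 0 ≤ δ → Modc f (δ / (m + 6 : ℕ)) ε → Modc (ι f) δ (ε + 8 * δ * ‖f‖) :=
  exists_step (pp_pos m) (Nat.succ_pos _)

variable {p q : ℕ}

theorem Modc_mono {f : dropAlg p q} {δ δ' ε ε' : ℝ} (h : Modc f δ ε) (h1 : δ' ≤ δ) (h2 : ε ≤ ε') :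
    Modc f δ' ε' := fun s t hst => (h s t (hst.trans h1)).trans h2

theorem rho_lip (s t : I) : |(rho s : ℝ) - rho t| ≤ 3 * |(s : ℝ) - t| := by
  rw [rho_coe, rho_coe, max_comm, max_comm 0]
  refine (abs_max_sub_max_le_abs _ _ _).trans ?_
  refine (abs_min_sub_min_le_max _ _ _ _).trans ?_
  rw [sub_self, abs_zero, max_eq_right (abs_nonneg _),
    show 3 * (s : ℝ) - 1 - (3 * t - 1) = 3 * (s - t) by ring, abs_mul, abs_of_pos three_pos]

theorem Modc_col {f : dropAlg p q} {δ ε : ℝ} (h : Modc f (3 * δ) ε) : Modc (col p q f) δ ε :=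
  fun s t hst => h _ _ ((rho_lip s t).trans (by linarith))

theorem col_inj : Function.Injective (col p q) := fun f g h => drop_ext fun s => by
  have h0 := s.2.1
  have h1 := s.2.2
  have hs : rho ⟨((s : ℝ) + 1) / 3, by linarith, by linarith⟩ = s := Subtype.ext (by
    rw [rho_coe, show 3 * (((s : ℝ) + 1) / 3) - 1 = s by ring, min_eq_right h1, max_eq_right h0])
  rw [← hs, ← col_apply, h, col_apply]

theorem exists_modc (f : dropAlg p q) {ε : ℝ} (hε : 0 < ε) : ∃ δ > 0, Modc f δ ε := by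
  obtain ⟨δ, hδ, h⟩ := Metric.uniformContinuous_iff_le.1
    (CompactSpace.uniformContinuous_of_continuous f.1.continuous) ε hε
  exact ⟨δ, hδ, fun s t hst => by rw [← dist_eq_norm]; exact h hst⟩

/-- A star homomorphism as a continuous linear map. -/
noncomputable def clm {A B : Type*} [CStarAlgebra A] [CStarAlgebra B] (φ : A →⋆ₐ[ℂ] B) :
    A →L[ℂ] B := ⟨φ.toAlgHom.toLinearMap, map_continuous φ⟩

theorem trace_comp {A B : Type*} [CStarAlgebra A] [CStarAlgebra B] (φ : A →⋆ₐ[ℂ] B)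
    {ν : B →L[ℂ] ℂ} (hν : IsTracialState ν) :
    ∃ τ : A →L[ℂ] ℂ, (∀ a, τ a = ν (φ a)) ∧ τ 1 = 1 ∧ (∀ a b, τ (a * b) = τ (b * a)) ∧ ‖τ‖ ≤ 2 := by
  have hμ : ∀ f, (ν.comp (clm φ)) f = ν (φ f) := fun _ => rfl
  refine ⟨ν.comp (clm φ), hμ, by rw [hμ, map_one, hν.1],
    fun a b => by rw [hμ, hμ, map_mul φ, map_mul φ, hν.2.2],
    ContinuousLinearMap.opNorm_le_bound _ zero_le_two fun f => ?_⟩
  rw [hμ]
  refine (hν.norm_le _).trans ?_
  linarith [NonUnitalStarAlgHom.norm_apply_le φ f]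

theorem trace_flat (hp : 0 < p) (hq : 0 < q) {Z : Type*} [CStarAlgebra Z]
    (φ : dropAlg p q →⋆ₐ[ℂ] Z) {ν : Z →L[ℂ] ℂ} (hν : IsTracialState ν) {γ : C(I, MM p q)}
    (hγ : ∀ s, γ s ∈ unitary (MM p q)) {g : dropAlg p q} {ε : ℝ} (hg : Flat γ g ε) (hε : 0 ≤ ε) :
    ‖ν (φ (col p q g)) - Matrix.trace (g.1 0) / (p * q : ℂ)‖ ≤ 2 * ε := by
  obtain ⟨τ, h1, h2, h3, h4⟩ := trace_comp φ hν
  rw [← h1]
  exact (drop_trace_flat hp hq τ h2 h3 hγ hg).trans (mul_le_mul_of_nonneg_right h4 hε)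

end Lim

open Lim in
theorem exists_sys : Nonempty Sys := by
  choose ι γ h1 h2 h3 h4 h5 using step
  have ht := fun m => drop_exists_trace (p := pp m) (q := pp m + 1) (pp_pos m) (Nat.succ_pos _)
  have hnt : ∀ m, Nontrivial (dropAlg (pp m) (pp m + 1)) := fun m => by
    obtain ⟨τ, hτ⟩ := ht m
    refine ⟨1, 0, fun h => ?_⟩
    have := hτ.1
    rw [h, map_zero] at this
    exact zero_ne_one this
  obtain ⟨Z, _, μ, k1, k2, k3, k4⟩ := exists_limit (fun m => dropAlg (pp m) (pp m + 1))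
    (fun m => (col _ _).comp (ι m)) (fun m => col_inj.comp (h1 m)) ht
  let Γ : ∀ m, C(I, MM (pp m) (pp m + 1)) := fun m => match m with
    | 0 => 1
    | m + 1 => γ m
  refine ⟨
    { Z := Z, p := pp, μ := μ, γ := Γ, two_le := two_le_pp, inj := k1, dense := k3, trace := k4
      mono := fun m => by rintro _ ⟨f, rfl⟩; exact ⟨_, k2 m f⟩
      γ_zero := fun m => match m with
        | 0 => rfl
        | m + 1 => h2 m
      γ_unitary := fun m s => match m with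
        | 0 => one_mem _
        | m + 1 => h3 m s
      flat := fun z hz ε hε => ?_ }⟩
  obtain ⟨m, f, rfl⟩ := Set.mem_iUnion.1 hz
  obtain ⟨δ₀, hδ₀, hf⟩ := exists_modc f (half_pos hε)
  have hn := norm_nonneg (μ m f)
  have key : ∀ n, m ≤ n → ∃ g : dropAlg (pp n) (pp n + 1), μ n g = μ m f ∧
      ∀ δ, 0 ≤ δ → δ ≤ δ₀ → Modc g δ (ε / 2 + 48 * δ * ‖μ m f‖) := by
    intro n hn'
    induction n, hn' using Nat.le_induction with
    | base => exact ⟨f, rfl, fun δ a b => Modc_mono hf b (by nlinarith [mul_nonneg a hn])⟩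
    | succ n _ ih =>
      obtain ⟨g, hg, hg'⟩ := ih
      refine ⟨col _ _ (ι n g), (k2 n g).trans hg, fun δ a b => Modc_col ?_⟩
      have e1 : 3 * δ / (n + 6 : ℕ) ≤ δ / 2 := by
        rw [div_le_div_iff₀ (by positivity) two_pos]
        push_cast
        nlinarith [mul_nonneg a (Nat.cast_nonneg (α := ℝ) n)]
      have e2 : ‖g‖ = ‖μ m f‖ := by rw [← hg, NonUnitalStarAlgHom.norm_map _ (k1 n)]
      refine Modc_mono (h5 n g (3 * δ) _ (by linarith)
        (Modc_mono (hg' (δ / 2) (by linarith) (by linarith)) e1 le_rfl)) le_rfl (le_of_eq ?_)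
      rw [e2]; ring
  have hlim : Filter.Tendsto (fun n : ℕ => (1 : ℝ) / (n + 6 : ℕ)) Filter.atTop (nhds 0) :=
    (tendsto_const_div_atTop_nhds_zero_nat (1 : ℝ)).comp (Filter.tendsto_add_atTop_nat 6)
  have hev : ∀ᶠ n : ℕ in Filter.atTop, m ≤ n ∧ (1 : ℝ) / (n + 6 : ℕ) ≤ δ₀ ∧
      48 * ((1 : ℝ) / (n + 6 : ℕ)) * ‖μ m f‖ ≤ ε / 2 := by
    refine (Filter.eventually_ge_atTop m).and ((hlim.eventually (ge_mem_nhds hδ₀)).and ?_)
    exact ((hlim.const_mul 48).mul_const ‖μ m f‖).eventually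
      (ge_mem_nhds (by simpa using hε))
  obtain ⟨N, hN⟩ := Filter.eventually_atTop.1 hev
  refine Filter.eventually_atTop.2 ⟨N + 1, fun n hn' => ?_⟩
  obtain ⟨n, rfl⟩ : ∃ k, n = k + 1 := ⟨n - 1, by omega⟩
  obtain ⟨a1, a2, a3⟩ := hN n (by omega)
  obtain ⟨g, hg, hg'⟩ := key n a1
  have e2 : ‖g‖ = ‖μ m f‖ := by rw [← hg, NonUnitalStarAlgHom.norm_map _ (k1 n)]
  obtain ⟨b1, b2⟩ := h4 n g ε (Modc_mono (hg' _ (by positivity) a2) le_rfl (by linarith))
  exact ⟨ι n g, (k2 n g).trans hg, b1, fun s => e2 ▸ b2 s⟩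

theorem Sys.norm_eq (S : Sys) {Q : Type*} [CStarAlgebra Q] [Nontrivial Q] (π : S.Z →⋆ₐ[ℂ] Q)
    (z : S.Z) : ‖z‖ ≤ ‖π z‖ := by
  refine S.dense.induction (P := fun z => ‖z‖ ≤ ‖π z‖) (fun z hz => ?_)
    (isClosed_le continuous_norm (map_continuous π).norm) z
  refine le_of_forall_pos_le_add fun ε hε => ?_
  obtain ⟨m, g, h1, -, h2⟩ := (S.flat z hz ε hε).exists
  have := drop_norm_ge (π.comp (S.μ m)) (col _ _ g) (r := ‖z‖ - ε)
    fun s => by rw [col_apply]; linarith [h2 (rho s)]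
  rw [StarAlgHom.comp_apply, h1] at this
  linarith

theorem Sys.trace_uniq (S : Sys) {τ τ' : S.Z →L[ℂ] ℂ} (h : IsTracialState τ)
    (h' : IsTracialState τ') : τ = τ' := by
  refine ContinuousLinearMap.ext fun z => ?_
  refine S.dense.induction (P := fun z => τ z = τ' z) (fun z hz => ?_)
    (isClosed_eq τ.continuous τ'.continuous) z
  refine eq_of_forall_dist_le fun ε hε => ?_
  obtain ⟨m, g, h1, h2, -⟩ := (S.flat z hz (ε / 4) (by positivity)).exists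
  have hp : 0 < S.p m := by have := S.two_le m; omega
  have key : ∀ ν : S.Z →L[ℂ] ℂ, IsTracialState ν →
      ‖ν z - Matrix.trace (g.1 0) / (S.p m * (S.p m + 1 : ℕ) : ℂ)‖ ≤ ε / 2 := by
    intro ν hν
    have h3 := Lim.trace_flat hp (Nat.succ_pos _) (S.μ m) hν (S.γ_unitary m) h2 (by positivity)
    rw [h1] at h3
    exact h3.trans (by linarith)
  have := dist_triangle_right (τ z) (τ' z)
    (Matrix.trace (g.1 0) / (S.p m * (S.p m + 1 : ℕ) : ℂ))
  rw [dist_eq_norm (τ z) (_ / _), dist_eq_norm (τ' z)] at this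
  linarith [key τ h, key τ' h']

theorem Sys.isJiangSu (S : Sys) : IsJiangSu S.Z := by
  refine ⟨fun J hJ => ?_, fun h => ?_, ?_, S.p, fun n => S.p n + 1, S.μ,
    fun n => ⟨S.two_le n, Nat.le_succ_of_le (S.two_le n), by simp⟩, S.inj, S.mono, S.dense⟩
  · by_cases h1 : (1 : S.Z) ∈ J
    · exact Or.inr ((TwoSidedIdeal.one_mem_iff J).1 h1)
    left
    have hc : IsClosed (J.asIdeal : Set S.Z) := hJ
    have := starIdeal_of_isClosed J.asIdeal hc
    have : Nontrivial (Quo J.asIdeal) := ⟨1, 0, fun h => h1 (by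
      rw [← map_one (Quo.mk J.asIdeal), Quo.mk_eq_zero] at h
      exact h)⟩
    refine eq_bot_iff.2 fun z hz => ?_
    have h2 := S.norm_eq (Quo.mk J.asIdeal) z
    rw [(Quo.mk_eq_zero J.asIdeal).2 hz, norm_zero] at h2
    exact norm_le_zero_iff.1 h2
  · have hp : 0 < S.p 0 := by have := S.two_le 0; omega
    exact drop_not_finite hp (Nat.succ_pos _)
      (Module.Finite.of_injective (S.μ 0).toAlgHom.toLinearMap (S.inj 0))
  · obtain ⟨τ, hτ⟩ := S.trace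
    exact ⟨τ, hτ, fun τ' h => S.trace_uniq h hτ⟩

instance Sys.separable (S : Sys) : TopologicalSpace.SeparableSpace S.Z :=
  S.dense.isSeparable_iff.1 (TopologicalSpace.IsSeparable.iUnion fun m =>
    TopologicalSpace.isSeparable_range (map_continuous (S.μ m)))

end Vale.Agent.P101
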