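import Vale.Agent.P101.TransA

/-! Transfer of functions on the square to commuting copies of a dimension drop algebra. -/

namespace Vale.Agent.P101
open scoped Matrix.Norms.L2Operator unitInterval
open Matrix
universe u

namespace Tr

lemma exists_kap {G : Type u} [CStarAlgebra G] {x y : G} (hx : IsSelfAdjoint x)
    (hy : IsSelfAdjoint y) (hxy : Commute x y) (φ : I × I → ℂ) (hφ : Continuous φ) :
    ∃ k : G, ∀ (P : PQ G) (s t : I), P.π x = algebraMap ℝ P.Q s → P.π y = algebraMap ℝ P.Q t →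
      ∀ z, P.π (k * z) = φ (s, t) • P.π z := by
  obtain ⟨g, hg, hg'⟩ : ∃ g : ℝ × ℝ → ℂ, Continuous g ∧ ∀ s t : I, g (s, t) = φ (s, t) :=
    ⟨fun z => φ (Set.projIcc 0 1 zero_le_one z.1, Set.projIcc 0 1 zero_le_one z.2),
      hφ.comp ((continuous_projIcc.comp continuous_fst).prodMk
        (continuous_projIcc.comp continuous_snd)), fun s t => by simp⟩
  refine ⟨k2 (fun a b => (g (a, b)).re) x y + Complex.I • k2 (fun a b => (g (a, b)).im) x y,
    fun P s t hs ht z => ?_⟩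
  rw [map_mul, map_add, map_smul, map_k2 P.π hx hy hxy hs ht (by fun_prop),
    map_k2 P.π hx hy hxy hs ht (by fun_prop), Algebra.algebraMap_eq_smul_one,
    Algebra.algebraMap_eq_smul_one, ← Complex.coe_smul, ← Complex.coe_smul, smul_smul, ← add_smul,
    smul_mul_assoc, one_mul, mul_comm, Complex.re_add_im, hg']

lemma coord_sa {p q : ℕ} : IsSelfAdjoint (scal p q coordX) :=
  IsSelfAdjoint.map (ContinuousMap.ext fun s => by simp) (scal p q)

lemma scal_comm {p q : ℕ} (φ : C(I, ℂ)) (f : dropAlg p q) : Commute (scal p q φ) f :=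
  drop_ext fun s => by simp

theorem central {p q : ℕ} [NeZero p] [NeZero q] {G : Type u} [CStarAlgebra G]
    (α β : dropAlg p q →⋆ₐ[ℂ] G) (hc : ∀ f g, Commute (α f) (β g))
    (cx : ∀ g, Commute (α (scal p q coordX)) g) (cy : ∀ g, Commute (β (scal p q coordX)) g)
    (U : C(I × I, Matrix (KK p q × KK p q) (KK p q × KK p q) ℂ))
    (hU : ∀ z, U z ∈ unitary (Matrix (KK p q × KK p q) (KK p q × KK p q) ℂ)) (hB : Bdry U) :
    ∃ u ∈ unitary G, ∀ (f g : dropAlg p q) (ε : ℝ), (∀ s t : I,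
        ‖U (s, t) * kL (KK p q) (KK p q) (f.1 s) - kR (KK p q) (KK p q) (g.1 t) * U (s, t)‖ ≤ ε) →
        ‖u * α (col p q f) - β (col p q g) * u‖ ≤ ε := by
  have hx := coord_sa.map α
  have hy := coord_sa.map β
  choose k hk using fun z w : KK p q × KK p q => exists_kap hx hy (cx _)
    (fun st => U (rho st.1, rho st.2) z w) (Continuous.matrix_elem (by fun_prop) z w)
  obtain ⟨u, hu⟩ : ∃ u, u = ∑ z, ∑ w,
    k z w * (α (PP (single z.1 w.1 1)) * β (PP (single z.2 w.2 1))) := ⟨_, rfl⟩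
  have key : ∀ P : PQ G, ∃ (N : Type) (_ : CStarAlgebra N)
      (η : N →⋆ₐ[ℂ] Matrix (KK p q × KK p q) (KK p q × KK p q) ℂ) (Λ : N →⋆ₐ[ℂ] P.Q) (s t : I)
      (Z : N), Function.Injective η ∧ η Z = U (s, t) ∧ Λ Z = P.π u ∧
      (∀ f : dropAlg p q, ∃ X, η X = kL _ _ (f.1 s) ∧ Λ X = P.π (α (col p q f))) ∧
      ∀ g : dropAlg p q, ∃ Y, η Y = kR _ _ (g.1 t) ∧ Λ Y = P.π (β (col p q g)) := by
    intro P
    obtain ⟨s', hs'⟩ := P.scalar hx cx
    obtain ⟨t', ht'⟩ := P.scalar hy cy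
    obtain ⟨s, rfl, -, hs⟩ := drop_fiber (P.π.comp α) hs'
    obtain ⟨t, rfl, -, ht⟩ := drop_fiber (P.π.comp β) ht'
    obtain ⟨a, _, _, _, η, φ, ι, _, v, v', a1, a2, a3, a4, a5⟩ := fibre_data _ hs
    obtain ⟨b, _, _, _, η', ψ, κ, _, w, w', b1, b2, b3, b4, b5⟩ := fibre_data _ ht
    obtain ⟨Λ, l1, l2⟩ := exists_tens φ ψ fun X Y => by
      rw [← a1, ← b1]; exact (hc _ _).map P.π
    obtain ⟨θ, t1, t2⟩ := exists_tens ((kL (KK p q) (KK p q)).comp η)
      ((kR (KK p q) (KK p q)).comp η') fun X Y => kL_comm_kR _ _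
    choose X hX using a3
    choose Y hY using b3
    have hW := eq_avg_sum a4 b4 (W := U (rho s, rho t))
      (fun i => by
        rcases a5 i with ⟨r, Y, e⟩ | ⟨r, Y, e⟩ | e
        · rw [r, e]; exact hB.s0 _ _
        · rw [r, e]; exact hB.s1 _ _
        · rw [e, map_one]; exact Commute.one_right _)
      (fun i => by
        rcases b5 i with ⟨r, Y, e⟩ | ⟨r, Y, e⟩ | e
        · rw [r, e]; exact hB.t0 _ _
        · rw [r, e]; exact hB.t1 _ _
        · rw [e, map_one]; exact Commute.one_right _)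
    simp only [hX, hY] at hW
    refine ⟨_, inferInstance, θ, Λ, rho s, rho t, ∑ z, ∑ w, U (rho s, rho t) z w •
      (kL a b (X (single z.1 w.1 1)) * kR a b (Y (single z.2 w.2 1))), RingHom.injective θ.toRingHom,
      ?_, ?_, fun f => ?_, fun g => ?_⟩
    · simp only [map_sum, map_smul, map_mul, t1, t2]
      exact hW.symm
    · have e := congrArg (TT ((P.π.comp α).toAlgHom.toLinearMap ∘ₗ PP)
        ((P.π.comp β).toAlgHom.toLinearMap ∘ₗ PP)) hW
      simp only [map_sum, map_smul, TT_mul] at e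
      simp only [hu, map_sum, map_smul, hk _ _ P s t hs' ht', map_mul, l1, l2, ← a1, ← b1]
      exact e.symm
    · obtain ⟨X, e1, e2⟩ := a2 f
      exact ⟨kL a b X, by rw [t1, e1]; rfl, by rw [l1, ← e2]; rfl⟩
    · obtain ⟨X, e1, e2⟩ := b2 g
      exact ⟨kR a b X, by rw [t2, e1]; rfl, by rw [l2, ← e2]; rfl⟩
  refine ⟨u, ⟨eq_of_pq fun P => ?_, eq_of_pq fun P => ?_⟩, fun f g ε h =>
    norm_le_of_pq ((norm_nonneg _).trans (h 0 0)) fun P => ?_⟩
  all_goals obtain ⟨N, _, η, Λ, s, t, Z, hi, z1, z2, hf, hg⟩ := key P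
  · rw [map_mul, map_star, ← z2, ← map_star, ← map_mul, map_one,
      hi (a₁ := star Z * Z) (a₂ := 1) (by rw [map_mul, map_star, z1, map_one]; exact (hU _).1),
      map_one]
  · rw [map_mul, map_star, ← z2, ← map_star, ← map_mul, map_one,
      hi (a₁ := Z * star Z) (a₂ := 1) (by rw [map_mul, map_star, z1, map_one]; exact (hU _).2),
      map_one]
  · obtain ⟨X, x1, x2⟩ := hf f
    obtain ⟨Y, y1, y2⟩ := hg g
    have := norm_transfer (π := η) (θ := Λ) (fun a b e => congrArg Λ (hi e)) (Z * X - Y * Z)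
    simp only [map_sub, map_mul, z1, z2, x1, x2, y1, y2] at this ⊢
    exact this.trans (h s t)

end Tr

theorem transfer {p q : ℕ} (hp : 0 < p) (hq : 0 < q) {G : Type u} [CStarAlgebra G]
    (α β : dropAlg p q →⋆ₐ[ℂ] G) (hc : ∀ f g, Commute (α f) (β g))
    (U : C(I × I, Matrix (KK p q × KK p q) (KK p q × KK p q) ℂ))
    (hU : ∀ z, U z ∈ unitary (Matrix (KK p q × KK p q) (KK p q × KK p q) ℂ)) (hB : Bdry U) :
    ∃ u ∈ unitary G, (∀ y, (∀ f, Commute (α f) y) → (∀ f, Commute (β f) y) → Commute u y) ∧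
      ∀ (f g : dropAlg p q) (ε : ℝ), (∀ s t : I,
        ‖U (s, t) * kL (KK p q) (KK p q) (f.1 s) - kR (KK p q) (KK p q) (g.1 t) * U (s, t)‖ ≤ ε) →
        ‖u * α (col p q f) - β (col p q g) * u‖ ≤ ε := by
  have : NeZero p := ⟨hp.ne'⟩
  have : NeZero q := ⟨hq.ne'⟩
  let S : Set G := Set.range α ∪ Set.range β
  have mem : ∀ y, (∀ f, Commute (α f) y) → (∀ f, Commute (β f) y) → y ∈ cent S := by
    intro y h1 h2
    rw [mem_cent]
    rintro _ (⟨f, rfl⟩ | ⟨f, rfl⟩)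
    · exact ⟨h1 f, by rw [← map_star]; exact h1 _⟩
    · exact ⟨h2 f, by rw [← map_star]; exact h2 _⟩
  let α₀ := α.codRestrict (bicomm S) fun f => subset_bicomm S (Or.inl ⟨f, rfl⟩)
  let β₀ := β.codRestrict (bicomm S) fun f => subset_bicomm S (Or.inr ⟨f, rfl⟩)
  obtain ⟨u, hu, h⟩ := Tr.central α₀ β₀ (fun f g => Subtype.ext (hc f g))
    (fun g => Subtype.ext (mem_bicomm.1 g.2 _
      (mem _ (fun f => (Tr.scal_comm _ f).symm.map α) fun f => (hc _ f).symm)))
    (fun g => Subtype.ext (mem_bicomm.1 g.2 _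
      (mem _ (fun f => hc f _) fun f => (Tr.scal_comm _ f).symm.map β))) U hU hB
  exact ⟨u.1, ⟨congrArg Subtype.val hu.1, congrArg Subtype.val hu.2⟩,
    fun y h1 h2 => (mem_bicomm.1 u.2 _ (mem y h1 h2)).symm, fun f g ε e => h f g ε e⟩

end Vale.Agent.P101
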