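import Vale.Agent.P101.Core
import Vale.Agent.P101.Lim
import Vale.Agent.P101.Flip
import Vale.Agent.P101.Trans
import Vale.Agent.P101.Inter

/-! Assembly: absorption of `𝒵`. -/

namespace Vale.Agent.P101
open Filter Topology
open scoped BoundedContinuousFunction Matrix.Norms.L2Operator
universe u v

theorem local_flip (S : Sys) {A : Type u} [CStarAlgebra A] {ω : Ultrafilter ℕ}
    (hA : ∀ k, 0 < k → Nonempty (dropAlg k (k + 1) →⋆ₐ[ℂ] centralSeq ω A))
    {B : Type v} [CStarAlgebra B] (i : A →⋆ₐ[ℂ] B) (j : S.Z →⋆ₐ[ℂ] B)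
    (hc : ∀ a z, Commute (i a) (j z)) (F : Finset A) (T : Finset S.Z) {ε : ℝ} (hε : 0 < ε) :
    ∃ v ∈ unitary B, (∀ a ∈ F, ‖v * i a - i a * v‖ ≤ ε) ∧
      ∀ z ∈ T, ∃ a, ‖star v * j z * v - i a‖ ≤ ε := by
  have hδ : 0 < ε / 6 := by positivity
  choose w hw hwz using fun z : S.Z => S.dense.exists_dist_lt z hδ
  obtain ⟨m, hm⟩ := ((eventually_all_finset T).2 fun z _ => S.flat (w z) (hw z) _ hδ).exists
  choose! g hg hfl _ using hm
  have hp : 0 < S.p m := by have := S.two_le m; omega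
  obtain ⟨φ⟩ := hA _ hp
  obtain ⟨L, Φ, hL, hΦ⟩ := exists_ultMap (ω := ω) i
  obtain ⟨U, hU, hB, hUg⟩ := exists_flip (S.γ m) (S.γ_zero m) (S.γ_unitary m)
  let α := Φ.comp ((centralSeq ω A).subtype.comp φ)
  let β := (constHom ω B).comp (j.comp (S.μ m))
  have hαβ : ∀ f f', Commute (α f) (β f') := fun f f' => by
    obtain ⟨x, hx⟩ := Quo.mk_surj (nullIdeal ω A) (φ f : Ultrapower ω A)
    change Commute (Φ (φ f : Ultrapower ω A)) (Quo.mk _ (BoundedContinuousFunction.const ℕ _))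
    rw [← hx, hΦ]
    refine Commute.map ?_ _
    ext n
    simpa [hL] using (hc (x n) _).eq
  obtain ⟨u, hu, huc, hue⟩ := transfer hp (Nat.succ_pos _) α β hαβ U hU hB
  obtain ⟨v, hv, rfl⟩ := lift_unitary hu
  have hconst : ∀ a, Φ (constSeq ω A a) = constSeq ω B (i a) := fun a => by
    rw [constSeq, hΦ, constSeq]
    congr 1
    ext n
    simp [hL]
  have h1 : ∀ a, ∀ᶠ n in ω, ‖v n * i a - i a * v n‖ ≤ ε := fun a => by
    have h2 := huc (constSeq ω B (i a))
      (fun f => by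
        rw [← hconst]
        exact ((mem_cent.1 (φ f).2 _ ⟨a, rfl⟩).1.symm).map Φ)
      (fun f => ((hc a _).symm.map (constHom ω B)))
    have h3 := tendsto_norm_mk (ω := ω)
      (v * BoundedContinuousFunction.const ℕ (i a) - BoundedContinuousFunction.const ℕ (i a) * v)
    rw [map_sub, map_mul, map_mul, ← constSeq, h2.eq, sub_self, norm_zero] at h3
    exact (h3.eventually (ge_mem_nhds hε))
  choose y hy using fun z => Quo.mk_surj (nullIdeal ω A) (φ (col _ _ (g z)) : Ultrapower ω A)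
  have h2 : ∀ z ∈ T, ∀ᶠ n in ω, ‖v n * i (y z n) - j (w z) * v n‖ ≤ 5 * (ε / 6) := fun z hz => by
    have h4 := hue (g z) (g z) _ (hUg (g z) _ (hfl z hz))
    have h3 := tendsto_norm_mk (ω := ω)
      (v * L (y z) - BoundedContinuousFunction.const ℕ (j (w z)) * v)
    have e1 : α (col _ _ (g z)) = Quo.mk _ (L (y z)) := by rw [← hΦ, hy]; rfl
    have e2 : β (col _ _ (g z)) = Quo.mk _ (BoundedContinuousFunction.const ℕ (j (w z))) := by
      rw [← hg z hz]; rfl
    rw [map_sub, map_mul, map_mul, ← e1, ← e2] at h3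
    have := h3.eventually (ge_mem_nhds (show _ < 5 * (ε / 6) by linarith))
    simpa [hL] using this
  obtain ⟨n, hn1, hn2⟩ := (((eventually_all_finset F).2 fun a _ => h1 a).and
    ((eventually_all_finset T).2 h2)).exists
  refine ⟨v n, hv n, hn1, fun z hz => ⟨y z n, ?_⟩⟩
  have e : star (v n) * j z * v n - i (y z n) =
      star (v n) * (j (z - w z) * v n - (v n * i (y z n) - j (w z) * v n)) := by
    have := Unitary.star_mul_self_of_mem (hv n)
    rw [map_sub]
    calc _ = star (v n) * j z * v n - (star (v n) * v n) * i (y z n) := by rw [this, one_mul]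
      _ = _ := by noncomm_ring
  rw [e, CStarRing.norm_mem_unitary_mul _ (Unitary.star_mem (hv n))]
  refine (norm_sub_le _ _).trans ?_
  rw [CStarRing.norm_mul_mem_unitary _ (hv n)]
  have := NonUnitalStarAlgHom.norm_apply_le j (z - w z)
  have h5 := hwz z
  rw [dist_eq_norm] at h5
  linarith [hn2 z hz]

theorem main : ∃ (Z : Type) (_ : CStarAlgebra Z), IsJiangSu Z ∧
    ∀ (A : Type u) [CStarAlgebra A] [TopologicalSpace.SeparableSpace A] (ω : Ultrafilter ℕ),
      (ω : Filter ℕ) ≤ cofinite → IsEmpty (centralSeq ω A →⋆ₐ[ℂ] ℂ) →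
      ∀ (B : Type v) [CStarAlgebra B] (i : A →⋆ₐ[ℂ] B) (j : Z →⋆ₐ[ℂ] B), Function.Injective i →
        (∀ a z, Commute (i a) (j z)) →
        Dense (Submodule.span ℂ {b | ∃ a z, b = i a * j z} : Set B) → Nonempty (A ≃⋆ₐ[ℂ] B) := by
  obtain ⟨S⟩ := exists_sys
  refine ⟨S.Z, inferInstance, S.isJiangSu, fun A _ _ ω hω h B _ i j hi hc hd => ?_⟩
  exact intertwine i j hi hd fun F T ε hε =>
    local_flip S (fun k hk => drop_centralSeq hω h hk) i j hc F T hε

end Vale.Agent.P101
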