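import Vale.Agent.P101.DD0

/-! Matrix units, unitary paths and patching over the interval. -/

namespace Vale.Agent.P101
open scoped Matrix.Norms.L2Operator unitInterval
universe u

theorem exists_unitsHom {n : Type} [Fintype n] [DecidableEq n] {Q : Type*} [CStarAlgebra Q]
    (e : n → n → Q) (hs : ∀ i j, star (e i j) = e j i)
    (hm : ∀ i j k l, e i j * e k l = if j = k then e i l else 0) (h1 : ∑ i, e i i = 1) :
    ∃ φ : Matrix n n ℂ →⋆ₐ[ℂ] Q, ∀ X, φ X = ∑ i, ∑ j, X i j • e i j := by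
  have one : ∑ i, ∑ j, (1 : Matrix n n ℂ) i j • e i j = 1 := by
    simp [Matrix.one_apply, h1]
  refine ⟨{ toFun := fun X => ∑ i, ∑ j, X i j • e i j, map_one' := one
            map_mul' := fun X Y => ?_, map_zero' := by simp
            map_add' := fun X Y => by simp [add_smul, Finset.sum_add_distrib]
            commutes' := fun c => ?_, map_star' := fun X => ?_ }, fun X => rfl⟩
  · rw [Finset.sum_mul]
    refine Finset.sum_congr rfl fun i _ => ?_
    simp only [Matrix.mul_apply, Finset.sum_smul]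
    rw [Finset.sum_comm, Finset.sum_mul]
    refine Finset.sum_congr rfl fun j _ => ?_
    simp only [Finset.mul_sum, smul_mul_smul_comm, hm, smul_ite, smul_zero]
    rw [Finset.sum_comm]
    simp
  · simp only [Algebra.algebraMap_eq_smul_one, Matrix.smul_apply, smul_eq_mul, mul_smul,
      ← Finset.smul_sum, one]
  · simp only [star_sum, star_smul, hs, Matrix.star_apply]
    exact Finset.sum_comm

private theorem unitary_path' {A : Type*} [CStarAlgebra A] {u : A} (hu : u ∈ unitary A)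
    (hf : (spectrum ℂ u).Finite) :
    ∃ γ : ℝ → A, γ 0 = 1 ∧ γ 1 = u ∧ (∀ s, γ s ∈ unitary A) ∧
      ∀ s t : ℝ, ‖γ s - γ t‖ ≤ 4 * |s - t| := by
  have hn : IsStarNormal u := isStarNormal_of_mem_unitary hu
  have hc : ∀ f : ℂ → ℂ, ContinuousOn f (spectrum ℂ u) := fun f => hf.continuousOn f
  refine ⟨fun s => cfc (fun z : ℂ => Complex.exp (Complex.I * (s * z.arg : ℝ))) u, ?_, ?_,
    fun s => ?_, fun s t => ?_⟩
  · simp [cfc_const_one ℂ u]
  · conv_rhs => rw [← cfc_id' ℂ u]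
    refine cfc_congr fun z hz => ?_
    have h1 : ‖z‖ = 1 := by simpa using spectrum.subset_circle_of_unitary hu hz
    have := Complex.norm_mul_exp_arg_mul_I z
    simpa [h1, mul_comm] using this
  · rw [cfc_unitary_iff _ _ hn (hc _)]
    intro z _
    rw [Complex.star_def, ← Complex.exp_conj, ← Complex.exp_add]
    simp
  · rw [← cfc_sub _ _ _ (hc _) (hc _)]
    refine norm_cfc_le (by positivity) fun z _ => ?_
    have e : Complex.exp (Complex.I * (s * z.arg : ℝ)) - Complex.exp (Complex.I * (t * z.arg : ℝ)) =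
        Complex.exp (Complex.I * (t * z.arg : ℝ)) *
          (Complex.exp (Complex.I * ((s - t) * z.arg : ℝ)) - 1) := by
      rw [mul_sub, ← Complex.exp_add, mul_one]
      congr 2
      push_cast
      ring
    rw [e, norm_mul, Complex.norm_exp_I_mul_ofReal, one_mul]
    refine Real.norm_exp_I_mul_ofReal_sub_one_le.trans ?_
    rw [Real.norm_eq_abs, abs_mul, mul_comm]
    exact mul_le_mul_of_nonneg_right ((Complex.abs_arg_le_pi z).trans Real.pi_le_four)
      (abs_nonneg _)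

theorem unitary_path {n : Type} [Fintype n] [DecidableEq n] {u : Matrix n n ℂ}
    (hu : u ∈ unitary (Matrix n n ℂ)) :
    ∃ γ : C(I, Matrix n n ℂ), γ 0 = 1 ∧ γ 1 = u ∧ (∀ s, γ s ∈ unitary (Matrix n n ℂ)) ∧
      ∀ s t : I, ‖γ s - γ t‖ ≤ 4 * |(s : ℝ) - t| := by
  obtain ⟨γ, h0, h1, h2, h3⟩ := unitary_path' hu (Matrix.finite_spectrum u)
  have hc : Continuous γ := by
    refine (LipschitzWith.of_dist_le_mul (K := 4) fun s t => ?_).continuous
    rw [dist_eq_norm, Real.dist_eq]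
    exact h3 s t
  exact ⟨⟨fun s => γ s, hc.comp continuous_subtype_val⟩, h0, h1, fun s => h2 s,
    fun s t => h3 s t⟩

/-- complex valued functions of a self-adjoint element -/
private noncomputable def kap {G : Type*} [CStarAlgebra G] (H : G) (g : ℝ → ℂ) : G :=
  cfc (fun t => (g t).re) H + Complex.I • cfc (fun t => (g t).im) H

private lemma map_kap {G Q : Type*} [CStarAlgebra G] [CStarAlgebra Q] (π : G →⋆ₐ[ℂ] Q) {H : G}
    (hH : IsSelfAdjoint H) {t : ℝ} (ht : π H = algebraMap ℝ Q t) {g : ℝ → ℂ} (hg : Continuous g)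
    (y : G) : π (kap H g * y) = g t • π y := by
  rw [map_mul, kap, map_add, map_smul, map_cfc_real π (by fun_prop) hH,
    map_cfc_real π (by fun_prop) hH, ht, cfc_algebraMap, cfc_algebraMap,
    Algebra.algebraMap_eq_smul_one, Algebra.algebraMap_eq_smul_one, ← Complex.coe_smul,
    ← Complex.coe_smul, smul_smul, ← add_smul, smul_mul_assoc, one_mul, mul_comm,
    Complex.re_add_im]

private lemma hom_of_fibres {D M : Type} [CStarAlgebra D] [Ring M] [StarRing M] [Algebra ℂ M]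
    {G : Type u} [CStarAlgebra G] (Φ : D → G)
    (h : ∀ P : PQ G, ∃ (N : Type) (_ : Ring N) (_ : StarRing N) (_ : Algebra ℂ N)
      (η : N →⋆ₐ[ℂ] M) (φ : N →⋆ₐ[ℂ] P.Q) (e : D →⋆ₐ[ℂ] M), (∀ d, ∃ X, e d = η X) ∧
        ∀ d X, e d = η X → P.π (Φ d) = φ X) : Nonempty (D →⋆ₐ[ℂ] G) := by
  refine ⟨{ toFun := Φ, map_one' := eq_of_pq fun P => ?_
            map_mul' := fun x y => eq_of_pq fun P => ?_, map_zero' := eq_of_pq fun P => ?_
            map_add' := fun x y => eq_of_pq fun P => ?_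
            commutes' := fun c => eq_of_pq fun P => ?_
            map_star' := fun x => eq_of_pq fun P => ?_ }⟩
  all_goals obtain ⟨N, _, _, _, η, φ, e, h1, h2⟩ := h P
  · rw [h2 1 1 (by simp), map_one, map_one]
  · obtain ⟨X, hX⟩ := h1 x
    obtain ⟨Y, hY⟩ := h1 y
    rw [map_mul, h2 x X hX, h2 y Y hY, h2 _ (X * Y) (by simp [hX, hY]), map_mul]
  · rw [h2 0 0 (by simp), map_zero, map_zero]
  · obtain ⟨X, hX⟩ := h1 x
    obtain ⟨Y, hY⟩ := h1 y
    rw [map_add, h2 x X hX, h2 y Y hY, h2 _ (X + Y) (by simp [hX, hY]), map_add]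
  · rw [h2 _ (algebraMap ℂ N c) (by rw [AlgHomClass.commutes, AlgHomClass.commutes]),
      AlgHomClass.commutes, AlgHomClass.commutes]
  · obtain ⟨X, hX⟩ := h1 x
    rw [map_star, h2 x X hX, h2 _ (star X) (by rw [map_star, map_star, hX]), map_star]

theorem patch1 {n a b : Type} [Fintype n] [DecidableEq n] [Fintype a] [DecidableEq a] [Fintype b]
    [DecidableEq b] {D : Type} [CStarAlgebra D] (e : D →⋆ₐ[ℂ] C(I, Matrix n n ℂ))
    (η₀ : Matrix a a ℂ →⋆ₐ[ℂ] Matrix n n ℂ) (η₁ : Matrix b b ℂ →⋆ₐ[ℂ] Matrix n n ℂ)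
    (h0 : ∀ d, ∃ X, e d 0 = η₀ X) (h1 : ∀ d, ∃ Y, e d 1 = η₁ Y)
    {G : Type u} [CStarAlgebra G] {H : G} (hH : IsSelfAdjoint H) (hc : ∀ g, Commute H g)
    (Λ₀ Λ₁ Λm : Matrix n n ℂ →ₗ[ℂ] G)
    (hfib : ∀ (P : PQ G) (t : ℝ), P.π H = algebraMap ℝ P.Q t → 0 ≤ t ∧ t ≤ 1 ∧
      (t < 1 → ∃ φ : Matrix a a ℂ →⋆ₐ[ℂ] P.Q, ∀ X, P.π (Λ₀ (η₀ X)) = (1 - t) • φ X) ∧
      (0 < t → ∃ φ : Matrix b b ℂ →⋆ₐ[ℂ] P.Q, ∀ Y, P.π (Λ₁ (η₁ Y)) = t • φ Y) ∧
      (0 < t → t < 1 → ∃ φ : Matrix n n ℂ →⋆ₐ[ℂ] P.Q, (∀ X, P.π (Λm X) = (t * (1 - t)) • φ X) ∧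
        (∀ X, P.π (Λ₀ (η₀ X)) = (1 - t) • φ (η₀ X)) ∧ ∀ Y, P.π (Λ₁ (η₁ Y)) = t • φ (η₁ Y))) :
    Nonempty (D →⋆ₐ[ℂ] G) := by
  obtain ⟨ρ, hρc, hρ⟩ : ∃ ρ : ℝ → I, Continuous ρ ∧ ∀ t, (ρ t : ℝ) = max 0 (min 1 (3 * t - 1)) :=
    ⟨fun t => Set.projIcc 0 1 zero_le_one (3 * t - 1), continuous_projIcc.comp (by fun_prop),
      fun _ => rfl⟩
  obtain ⟨m, hmc, hm0, hm⟩ : ∃ m : ℝ → ℂ, Continuous m ∧ (∀ t, m t ≠ 0) ∧
      ∀ t, 1 / 3 ≤ t → m t = t :=
    ⟨fun t => ((max t (1 / 3) : ℝ) : ℂ), by fun_prop, fun t => Complex.ofReal_ne_zero.2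
      (lt_of_lt_of_le (by norm_num) (le_max_right _ _)).ne', fun t ht => by simp only [max_eq_left ht]⟩
  obtain ⟨r, hrc, hr⟩ : ∃ r : ℝ → ℂ, Continuous r ∧ ∀ t, r t = ((ρ t : ℝ) : ℂ) :=
    ⟨_, by fun_prop, fun _ => rfl⟩
  let ev : I → C(I, Matrix n n ℂ) →⋆ₐ[ℂ] Matrix n n ℂ := fun s =>
    { toFun := fun f => f s, map_one' := rfl, map_mul' := fun _ _ => rfl, map_zero' := rfl
      map_add' := fun _ _ => rfl, commutes' := fun _ => rfl, map_star' := fun _ => rfl }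
  obtain ⟨W, hW⟩ : ∃ W : D → ℝ → Matrix n n ℂ,
      ∀ d t, W d t = e d (ρ t) - (1 - r t) • e d 0 - r t • e d 1 := ⟨_, fun _ _ => rfl⟩
  have hWc : ∀ d x y, Continuous fun t => W d t x y / (m t * m (1 - t)) := by
    intro d x y
    have : Continuous fun t => W d t := by
      simp only [hW]
      fun_prop
    exact Continuous.div (this.matrix_elem x y) (by fun_prop)
      fun t => mul_ne_zero (hm0 _) (hm0 _)
  have c0 : Continuous fun t => (1 - r t) / m (1 - t) :=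
    Continuous.div (by fun_prop) (by fun_prop) fun t => hm0 _
  have c1 : Continuous fun t => r t / m t := hrc.div hmc hm0
  refine hom_of_fibres (M := Matrix n n ℂ) (fun d =>
    kap H (fun t => (1 - r t) / m (1 - t)) * Λ₀ (e d 0) + kap H (fun t => r t / m t) * Λ₁ (e d 1) +
      ∑ x, ∑ y, kap H (fun t => W d t x y / (m t * m (1 - t))) * Λm (Matrix.single x y 1))
    fun P => ?_
  obtain ⟨t, ht⟩ := P.scalar hH hc
  obtain ⟨-, -, f0, f1, fm⟩ := hfib P t ht
  simp only [map_add, map_sum, map_kap P.π hH ht c0, map_kap P.π hH ht c1,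
    map_kap P.π hH ht (hWc _ _ _)]
  rcases le_or_gt t (1 / 3) with h3 | h3
  · obtain ⟨φ, hφ⟩ := f0 (by linarith)
    have e1 : ρ t = 0 := Subtype.ext (by rw [hρ, max_eq_left (min_le_of_right_le (by linarith))]; rfl)
    have e2 : r t = 0 := by simp [hr, e1]
    refine ⟨_, inferInstance, inferInstance, inferInstance, η₀, φ, (ev 0).comp e, h0,
      fun d X hX => ?_⟩
    have hX' : e d 0 = η₀ X := hX
    have := hm0 (1 - t)
    rw [hm _ (by linarith)] at this
    simp only [hW, e1, e2, hX', hφ, hm (1 - t) (by linarith), ← Complex.coe_smul, smul_smul]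
    simp [-Complex.ofReal_sub, inv_mul_cancel₀ this]
  rcases le_or_gt (2 / 3) t with h4 | h4
  · obtain ⟨φ, hφ⟩ := f1 (by linarith)
    have e1 : ρ t = 1 := Subtype.ext (by
      rw [hρ, min_eq_left (by linarith), max_eq_right zero_le_one]; rfl)
    have e2 : r t = 1 := by simp [hr, e1]
    refine ⟨_, inferInstance, inferInstance, inferInstance, η₁, φ, (ev 1).comp e, h1,
      fun d X hX => ?_⟩
    have hX' : e d 1 = η₁ X := hX
    have := hm0 t
    rw [hm _ (by linarith)] at this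
    simp only [hW, e1, e2, hX', hφ, hm t (by linarith), ← Complex.coe_smul, smul_smul]
    simp [inv_mul_cancel₀ this]
  obtain ⟨φ, a1, a2, a3⟩ := fm (by linarith) (by linarith)
  refine ⟨_, inferInstance, inferInstance, inferInstance, StarAlgHom.id ℂ _, φ, (ev (ρ t)).comp e,
    fun d => ⟨_, rfl⟩, fun d X hX => ?_⟩
  have hX' : e d (ρ t) = X := hX
  obtain ⟨X0, hX0⟩ := h0 d
  obtain ⟨X1, hX1⟩ := h1 d
  have n0 := hm0 (1 - t)
  have n1 := hm0 t
  rw [hm _ (by linarith)] at n0 n1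
  have e3 : φ (W d t) = ∑ x, ∑ y, W d t x y • φ (Matrix.single x y 1) := by
    conv_lhs => rw [Matrix.matrix_eq_sum_single (W d t)]
    simp only [map_sum, ← map_smul, Matrix.smul_single, smul_eq_mul, mul_one]
  simp only [hX0, hX1, a1, a2, a3, hm t (by linarith), hm (1 - t) (by linarith),
    ← Complex.coe_smul, smul_smul, Complex.ofReal_mul, div_mul_cancel₀ _ n0, div_mul_cancel₀ _ n1,
    div_mul_cancel₀ _ (mul_ne_zero n1 n0)]
  rw [← e3, hW, hX0, hX1, hX', map_sub, map_sub, map_smul, map_smul]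
  abel

end Vale.Agent.P101
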