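import Vale.Agent.P101.Api

/-! Testing identities in prime quotients. -/

namespace Vale.Agent.P101
open scoped CStarAlgebra
universe u v
variable {G : Type u} [CStarAlgebra G]

/-- A two-sided ideal from closure properties of a set. -/
def mkIdeal {Q : Type*} [Ring Q] (s : Set Q) (h0 : 0 ∈ s) (ha : ∀ a ∈ s, ∀ b ∈ s, a + b ∈ s)
    (hl : ∀ c, ∀ a ∈ s, c * a ∈ s) : Ideal Q where
  carrier := s
  add_mem' {a b} h h' := ha a h b h'
  zero_mem' := h0
  smul_mem' c a h := hl c a h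

lemma norm_mk_lt_of {I : Ideal G} [StarIdeal I] [IsClosed (I : Set G)] {z j : G} (hj : j ∈ I) :
    ‖Quo.mk I z‖ ≤ ‖z - j‖ := by
  have : Quo.mk I z = Quo.mk I (z - j) := by rw [map_sub, (Quo.mk_eq_zero I).2 hj, sub_zero]
  rw [this]
  exact Quo.norm_mk_le I _

lemma le_norm_mk {I : Ideal G} [StarIdeal I] [IsClosed (I : Set G)] {z : G} {ε : ℝ}
    (h : ∀ j ∈ I, ε ≤ ‖z - j‖) : ε ≤ ‖Quo.mk I z‖ := by
  refine le_of_forall_pos_le_add fun δ hδ => ?_
  obtain ⟨a, ha, hn⟩ := Quo.norm_mk_lt I (Quo.mk I z) hδ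
  have := h (z - a) (by rw [← Quo.mk_eq_zero, map_sub, ha, sub_self])
  rw [sub_sub_cancel] at this
  linarith

lemma closure_twoSided (I : Ideal G) [I.IsTwoSided] : I.closure.IsTwoSided where
  mul_mem_of_left {a} b ha :=
    map_mem_closure (f := fun x => x * b) (by fun_prop) ha fun _ hx => I.mul_mem_right b hx

theorem PQ.exists_norm (J : Ideal G) [J.IsTwoSided] (z : G) {ε : ℝ} (hε : 0 < ε)
    (h : ∀ j ∈ J, ε ≤ ‖z - j‖) : ∃ P : PQ G, (∀ j ∈ J, P.π j = 0) ∧ ε ≤ ‖P.π z‖ := by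
  let S : Set (Ideal G) := {I | I.IsTwoSided ∧ ∀ j ∈ I, ε ≤ ‖z - j‖}
  obtain ⟨I, hJI, hI⟩ := zorn_le_nonempty₀ S (fun c hc hch y hy => by
    refine ⟨sSup c, ⟨⟨fun {a} b ha => ?_⟩, fun j hj => ?_⟩, fun _ hx => le_sSup hx⟩
    · obtain ⟨K, hK, ha⟩ := (Submodule.mem_sSup_of_directed ⟨y, hy⟩ hch.directedOn).1 ha
      have := (hc hK).1
      exact (le_sSup hK : K ≤ _) (Ideal.mul_mem_right b K ha)
    · obtain ⟨K, hK, hj⟩ := (Submodule.mem_sSup_of_directed ⟨y, hy⟩ hch.directedOn).1 hj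
      exact (hc hK).2 j hj) J ⟨inferInstance, h⟩
  have h2 := hI.prop.1
  have hcl : IsClosed (I : Set G) := by
    have : I.closure ≤ I := hI.le_of_ge ⟨closure_twoSided I, fun j hj =>
      (isClosed_le (f := fun _ => ε) (g := fun j => ‖z - j‖) continuous_const
        (by fun_prop)).closure_subset_iff.2 (fun j hj => hI.prop.2 j hj) hj⟩
      fun _ hx => subset_closure hx
    exact closure_subset_iff_isClosed.1 this
  have hst := starIdeal_of_isClosed I hcl
  have hz : ε ≤ ‖Quo.mk I z‖ := le_norm_mk hI.prop.2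
  have hnt : Nontrivial (Quo I) := ⟨Quo.mk I z, 0, fun h0 => by
    rw [h0, norm_zero] at hz; linarith⟩
  -- a nonzero closed ideal of the quotient decreases the norm of `z`
  have key : ∀ (K : Ideal (Quo I)) [StarIdeal K] [IsClosed (K : Set (Quo I))], K ≠ ⊥ →
      ‖Quo.mk K (Quo.mk I z)‖ < ε := by
    intro K _ _ hK
    by_contra hlt
    let K' : Ideal G := K.comap (Quo.mk I : G →+* Quo I)
    have hle : I ≤ K' := fun x hx => by
      change Quo.mk I x ∈ K
      rw [(Quo.mk_eq_zero I).2 hx]; exact K.zero_mem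
    have : K' ≤ I := hI.le_of_ge ⟨inferInstance, fun j hj => by
      refine (not_lt.1 hlt).trans ((norm_mk_lt_of (j := Quo.mk I j) hj).trans ?_)
      rw [← map_sub]; exact Quo.norm_mk_le I _⟩ hle
    refine hK (eq_bot_iff.2 fun x hx => ?_)
    obtain ⟨a, rfl⟩ := Quo.mk_surj I x
    exact (Quo.mk_eq_zero I).2 (this hx)
  refine ⟨⟨Quo I, Quo.mk I, Quo.mk_surj I, fun a b hab => ?_⟩,
    fun j hj => (Quo.mk_eq_zero I).2 (hJI hj), hz⟩
  by_contra hne
  push Not at hne
  let J₁ : Ideal (Quo I) := mkIdeal {x | ∀ y, x * y * b = 0} (by simp)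
    (fun x hx x' hx' y => by rw [add_mul, add_mul, hx y, hx' y, add_zero])
    (fun c x hx y => by rw [mul_assoc c, mul_assoc c, hx y, mul_zero])
  let J₂ : Ideal (Quo I) := mkIdeal {x | ∀ w ∈ J₁, ∀ y, w * y * x = 0} (by simp)
    (fun x hx x' hx' w hw y => by rw [mul_add, hx w hw y, hx' w hw y, add_zero])
    (fun c x hx w hw y => by rw [← mul_assoc, mul_assoc w, hx w hw])
  have t₁ : J₁.IsTwoSided := ⟨fun {x} c hx y => by rw [mul_assoc x]; exact hx _⟩
  have t₂ : J₂.IsTwoSided := ⟨fun {x} c hx w hw y => by rw [← mul_assoc, hx w hw y, zero_mul]⟩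
  have c₁ : IsClosed (J₁ : Set (Quo I)) := by
    change IsClosed {x : Quo I | ∀ y, x * y * b = 0}
    rw [Set.ofPred_forall]
    exact isClosed_iInter fun y => isClosed_eq (by fun_prop) continuous_const
  have c₂ : IsClosed (J₂ : Set (Quo I)) := by
    change IsClosed {x : Quo I | ∀ w ∈ J₁, ∀ y, w * y * x = 0}
    simp only [Set.ofPred_forall]
    exact isClosed_iInter fun w => isClosed_iInter fun _ => isClosed_iInter fun y =>
      isClosed_eq (by fun_prop) continuous_const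
  have s₁ := starIdeal_of_isClosed J₁ c₁
  have s₂ := starIdeal_of_isClosed J₂ c₂
  have k₁ := key J₁ fun h0 => hne.1 (by have : a ∈ J₁ := hab; rwa [h0] at this)
  have k₂ := key J₂ fun h0 => hne.2 (by have : b ∈ J₂ := fun w hw => hw; rwa [h0] at this)
  have hinj : Function.Injective ((Quo.mk J₁).prod (Quo.mk J₂)) := by
    rw [injective_iff_map_eq_zero]
    intro x hx
    have h1 : x ∈ J₁ := (Quo.mk_eq_zero J₁).1 (congrArg Prod.fst hx)
    have h3 : x ∈ J₂ := (Quo.mk_eq_zero J₂).1 (congrArg Prod.snd hx)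
    have h4 : star (star x * x) * (star x * x) = 0 := by
      rw [star_mul, star_star, mul_assoc, ← mul_assoc x, h3 x h1, mul_zero]
    exact (CStarRing.star_mul_self_eq_zero_iff x).1 ((CStarRing.star_mul_self_eq_zero_iff _).1 h4)
  have := NonUnitalStarAlgHom.norm_map _ hinj (Quo.mk I z)
  have h5 : ‖((Quo.mk J₁).prod (Quo.mk J₂)) (Quo.mk I z)‖ < ε := max_lt k₁ k₂
  linarith

theorem norm_le_of_pq {z : G} {r : ℝ} (hr : 0 ≤ r) (h : ∀ P : PQ G, ‖P.π z‖ ≤ r) : ‖z‖ ≤ r := by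
  by_contra hlt
  obtain ⟨P, -, hP⟩ := PQ.exists_norm (⊥ : Ideal G) z (ε := ‖z‖) (by linarith)
    (fun j hj => by rw [Ideal.mem_bot.1 hj, sub_zero])
  linarith [h P]

theorem eq_of_pq {a b : G} (h : ∀ P : PQ G, P.π a = P.π b) : a = b := by
  rw [← sub_eq_zero, ← norm_le_zero_iff]
  exact norm_le_of_pq le_rfl fun P => by rw [map_sub, h P, sub_self, norm_zero]

/-- Central self-adjoint elements become scalars. -/
theorem PQ.scalar (P : PQ G) {c : G} (hs : IsSelfAdjoint c) (hc : ∀ g, Commute c g) :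
    ∃ t : ℝ, P.π c = algebraMap ℝ P.Q t := by
  have hs' := hs.map P.π
  refine scalar_of_orth hs' fun f g hf hg hfg => P.prime _ _ fun y => ?_
  obtain ⟨y, rfl⟩ := P.surj y
  rw [(((hc y).map P.π).cfc_real f).eq, mul_assoc, ← cfc_mul ..]
  simp [hfg]

theorem full_of_pq {ι : Type*} (x : ι → G) (h : ∀ P : PQ G, ∃ c, P.π (x c) ≠ 0) : Full x := by
  let J : Ideal G := mkIdeal
    {z | ∃ (m : ℕ) (c : Fin m → ι) (u v : Fin m → G), ∑ t, u t * x (c t) * v t = z}
    ⟨0, Fin.elim0, Fin.elim0, Fin.elim0, by simp⟩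
    (by
      rintro _ ⟨m, c, u, v, rfl⟩ _ ⟨m', c', u', v', rfl⟩
      exact ⟨m + m', Fin.append c c', Fin.append u u', Fin.append v v', by
        simp [Fin.sum_univ_add]⟩)
    (by
      rintro a _ ⟨m, c, u, v, rfl⟩
      exact ⟨m, c, fun t => a * u t, v, by simp [Finset.mul_sum, mul_assoc]⟩)
  have : J.IsTwoSided := ⟨by
    rintro _ b ⟨m, c, u, v, rfl⟩
    exact ⟨m, c, u, fun t => v t * b, by simp [Finset.sum_mul, mul_assoc]⟩⟩
  by_contra hf
  obtain ⟨P, hP, -⟩ := PQ.exists_norm J 1 one_pos fun j hj => by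
    by_contra hlt
    have hu : IsUnit j := by simpa using (Units.oneSub (1 - j) (not_le.1 hlt)).isUnit
    exact hf ((Ideal.eq_top_iff_one J).1 (J.eq_top_of_isUnit_mem hj hu))
  obtain ⟨c, hc⟩ := h P
  exact hc (hP _ ⟨1, fun _ => c, fun _ => 1, fun _ => 1, by simp⟩)

theorem Full.bound {ι : Type*} {x : ι → G} (h : Full x) : ∃ γ : ℝ, 0 < γ ∧
    ∀ (Q : Type v) [CStarAlgebra Q] [Nontrivial Q] (π : G →⋆ₐ[ℂ] Q), ∃ c, γ ≤ ‖π (x c)‖ := by
  obtain ⟨m, c, u, v, h⟩ := h
  have hS : 0 ≤ ∑ t, ‖u t‖ * ‖v t‖ := Finset.sum_nonneg fun _ _ => by positivity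
  refine ⟨(∑ t, ‖u t‖ * ‖v t‖ + 1)⁻¹, by positivity, fun Q _ _ π => ?_⟩
  by_contra hn
  push Not at hn
  have h1 : ‖π 1‖ ≤ ∑ t, ‖u t‖ * ‖v t‖ * (∑ t, ‖u t‖ * ‖v t‖ + 1)⁻¹ := by
    rw [← h, map_sum]
    refine (norm_sum_le _ _).trans (Finset.sum_le_sum fun t _ => ?_)
    rw [map_mul, map_mul]
    refine (norm_mul₃_le ..).trans ?_
    rw [mul_right_comm]
    gcongr
    · exact NonUnitalStarAlgHom.norm_apply_le π _
    · exact NonUnitalStarAlgHom.norm_apply_le π _
    · exact (hn _).le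
  rw [map_one, norm_one, ← Finset.sum_mul, ← div_eq_mul_inv, le_div_iff₀ (by positivity)] at h1
  linarith

theorem Full.map {ι H : Type*} [CStarAlgebra H] {x : ι → G} (h : Full x) (π : G →⋆ₐ[ℂ] H) :
    Full fun c => π (x c) := by
  obtain ⟨m, c, u, v, h⟩ := h
  exact ⟨m, c, fun t => π (u t), fun t => π (v t), by simpa using congrArg π h⟩

/-- To show `φ z * ξ = 0` test in prime quotients killing the central annihilators of `ξ`. -/
theorem ann_of_pq {H : Type*} [CStarAlgebra H] (φ : G →⋆ₐ[ℂ] H) (ξ : H) (z : G)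
    (h : ∀ P : PQ G, (∀ c, (∀ g, Commute c g) → φ c * ξ = 0 → P.π c = 0) → P.π z = 0) :
    φ z * ξ = 0 := by
  let J : Ideal G := mkIdeal {a | ∀ b, φ (a * b) * ξ = 0} (by simp)
    (fun a ha a' ha' b => by rw [add_mul, map_add, add_mul, ha b, ha' b, add_zero])
    (fun c a ha b => by rw [mul_assoc, map_mul, mul_assoc, ha b, mul_zero])
  have : J.IsTwoSided := ⟨fun {a} c ha b => by rw [mul_assoc a]; exact ha _⟩
  by_contra hz
  have hξ : 0 < ‖ξ‖ := norm_pos_iff.2 fun h0 => hz (by rw [h0, mul_zero])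
  have hp : 0 < ‖φ z * ξ‖ / ‖ξ‖ := div_pos (norm_pos_iff.2 hz) hξ
  obtain ⟨P, hP, hn⟩ := PQ.exists_norm J z hp fun j hj => by
    have h1 : φ z * ξ = φ (z - j) * ξ := by
      have := hj 1
      rw [mul_one] at this
      rw [map_sub, sub_mul, this, sub_zero]
    rw [div_le_iff₀ hξ, h1]
    exact (norm_mul_le _ _).trans (mul_le_mul_of_nonneg_right
      (NonUnitalStarAlgHom.norm_apply_le φ _) hξ.le)
  rw [h P fun c hc h0 => hP c fun b => by rw [(hc b).eq, map_mul, mul_assoc, h0, mul_zero],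
    norm_zero] at hn
  linarith

/-- Every nonzero unital homomorphism dominates a prime quotient. -/
theorem exists_pq_le {H : Type*} [CStarAlgebra H] [Nontrivial H] (φ : G →⋆ₐ[ℂ] H) :
    ∃ P : PQ G, ∀ g, φ g = 0 → P.π g = 0 := by
  obtain ⟨P, hP, -⟩ := PQ.exists_norm (RingHom.ker (φ : G →+* H)) 1 one_pos fun j hj => by
    have h1 : φ j = 0 := hj
    have := NonUnitalStarAlgHom.norm_apply_le φ (1 - j)
    rwa [map_sub, map_one, h1, sub_zero, norm_one] at this
  exact ⟨P, hP⟩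

/-- Tensor independence of `D` and its commutant in prime quotients. -/
def Split (D : Set G) : Prop :=
  ∀ P : PQ G, ∀ a ∈ bicomm D, ∀ b ∈ cent D, P.π a * P.π b = 0 → P.π a = 0 ∨ P.π b = 0

theorem split_of_dense {D T : Set G} (hT : T ⊆ cent D)
    (h : (StarAlgebra.adjoin ℂ (D ∪ T)).topologicalClosure = ⊤) : Split D := by
  intro P a ha b hb hab
  let W : Set G := {c | ∀ d ∈ bicomm D, P.π (a * d * c * b) = 0}
  let L : Subalgebra ℂ G :=
    { carrier := {g | ∀ c ∈ W, g * c ∈ W}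
      mul_mem' := fun {g g'} hg hg' c hc => by rw [mul_assoc]; exact hg _ (hg' c hc)
      add_mem' := fun {g g'} hg hg' c hc d hd => by
        rw [add_mul, mul_add, add_mul, map_add, hg c hc d hd, hg' c hc d hd, add_zero]
      algebraMap_mem' := fun r c hc d hd => by
        rw [← Algebra.smul_def, mul_smul_comm, smul_mul_assoc, map_smul, hc d hd, smul_zero] }
  have hD : ∀ s ∈ bicomm D, s ∈ L := fun s hs c hc d hd => by
    have := hc _ (mul_mem hd hs)
    simpa only [mul_assoc] using this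
  have hC : ∀ t ∈ cent D, t ∈ L := fun t ht c hc d hd => by
    have := (mem_bicomm.1 (mul_mem ha hd) t ht).eq
    rw [← mul_assoc (a * d), ← this, mul_assoc t, mul_assoc t, map_mul, hc d hd, mul_zero]
  have hcl : IsClosed (L : Set G) := by
    change IsClosed {g : G | ∀ c ∈ W, ∀ d ∈ bicomm D, P.π (a * d * (g * c) * b) = 0}
    simp only [Set.ofPred_forall]
    exact isClosed_iInter fun w => isClosed_iInter fun _ => isClosed_iInter fun y =>
      isClosed_iInter fun _ => isClosed_eq (by fun_prop) continuous_const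
  have hle : (StarAlgebra.adjoin ℂ (D ∪ T)).toSubalgebra ≤ L := by
    rw [StarAlgebra.adjoin_toSubalgebra, Algebra.adjoin_le_iff]
    rintro g ((hg | hg) | (hg | hg))
    · exact hD g (subset_bicomm D hg)
    · exact hC g (hT hg)
    · exact hD g (by simpa using star_mem (subset_bicomm D hg))
    · exact hC g (by simpa using star_mem (hT hg))
  have hall : ∀ g, g ∈ L := fun g => by
    have : g ∈ (StarAlgebra.adjoin ℂ (D ∪ T)).topologicalClosure := h ▸ trivial
    exact hcl.closure_subset_iff.2 hle this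
  have h1 : (1 : G) ∈ W := fun d hd => by
    rw [mul_one, mul_assoc, ← (mem_bicomm.1 hd b hb).eq, ← mul_assoc, map_mul, map_mul, hab,
      zero_mul]
  refine P.prime _ _ fun y => ?_
  obtain ⟨y, rfl⟩ := P.surj y
  simpa using hall y 1 h1 1 (one_mem _)

/-- The closed star subalgebra generated by `S` is generated by the preimage of `S`. -/
theorem closure_adjoin_preimage (S : Set G) :
    (StarAlgebra.adjoin ℂ (((↑) : (StarAlgebra.adjoin ℂ S).topologicalClosure → G) ⁻¹' S)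
      ).topologicalClosure = ⊤ := by
  set B := (StarAlgebra.adjoin ℂ S).topologicalClosure
  set T := StarAlgebra.adjoin ℂ (((↑) : B → G) ⁻¹' S)
  have hSB : StarAlgebra.adjoin ℂ S ≤ B := StarSubalgebra.le_topologicalClosure _
  have h1 : StarAlgebra.adjoin ℂ S ≤ T.map B.subtype := StarAlgebra.adjoin_le fun s hs =>
    ⟨⟨s, hSB (StarAlgebra.subset_adjoin ℂ S hs)⟩, StarAlgebra.subset_adjoin ℂ _ hs, rfl⟩
  refine eq_top_iff.2 fun b _ => ?_
  change b ∈ closure (T : Set B)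
  rw [Topology.IsInducing.subtypeVal.closure_eq_preimage_closure_image]
  exact closure_mono h1 b.2

end Vale.Agent.P101
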