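import Vale.Agent.P101.Defs

/-! The quotient of a C*-algebra by a closed two-sided ideal is a C*-algebra. -/

namespace Vale.Agent.P101

variable {A : Type*} [CStarAlgebra A]

/-- Local approximate unit: `e` lies in every left ideal containing `x`. -/
lemma exists_local_unit (I : Ideal A) {x : A} (hx : x ∈ I) {ε : ℝ} (hε : 0 < ε) :
    ∃ e ∈ I, IsSelfAdjoint e ∧ ‖1 - e‖ ≤ 1 ∧ ‖x * (1 - e)‖ ≤ ε := by
  let _ := CStarAlgebra.spectralOrder A
  have _ := CStarAlgebra.spectralOrderedRing A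
  have hw : 0 ≤ star x * x := star_mul_self_nonneg x
  have hsa : IsSelfAdjoint (star x * x) := hw.isSelfAdjoint
  have hsp : ∀ t ∈ spectrum ℝ (star x * x), 0 ≤ t := fun t ht => spectrum_nonneg_of_nonneg hw ht
  have hpos : ∀ t : ℝ, 0 < ε ^ 2 + |t| := fun t => by positivity
  obtain ⟨g, hc, hg⟩ : ∃ g : ℝ → ℝ, Continuous g ∧ ∀ t, g t = (ε ^ 2 + |t|)⁻¹ :=
    ⟨_, Continuous.inv₀ (by fun_prop) fun t => (hpos t).ne', fun _ => rfl⟩
  set k := cfc (fun t : ℝ => ε ^ 2 * g t) (star x * x) with hk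
  have he : 1 - cfc g (star x * x) * (star x * x) = k := by
    have h1 : cfc (fun t : ℝ => 1 - g t * t) (star x * x) = k := by
      refine cfc_congr fun t ht => ?_
      have := hpos t
      simp only [hg]
      rw [abs_of_nonneg (hsp t ht)] at this ⊢
      field_simp
      ring
    rw [← h1, cfc_sub .., cfc_const_one ℝ _, cfc_mul .., cfc_id' ℝ _]
  have hks : IsSelfAdjoint k := cfc_predicate _ _
  refine ⟨1 - k, ?_, (IsSelfAdjoint.one A).sub hks, ?_, ?_⟩
  · rw [← he, sub_sub_cancel, ← mul_assoc]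
    exact I.mul_mem_left _ hx
  · rw [sub_sub_cancel]
    refine norm_cfc_le zero_le_one fun t _ => ?_
    rw [hg, Real.norm_of_nonneg (by have := hpos t; positivity), ← div_eq_mul_inv,
      div_le_one (hpos t)]
    have := abs_nonneg t
    linarith
  · rw [sub_sub_cancel]
    have h1 : star (x * k) * (x * k) =
        cfc (fun t : ℝ => ε ^ 2 * g t * t * (ε ^ 2 * g t)) (star x * x) := by
      rw [cfc_mul .., cfc_mul .., cfc_id' ℝ _, star_mul, hks.star_eq, ← hk]
      simp only [mul_assoc]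
    have h2 : ‖x * k‖ * ‖x * k‖ ≤ ε * ε := by
      rw [← CStarRing.norm_star_mul_self, h1]
      refine norm_cfc_le (by positivity) fun t ht => ?_
      have h0 := hsp t ht
      have := hpos t
      rw [hg]
      rw [abs_of_nonneg h0] at this ⊢
      rw [Real.norm_of_nonneg (by positivity)]
      have h3 : ε ^ 2 * (ε ^ 2 + t)⁻¹ * t * (ε ^ 2 * (ε ^ 2 + t)⁻¹) =
          ε * ε * ((ε ^ 2 * t) / (ε ^ 2 + t) ^ 2) := by field_simp
      rw [h3]
      refine mul_le_of_le_one_right (by positivity) ?_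
      rw [div_le_one (by positivity)]
      nlinarith [sq_nonneg (ε ^ 2), sq_nonneg t, mul_nonneg (sq_nonneg ε) h0]
    nlinarith

lemma starIdeal_of_isClosed (I : Ideal A) [I.IsTwoSided] (hI : IsClosed (I : Set A)) :
    StarIdeal I where
  star_mem x hx := by
    refine hI.closure_subset (Metric.mem_closure_iff.2 fun ε hε => ?_)
    obtain ⟨e, he, hs, -, h2⟩ := exists_local_unit I hx (half_pos hε)
    refine ⟨e * star x, I.mul_mem_right _ he, ?_⟩
    rw [dist_eq_norm, ← norm_star]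
    have : star (star x - e * star x) = x * (1 - e) := by
      simp [hs.star_eq, mul_sub]
    rw [this]
    linarith

variable (I : Ideal A) [StarIdeal I] [hI : IsClosed (I : Set A)]

omit hI in
lemma Quo.mk_surj (x : Quo I) : ∃ a, Quo.mk I a = x := Ideal.Quotient.mk_surjective x

omit hI in
lemma Quo.mk_eq_zero {a : A} : Quo.mk I a = 0 ↔ a ∈ I := Ideal.Quotient.eq_zero_iff_mem

lemma Quo.norm_mk_lt (x : Quo I) {ε : ℝ} (hε : 0 < ε) : ∃ a, Quo.mk I a = x ∧ ‖a‖ < ‖x‖ + ε :=
  Submodule.Quotient.norm_mk_lt (S := I) x hε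

lemma Quo.norm_mk_le (a : A) : ‖Quo.mk I a‖ ≤ ‖a‖ := Submodule.Quotient.norm_mk_le I a

noncomputable instance : NormedRing (Quo I) where
  __ := (inferInstance : NormedAddCommGroup (Quo I))
  __ := (inferInstance : Ring (Quo I))
  norm_mul_le x y := le_of_forall_pos_le_add fun ε hε => by
    have := ((Metric.nhds_basis_ball.prod_nhds Metric.nhds_basis_ball).tendsto_iff
      Metric.nhds_basis_ball).mp (continuous_mul.tendsto (‖x‖, ‖y‖)) ε hε
    simp only [Set.mem_prod, Metric.mem_ball, and_imp, Prod.forall, Prod.exists] at this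
    rcases this with ⟨ε₁, ε₂, ⟨h₁, h₂⟩, h⟩
    obtain ⟨⟨a, rfl, ha⟩, ⟨b, rfl, hb⟩⟩ := Quo.norm_mk_lt I x h₁, Quo.norm_mk_lt I y h₂
    simp only [dist, abs_sub_lt_iff] at h
    specialize h ‖a‖ ‖b‖ ⟨by linarith, by linarith [Quo.norm_mk_le I a]⟩
      ⟨by linarith, by linarith [Quo.norm_mk_le I b]⟩
    calc
      _ ≤ ‖a‖ * ‖b‖ := by
        rw [← map_mul]; exact (Quo.norm_mk_le I (a * b)).trans (norm_mul_le a b)
      _ ≤ _ := (sub_lt_iff_lt_add'.mp h.1).le

noncomputable instance : NormedAlgebra ℂ (Quo I) where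
  norm_smul_le c x := norm_smul_le (β := A ⧸ I) c x

instance : CStarRing (Quo I) where
  norm_mul_self_le x := le_of_forall_pos_le_add fun ε hε => by
    obtain ⟨a, rfl⟩ := Quo.mk_surj I x
    obtain ⟨b, hb, hn⟩ := Quo.norm_mk_lt I (star (Quo.mk I a) * Quo.mk I a) (half_pos hε)
    have hx : b - star a * a ∈ I := by
      rw [← Quo.mk_eq_zero, map_sub, hb, map_mul, map_star, sub_self]
    obtain ⟨e, he, hs, h1, h2⟩ := exists_local_unit I hx (half_pos hε)
    have h3 : ‖Quo.mk I a‖ ≤ ‖a * (1 - e)‖ := by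
      have : Quo.mk I a = Quo.mk I (a * (1 - e)) := by
        rw [map_mul, map_sub, (Quo.mk_eq_zero I).2 he, map_one, sub_zero, mul_one]
      rw [this]
      exact Quo.norm_mk_le I _
    have h4 : star (a * (1 - e)) * (a * (1 - e)) =
        (1 - e) * (b * (1 - e)) - (1 - e) * ((b - star a * a) * (1 - e)) := by
      rw [star_mul, star_sub, star_one, hs.star_eq]
      noncomm_ring
    have h5 : ∀ y : A, ‖(1 - e) * y‖ ≤ ‖y‖ := fun y =>
      (norm_mul_le _ _).trans (mul_le_of_le_one_left (norm_nonneg _) h1)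
    have h6 : ‖b * (1 - e)‖ ≤ ‖b‖ :=
      (norm_mul_le _ _).trans (mul_le_of_le_one_right (norm_nonneg _) h1)
    calc ‖Quo.mk I a‖ * ‖Quo.mk I a‖ ≤ ‖a * (1 - e)‖ * ‖a * (1 - e)‖ :=
          mul_self_le_mul_self (norm_nonneg _) h3
      _ = _ := by rw [← CStarRing.norm_star_mul_self, h4]
      _ ≤ _ := norm_sub_le _ _
      _ ≤ _ := by linarith [h5 (b * (1 - e)), h5 ((b - star a * a) * (1 - e))]

noncomputable instance : CStarAlgebra (Quo I) where

end Vale.Agent.P101
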