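import Vale.Agent.P101.Two

/-! From no characters to one full square-zero element. -/

namespace Vale.Agent.P101
universe u v
variable {G : Type u} [CStarAlgebra G]

namespace Red

lemma cfc_zero_of {Q : Type*} [CStarAlgebra Q] {a : Q} (ha : IsSelfAdjoint a) {f : ℝ → ℝ}
    (hf : Continuous f) (h : cfc f a = 0) : ∀ t ∈ spectrum ℝ a, f t = 0 := fun _ ht =>
  eqOn_of_cfc_eq_cfc (h.trans (cfc_const_zero ℝ a).symm) hf.continuousOn (by fun_prop) ha ht

lemma cfc_eq_zero {Q : Type*} [CStarAlgebra Q] {a : Q} {f : ℝ → ℝ}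
    (h : ∀ t ∈ spectrum ℝ a, f t = 0) : cfc f a = 0 :=
  (cfc_congr h).trans (cfc_const_zero ℝ a)

lemma spec_nonneg {Q : Type*} [CStarAlgebra Q] (y : Q) : ∀ t ∈ spectrum ℝ (star y * y), 0 ≤ t := by
  let _ := CStarAlgebra.spectralOrder Q
  have _ := CStarAlgebra.spectralOrderedRing Q
  exact fun t ht => spectrum_nonneg_of_nonneg (star_mul_self_nonneg y) ht

/-- The self-commutator. -/
def sg {Q : Type*} [CStarAlgebra Q] (x : Q) : Q := star x * x - x * star x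

section
variable {Q : Type*} [CStarAlgebra Q] {x : Q}

lemma sg_sa (x : Q) : IsSelfAdjoint (sg x) :=
  (IsSelfAdjoint.star_mul_self x).sub (IsSelfAdjoint.mul_star_self x)

lemma map_sg {H : Type*} [CStarAlgebra H] (π : Q →⋆ₐ[ℂ] H) (x : Q) : π (sg x) = sg (π x) := by
  simp [sg, map_star]

lemma sg_flip (nx : x * x = 0) {f : ℝ → ℝ} (hf : Continuous f) :
    cfc f (sg x) * x = x * cfc (fun t => f (-t)) (sg x) := by
  rw [cfc_comp_neg f (sg x) hf.continuousOn (sg_sa x)]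
  refine cfc_intertwine (sg_sa x) (sg_sa x).neg ?_ hf
  simp only [sg, sub_mul, mul_neg, mul_sub, mul_assoc, nx, mul_zero, zero_sub, neg_inj]
  rw [← mul_assoc x x, nx, zero_mul, sub_zero]

lemma sg_left (nx : x * x = 0) {f : ℝ → ℝ} (hf : Continuous f) :
    cfc f (sg x) * x = x * cfc (fun t => f (-t)) (star x * x) := by
  rw [cfc_comp_neg f _ hf.continuousOn (IsSelfAdjoint.star_mul_self x)]
  refine cfc_intertwine (sg_sa x) (IsSelfAdjoint.star_mul_self x).neg ?_ hf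
  simp only [sg, sub_mul, mul_neg, mul_assoc, nx, mul_zero, zero_sub]

lemma sg_right (nx : x * x = 0) {f : ℝ → ℝ} (hf : Continuous f) :
    cfc f (sg x) * star x = star x * cfc f (x * star x) := by
  refine cfc_intertwine (sg_sa x) (IsSelfAdjoint.mul_star_self x) ?_ hf
  have : star x * star x = 0 := by rw [← star_mul, nx, star_zero]
  simp only [sg, sub_mul, mul_assoc, this, mul_zero, sub_zero]

lemma eq_zero_of_neg (nx : x * x = 0) (h : ∀ t ∈ spectrum ℝ (sg x), t ≤ 0) : x = 0 := by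
  have h1 := sg_right nx (f := fun t => max t 0) (by fun_prop)
  rw [cfc_eq_zero fun t ht => max_eq_right (h t ht), zero_mul] at h1
  have h2 : cfc (fun t : ℝ => max t 0) (x * star x) = x * star x := by
    conv_rhs => rw [← cfc_id' ℝ (x * star x)]
    refine cfc_congr fun t ht => max_eq_left ?_
    have := spec_nonneg (star x) t
    rw [star_star] at this
    exact this ht
  rw [h2] at h1
  have h3 : star (star x * x) * (star x * x) = 0 := by
    rw [(IsSelfAdjoint.star_mul_self x).star_eq, ← mul_assoc, mul_assoc (star x) x, ← h1, zero_mul]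
  rw [CStarRing.star_mul_self_eq_zero_iff, CStarRing.star_mul_self_eq_zero_iff] at h3
  exact h3

lemma norm_sq_le (nx : x * x = 0) {c : ℝ} (hc : 0 ≤ c)
    (h : cfc (fun t : ℝ => max (|t| - c) 0) (sg x) * x = 0) : ‖x‖ * ‖x‖ ≤ c := by
  rw [sg_left nx (by fun_prop)] at h
  have h1 : cfc (fun t : ℝ => t * max (|-t| - c) 0) (star x * x) = 0 := by
    rw [cfc_mul .., cfc_id' ℝ (star x * x), mul_assoc, h, mul_zero]
  have h2 := cfc_zero_of (IsSelfAdjoint.star_mul_self x) (by fun_prop) h1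
  rw [← CStarRing.norm_star_mul_self, ← cfc_id' ℝ (star x * x)]
  refine norm_cfc_le hc fun t ht => ?_
  have h3 := spec_nonneg x t ht
  have h4 := h2 t ht
  rw [abs_neg, abs_of_nonneg h3, mul_eq_zero, max_eq_right_iff] at h4
  rw [Real.norm_of_nonneg h3]
  rcases h4 with h4 | h4 <;> linarith

end

/-- A finite set carrying a full square-zero family with its fullness witnesses. -/
def Wit (D : Set G) {n : ℕ} (x : Fin n → G) : Prop :=
  (∀ c, x c ∈ D) ∧ (∀ c, x c * x c = 0) ∧ ∃ (m : ℕ) (c : Fin m → Fin n) (u v : Fin m → G),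
    (∀ t, u t ∈ D) ∧ (∀ t, v t ∈ D) ∧ ∑ t, u t * x (c t) * v t = 1

lemma Wit.copy (hSA : SA G) {D Y : Set G} (hD : D.Finite) (hY : Y.Finite) {n : ℕ} {x : Fin n → G}
    (h : Wit D x) : ∃ (D' : Set G) (x' : Fin n → G), D'.Finite ∧ D' ⊆ cent Y ∧ Wit D' x' := by
  obtain ⟨E, _, π, θ, hk, hl, hc⟩ := hSA D Y hD hY
  choose! e he using hl
  obtain ⟨mx, nx, m, c, u, v, mu, mv, hs⟩ := h
  refine ⟨(fun a => θ (e a)) '' D, fun c => θ (e (x c)), hD.image _, ?_,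
    fun c => ⟨_, mx c, rfl⟩, fun c => ?_, m, c, fun t => θ (e (u t)), fun t => θ (e (v t)),
    fun t => ⟨_, mu t, rfl⟩, fun t => ⟨_, mv t, rfl⟩, ?_⟩
  · rintro _ ⟨a, -, rfl⟩
    refine mem_cent.2 fun s hs => ⟨(hc _ s hs).symm, ?_⟩
    have := (hc (star (e a)) s hs).star_star
    rw [map_star, star_star] at this
    exact this.symm
  · have := hk (e (x c) * e (x c)) 0 (by rw [map_mul, he _ (mx c), nx, map_zero])
    rwa [map_mul, map_zero] at this
  · have := hk (∑ t, e (u t) * e (x (c t)) * e (v t)) 1 (by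
      rw [map_sum, map_one, ← hs]
      exact Finset.sum_congr rfl fun t _ => by
        rw [map_mul, map_mul, he _ (mx _), he _ (mu _), he _ (mv _)])
    simpa only [map_sum, map_mul, map_one] using this

lemma Wit.lift {D : Set G} {n : ℕ} {x : Fin n → G} (h : Wit D x) (B : StarSubalgebra ℂ G)
    [IsClosed (B : Set G)] (hB : D ⊆ B) : ∃ y : Fin n → B, (∀ c, y c ∈ ((↑) : B → G) ⁻¹' D) ∧
      (∀ c, y c * y c = 0) ∧ Full y := by
  obtain ⟨mx, nx, m, c, u, v, mu, mv, hs⟩ := h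
  refine ⟨fun c => ⟨x c, hB (mx c)⟩, mx, fun c => Subtype.ext (nx c), m, c,
    fun t => ⟨u t, hB (mu t)⟩, fun t => ⟨v t, hB (mv t)⟩, Subtype.ext ?_⟩
  simpa using hs

lemma cent_preimage {D D' : Set G} (h : D' ⊆ cent D) (B : StarSubalgebra ℂ G)
    [IsClosed (B : Set G)] : ((↑) : B → G) ⁻¹' D' ⊆ cent (((↑) : B → G) ⁻¹' D) := fun _ ha =>
  mem_cent.2 fun _ hs => ⟨Subtype.ext (mem_cent.1 (h ha) _ hs).1,
    Subtype.ext (mem_cent.1 (h ha) _ hs).2⟩

end Red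
open Red

theorem exists_nil_family (h : IsEmpty (G →⋆ₐ[ℂ] ℂ)) :
    ∃ (n : ℕ) (x : Fin n → G), (∀ c, x c * x c = 0) ∧ Full x := by
  have key : Full fun c : {x : G // x * x = 0} => c.1 := by
    refine full_of_pq _ fun P => ?_
    by_contra hc
    push Not at hc
    have hsc : ∀ a : P.Q, IsSelfAdjoint a → ∃ t : ℝ, a = algebraMap ℝ P.Q t := by
      intro a ha
      obtain ⟨b₀, rfl⟩ := P.surj a
      obtain ⟨b, hb, e⟩ := exists_sa_lift P.π b₀ ha
      refine scalar_of_orth ha fun f g hf hg hfg => P.prime _ _ fun y => ?_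
      obtain ⟨y, rfl⟩ := P.surj y
      have h0 : cfc g b * cfc f b = 0 := by
        rw [← cfc_mul ..]
        exact cfc_eq_zero fun t _ => by rw [mul_comm, hfg]
      have := hc ⟨cfc f b * y * cfc g b, by
        calc _ = cfc f b * y * (cfc g b * cfc f b) * y * cfc g b := by simp only [mul_assoc]
          _ = 0 := by rw [h0]; simp⟩
      simpa only [map_mul, map_cfc_real P.π hf hb, map_cfc_real P.π hg hb, e] using this
    have hb : Function.Bijective (StarAlgHom.ofId ℂ P.Q) := by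
      refine ⟨(algebraMap ℂ P.Q).injective, fun a => ?_⟩
      obtain ⟨s, hs⟩ := hsc _ (realPart a).2
      obtain ⟨t, ht⟩ := hsc _ (imaginaryPart a).2
      refine ⟨s + Complex.I * t, ?_⟩
      conv_rhs => rw [← realPart_add_I_smul_imaginaryPart a, hs, ht]
      change algebraMap ℂ P.Q _ = _
      rw [map_add, map_mul, Algebra.smul_def]
      rfl
    exact h.false (((StarAlgEquiv.ofBijective _ hb).symm : P.Q →⋆ₐ[ℂ] ℂ).comp P.π)
  obtain ⟨m, c, u, v, hs⟩ := key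
  exact ⟨m, fun t => (c t).1, fun t => (c t).2, m, id, u, v, hs⟩

theorem union_letter (S₁ S₂ T : StarSubalgebra ℂ G) (h₁ : IsClosed (S₁ : Set G))
    (l₁ : S₁ ≤ T) (l₂ : S₂ ≤ T) (hc : ∀ a ∈ S₁, ∀ b ∈ S₂, Commute a b) {x x' : G}
    (mx : x ∈ S₁) (mx' : x' ∈ S₂) (nx : x * x = 0) (nx' : x' * x' = 0) {γ : ℝ} (hγ : 0 < γ) :
    ∃ z ∈ T, z * z = 0 ∧ ∀ (Q : Type v) [CStarAlgebra Q] (π : G →⋆ₐ[ℂ] Q),
      (∀ a ∈ S₁, ∀ b ∈ S₂, π a * π b = 0 → π a = 0 ∨ π b = 0) →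
      (γ ≤ ‖π x‖ ∨ π x' ≠ 0) → π z ≠ 0 := by
  have mσ : sg x ∈ S₁ := sub_mem (mul_mem (star_mem mx) mx) (mul_mem mx (star_mem mx))
  have mf : ∀ f : ℝ → ℝ, cfc f (sg x) ∈ S₁ := fun f => cfc_mem (𝕜' := ℂ) f mσ
  have hsa := sg_sa x
  obtain ⟨c, hc0, hcγ⟩ : ∃ c : ℝ, 0 < c ∧ c < γ * γ := ⟨γ * γ / 2, by positivity, by
    have := mul_pos hγ hγ; linarith⟩
  obtain ⟨Gf, cG, hG⟩ : ∃ g : ℝ → ℝ, Continuous g ∧ g = fun t => max (|t| - c) 0 :=
    ⟨_, by fun_prop, rfl⟩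
  obtain ⟨Tf, cT, hT⟩ : ∃ g : ℝ → ℝ, Continuous g ∧ g = fun t => t + max (c - |t|) 0 :=
    ⟨_, by fun_prop, rfl⟩
  obtain ⟨Hf, cH, hH⟩ : ∃ g : ℝ → ℝ, Continuous g ∧ g = fun t => max (t + c) 0 :=
    ⟨_, by fun_prop, rfl⟩
  have cx : ∀ f : ℝ → ℝ, x' * cfc f (sg x) = cfc f (sg x) * x' := fun f =>
    (hc _ (mf f) _ mx').symm.eq
  have cxx : x' * x = x * x' := (hc _ mx _ mx').symm.eq
  have fl : ∀ f : ℝ → ℝ, Continuous f → x * cfc f (sg x) = cfc (fun t => f (-t)) (sg x) * x := by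
    intro f hf
    rw [sg_flip nx (by fun_prop)]
    simp only [neg_neg]
  refine ⟨cfc Gf (sg x) * x + cfc Tf (sg x) * x', add_mem (l₁ (mul_mem (mf _) mx))
    (mul_mem (l₁ (mf _)) (l₂ mx')), ?_, fun Q _ π hsp hal hz => ?_⟩
  · have e : cfc Gf (sg x) * cfc (fun t => Tf (-t)) (sg x) + cfc Tf (sg x) * cfc Gf (sg x) = 0 := by
      rw [← cfc_mul .., ← cfc_mul .., ← cfc_add ..]
      refine cfc_eq_zero fun t _ => ?_
      simp only [hG, hT, abs_neg]
      rcases le_total |t| c with h | h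
      · rw [max_eq_right (by linarith)]; ring
      · rw [max_eq_right (a := c - _) (by linarith)]; ring
    calc _ = cfc Gf (sg x) * (x * cfc Gf (sg x)) * x + cfc Gf (sg x) * (x * cfc Tf (sg x)) * x' +
          cfc Tf (sg x) * (x' * cfc Gf (sg x)) * x + cfc Tf (sg x) * (x' * cfc Tf (sg x)) * x' := by
          noncomm_ring
      _ = cfc Gf (sg x) * cfc (fun t => Gf (-t)) (sg x) * (x * x) +
          cfc Gf (sg x) * cfc (fun t => Tf (-t)) (sg x) * (x * x') +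
          cfc Tf (sg x) * cfc Gf (sg x) * (x' * x) + cfc Tf (sg x) * cfc Tf (sg x) * (x' * x') := by
          rw [fl _ cG, fl _ cT, cx, cx]; simp only [mul_assoc]
      _ = 0 := by
          rw [nx, nx', cxx, mul_zero, mul_zero, zero_add, add_zero, ← add_mul, e, zero_mul]
  · have ny : π x * π x = 0 := by rw [← map_mul, nx, map_zero]
    by_cases hx' : π x' = 0
    · have hγx : γ ≤ ‖π x‖ := hal.resolve_right (not_not.2 hx')
      rw [map_add, map_mul, map_mul, hx', mul_zero, add_zero, map_cfc_real π cG hsa, map_sg,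
        hG] at hz
      have := norm_sq_le ny hc0.le hz
      have := mul_self_le_mul_self hγ.le hγx
      linarith
    · have e : cfc Hf (sg x) * (cfc Gf (sg x) * x + cfc Tf (sg x) * x') =
          cfc (fun t => Hf t * Tf t) (sg x) * x' := by
        rw [mul_add, ← mul_assoc, ← mul_assoc, ← cfc_mul .., ← cfc_mul .., sg_left nx (by fun_prop),
          cfc_eq_zero, mul_zero, zero_add]
        intro t ht
        have h0 := spec_nonneg x t ht
        simp only [hG, hH, abs_neg, abs_of_nonneg h0]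
        rcases le_total t c with h | h
        · rw [max_eq_right (a := t - c) (by linarith), mul_zero]
        · rw [max_eq_right (by linarith), zero_mul]
      have e2 := congrArg π e
      rw [map_mul, hz, mul_zero, map_mul] at e2
      have e3 := (hsp _ (mf _) _ mx' e2.symm).resolve_right hx'
      rw [map_cfc_real π (by fun_prop) hsa, map_sg] at e3
      have e4 := cfc_zero_of (sg_sa (π x)) (by fun_prop) e3
      have e5 : ∀ t ∈ spectrum ℝ (sg (π x)), t < 0 := by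
        intro t ht
        by_contra h0
        push Not at h0
        have h4 := e4 t ht
        simp only [hH, hT, abs_of_nonneg h0] at h4
        refine absurd h4 (mul_pos (lt_max_of_lt_left (by linarith)) ?_).ne'
        have := le_max_left (c - t) 0
        linarith
      have e6 := eq_zero_of_neg ny fun t ht => (e5 t ht).le
      have : Nontrivial Q := ⟨⟨_, _, hx'⟩⟩
      have e7 : sg (π x) = 0 := by simp [sg, e6]
      exact lt_irrefl _ (e5 0 (by rw [e7, spectrum.zero_eq]; rfl))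

theorem reduce_split {D₁ D₂ D₃ : Set G} (h₁₂ : D₂ ⊆ cent D₁) (h₁₃ : D₃ ⊆ cent D₁)
    (h₂₃ : D₃ ⊆ cent D₂) (s₁ : Split D₁) (s₂ : Split D₂) (s₃ : Split D₃) {n : ℕ}
    {x₁ x₂ x₃ : Fin (n + 2) → G} (m₁ : ∀ c, x₁ c ∈ D₁) (m₂ : ∀ c, x₂ c ∈ D₂) (m₃ : ∀ c, x₃ c ∈ D₃)
    (n₁ : ∀ c, x₁ c * x₁ c = 0) (n₂ : ∀ c, x₂ c * x₂ c = 0) (n₃ : ∀ c, x₃ c * x₃ c = 0)
    (f₁ : Full x₁) (f₂ : Full x₂) (f₃ : Full x₃) :
    ∃ z : Fin (n + 1) → G, (∀ c, z c * z c = 0) ∧ Full z := by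
  obtain ⟨γ₁, p₁, b₁⟩ := Full.bound.{u, u} f₁
  obtain ⟨γ₂, p₂, b₂⟩ := Full.bound.{u, u} f₂
  obtain ⟨γ₃, p₃, b₃⟩ := Full.bound.{u, u} f₃
  have c₂₁ : bicomm D₂ ≤ cent D₁ := bicomm_le_cent h₁₂
  have c₃₁ : bicomm D₃ ≤ cent D₁ := bicomm_le_cent h₁₃
  have c₃₂ : bicomm D₃ ≤ cent D₂ := bicomm_le_cent h₂₃
  have c₁₃ : bicomm D₁ ≤ cent D₃ := bicomm_le_cent (subset_cent_symm h₁₃)
  have c₂₃ : bicomm D₂ ≤ cent D₃ := bicomm_le_cent (subset_cent_symm h₂₃)
  have pγ : 0 < min γ₁ γ₂ := lt_min p₁ p₂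
  obtain ⟨e₁, me₁, e₂, me₂, sa₁, sa₂, e12, he⟩ := two_letter.{u, u} (bicomm D₁) (bicomm D₂)
    (cent D₃) inferInstance inferInstance inferInstance c₁₃ c₂₃
    (fun a ha b hb => (mem_bicomm.1 ha b (c₂₁ hb)).symm) (subset_bicomm _ (m₁ 0))
    (subset_bicomm _ (m₁ 1)) (subset_bicomm _ (m₂ 0)) (subset_bicomm _ (m₂ 1)) (n₁ 0) (n₁ 1)
    (n₂ 0) (n₂ 1) pγ
  have hw := fun c : Fin n => union_letter.{u, u} (bicomm D₂) (bicomm D₃) (cent D₁) inferInstance
    c₂₁ c₃₁ (fun a ha b hb => (mem_bicomm.1 ha b (c₃₂ hb)).symm)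
    (subset_bicomm _ (m₂ c.succ.succ)) (subset_bicomm _ (m₃ c.succ.succ)) (n₂ _) (n₃ _) p₂
  choose w mw nw hw using hw
  have hz := fun c : Fin n => union_letter.{u, u} (bicomm D₁) (cent D₁) ⊤ inferInstance
    le_top le_top (fun a ha b hb => (mem_bicomm.1 ha b hb).symm)
    (subset_bicomm _ (m₁ c.succ.succ)) (mw c) (n₁ _) (nw c) p₁
  choose z _ nz hz using hz
  have e21 : e₂ * e₁ = 0 := by
    have := congrArg star e12
    rwa [star_mul, sa₁.star_eq, sa₂.star_eq, star_zero] at this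
  have k₁ : ∀ c, x₃ c * e₁ = e₁ * x₃ c := fun c => (mem_cent.1 me₁ _ (m₃ c)).1.eq
  have k₂ : ∀ c, x₃ c * e₂ = e₂ * x₃ c := fun c => (mem_cent.1 me₂ _ (m₃ c)).1.eq
  refine ⟨Fin.cons (e₁ * x₃ 0 + e₂ * x₃ 1) z, fun c => ?_, full_of_pq _ fun P => ?_⟩
  · refine Fin.cases ?_ (fun c => nz c) c
    simp only [Fin.cons_zero]
    calc _ = e₁ * (x₃ 0 * e₁) * x₃ 0 + e₁ * (x₃ 0 * e₂) * x₃ 1 + e₂ * (x₃ 1 * e₁) * x₃ 0 +
          e₂ * (x₃ 1 * e₂) * x₃ 1 := by noncomm_ring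
      _ = e₁ * e₁ * (x₃ 0 * x₃ 0) + e₁ * e₂ * (x₃ 0 * x₃ 1) + e₂ * e₁ * (x₃ 1 * x₃ 0) +
          e₂ * e₂ * (x₃ 1 * x₃ 1) := by rw [k₁, k₁, k₂, k₂]; simp only [mul_assoc]
      _ = 0 := by simp [n₃, e12, e21]
  · obtain ⟨c₁, a₁⟩ := b₁ P.Q P.π
    obtain ⟨c₂, a₂⟩ := b₂ P.Q P.π
    obtain ⟨c₃, a₃⟩ := b₃ P.Q P.π
    have tri : ∀ c : Fin (n + 2), (c = 0 ∨ c = 1) ∨ ∃ d : Fin n, c = d.succ.succ := by
      intro c
      refine Fin.cases (.inl (.inl rfl)) (fun c => ?_) c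
      exact Fin.cases (.inl (.inr rfl)) (fun d => .inr ⟨d, rfl⟩) c
    have a₃' : P.π (x₃ c₃) ≠ 0 := norm_pos_iff.1 (p₃.trans_le a₃)
    have sw := fun a ha b hb => s₂ P a ha b (c₃₂ hb)
    rcases tri c₁ with t₁ | ⟨d, rfl⟩
    swap
    · exact ⟨d.succ, hz d P.Q P.π (s₁ P) (.inl a₁)⟩
    rcases tri c₂ with t₂ | ⟨d, rfl⟩
    swap
    · exact ⟨d.succ, hz d P.Q P.π (s₁ P) (.inr (hw d P.Q P.π sw (.inl a₂)))⟩
    rcases tri c₃ with t₃ | ⟨d, rfl⟩
    swap
    · exact ⟨d.succ, hz d P.Q P.π (s₁ P) (.inr (hw d P.Q P.π sw (.inr a₃')))⟩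
    obtain ⟨z₁, z₂⟩ := he P.Q P.π (fun a ha b hb => s₁ P a ha b (c₂₁ hb))
      (by rcases t₁ with rfl | rfl
          · exact .inl ((min_le_left _ _).trans a₁)
          · exact .inr ((min_le_left _ _).trans a₁))
      (by rcases t₂ with rfl | rfl
          · exact .inl ((min_le_right _ _).trans a₂)
          · exact .inr ((min_le_right _ _).trans a₂))
    have dead : ∀ e ∈ cent D₃, IsSelfAdjoint e → P.π e ≠ 0 → ∀ c,
        P.π (x₃ c * (e * e)) = 0 → P.π (x₃ c) = 0 := by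
      intro e me sa ne c h
      rw [map_mul] at h
      refine (s₃ P _ (subset_bicomm _ (m₃ c)) _ (mul_mem me me) h).resolve_right fun h => ne ?_
      rwa [← CStarRing.star_mul_self_eq_zero_iff, (sa.map P.π).star_eq, ← map_mul]
    refine ⟨0, fun h0 => a₃' ?_⟩
    simp only [Fin.cons_zero] at h0
    rcases t₃ with rfl | rfl
    · refine dead e₁ me₁ sa₁ z₁ 0 ?_
      have : x₃ 0 * (e₁ * e₁) = e₁ * (e₁ * x₃ 0 + e₂ * x₃ 1) := by
        rw [mul_add, ← mul_assoc e₁ e₂, e12, zero_mul, add_zero, ← mul_assoc, k₁, mul_assoc, k₁]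
      rw [this, map_mul, h0, mul_zero]
    · refine dead e₂ me₂ sa₂ z₂ 1 ?_
      have : x₃ 1 * (e₂ * e₂) = e₂ * (e₁ * x₃ 0 + e₂ * x₃ 1) := by
        rw [mul_add, ← mul_assoc e₂ e₁, e21, zero_mul, zero_add, ← mul_assoc, k₂, mul_assoc, k₂]
      rw [this, map_mul, h0, mul_zero]

theorem reduce (hSA : SA G) {n : ℕ} {x : Fin (n + 2) → G} (hn : ∀ c, x c * x c = 0)
    (hf : Full x) : ∃ z : Fin (n + 1) → G, (∀ c, z c * z c = 0) ∧ Full z := by
  obtain ⟨m, c, u, v, hs⟩ := hf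
  obtain ⟨D₁, f₁, w₁⟩ : ∃ D : Set G, D.Finite ∧ Wit D x :=
    ⟨Set.range x ∪ (Set.range u ∪ Set.range v),
      (Set.finite_range x).union ((Set.finite_range u).union (Set.finite_range v)),
      fun c => .inl ⟨c, rfl⟩, hn, m, c, u, v, fun t => .inr (.inl ⟨t, rfl⟩),
      fun t => .inr (.inr ⟨t, rfl⟩), hs⟩
  obtain ⟨D₂, x₂, f₂, h₁₂, w₂⟩ := w₁.copy hSA f₁ f₁
  obtain ⟨D₃, x₃, -, h₃, w₃⟩ := w₁.copy hSA f₁ (f₁.union f₂)
  have h₁₃ : D₃ ⊆ cent D₁ := fun a ha => cent_anti Set.subset_union_left (h₃ ha)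
  have h₂₃ : D₃ ⊆ cent D₂ := fun a ha => cent_anti Set.subset_union_right (h₃ ha)
  have hB := closure_adjoin_preimage (D₁ ∪ D₂ ∪ D₃)
  have sub : D₁ ∪ D₂ ∪ D₃ ⊆ (StarAlgebra.adjoin ℂ (D₁ ∪ D₂ ∪ D₃)).topologicalClosure := fun a ha =>
    StarSubalgebra.le_topologicalClosure _ (StarAlgebra.subset_adjoin ℂ _ ha)
  have cl := StarSubalgebra.isClosed_topologicalClosure (StarAlgebra.adjoin ℂ (D₁ ∪ D₂ ∪ D₃))
  generalize (StarAlgebra.adjoin ℂ (D₁ ∪ D₂ ∪ D₃)).topologicalClosure = B at hB sub cl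
  obtain ⟨y₁, m₁, n₁, g₁⟩ := w₁.lift B fun a ha => sub (.inl (.inl ha))
  obtain ⟨y₂, m₂, n₂, g₂⟩ := w₂.lift B fun a ha => sub (.inl (.inr ha))
  obtain ⟨y₃, m₃, n₃, g₃⟩ := w₃.lift B fun a ha => sub (.inr ha)
  have k₁₂ := cent_preimage h₁₂ B
  have k₁₃ := cent_preimage h₁₃ B
  have k₂₃ := cent_preimage h₂₃ B
  obtain ⟨z, nz, fz⟩ := reduce_split k₁₂ k₁₃ k₂₃
    (split_of_dense (Set.union_subset k₁₂ k₁₃) (by
      rw [← hB]; congr 2; ext a; simp only [Set.mem_union, Set.mem_preimage]; tauto))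
    (split_of_dense (Set.union_subset (subset_cent_symm k₁₂) k₂₃) (by
      rw [← hB]; congr 2; ext a; simp only [Set.mem_union, Set.mem_preimage]; tauto))
    (split_of_dense (Set.union_subset (subset_cent_symm k₁₃) (subset_cent_symm k₂₃)) (by
      rw [← hB]; congr 2; ext a; simp only [Set.mem_union, Set.mem_preimage]; tauto))
    m₁ m₂ m₃ n₁ n₂ n₃ g₁ g₂ g₃
  exact ⟨fun c => B.subtype (z c), fun c => by rw [← map_mul, nz, map_zero], fz.map B.subtype⟩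

theorem one_nil (hSA : SA G) (h : IsEmpty (G →⋆ₐ[ℂ] ℂ)) : ∃ x : G, x * x = 0 ∧ Full1 x := by
  have key : ∀ (n : ℕ) (x : Fin (n + 1) → G), (∀ c, x c * x c = 0) → Full x →
      ∃ x : G, x * x = 0 ∧ Full1 x := by
    intro n
    induction n with
    | zero =>
      rintro x hn ⟨m, c, u, v, hs⟩
      refine ⟨x 0, hn 0, m, fun _ => (), u, v, ?_⟩
      rw [← hs]
      exact Finset.sum_congr rfl fun t _ => by rw [Fin.fin_one_eq_zero (c t)]
    | succ n ih =>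
      intro x hn hf
      obtain ⟨z, nz, fz⟩ := reduce hSA hn hf
      exact ih z nz fz
  obtain ⟨n, x, hn, m, c, u, v, hs⟩ := exists_nil_family h
  refine key n (Fin.cons 0 x) (fun c => Fin.cases (by simp) (fun c => by simpa using hn c) c)
    ⟨m, fun t => (c t).succ, u, v, by simpa using hs⟩

end Vale.Agent.P101
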