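import Vale.Agent.P101.Patch

/-! One connecting map of the inductive system. -/

namespace Vale.Agent.P101
open scoped Matrix.Norms.L2Operator unitInterval CStarAlgebra

/-- The next size. -/
def nxt (p N : ℕ) : ℕ := p * (p + 1) * N + p

namespace Step

/-- Block diagonal matrices, reindexed. -/
noncomputable def blk {K J K' : Type} [Fintype K] [DecidableEq K] [Fintype J] [DecidableEq J]
    [Fintype K'] [DecidableEq K'] (e : K' ≃ K × J) : (J → Matrix K K ℂ) →⋆ₐ[ℂ] Matrix K' K' ℂ where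
  toFun F := (Matrix.blockDiagonal F).submatrix e e
  map_one' := by simp
  map_mul' F F' := by
    rw [Matrix.submatrix_mul_equiv, ← Matrix.blockDiagonal_mul]; rfl
  map_zero' := by simp
  map_add' F F' := by rw [Matrix.blockDiagonal_add]; rfl
  commutes' c := by
    simp [Algebra.algebraMap_eq_smul_one, Matrix.blockDiagonal_smul, Matrix.submatrix_smul]
  map_star' F := by
    rw [Matrix.star_eq_conjTranspose, Matrix.conjTranspose_submatrix,
      Matrix.blockDiagonal_conjTranspose]; rfl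

section
variable {K J K' : Type} [Fintype K] [DecidableEq K] [Fintype J] [DecidableEq J]
  [Fintype K'] [DecidableEq K']

lemma blk_apply (e : K' ≃ K × J) (F : J → Matrix K K ℂ) :
    blk e F = (Matrix.blockDiagonal F).submatrix e e := rfl

lemma blk_inj (e : K' ≃ K × J) : Function.Injective (blk e) := fun F F' h => by
  ext j k k'
  simpa [blk_apply] using congrFun₂ h (e.symm (k, j)) (e.symm (k', j))

lemma norm_blk (e : K' ≃ K × J) (F : J → Matrix K K ℂ) : ‖blk e F‖ = ‖F‖ :=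
  NonUnitalStarAlgHom.norm_map _ (blk_inj e) F

lemma exists_perm (e e' : K' ≃ K × J) : ∃ u ∈ unitary (Matrix K' K' ℂ),
    ∀ F, u * blk e F * star u = blk e' F := by
  let τ : Equiv.Perm K' := e'.trans e.symm
  have h : ∀ W : Matrix K' K' ℂ, τ.permMatrix ℂ * W * star (τ.permMatrix ℂ) = W.submatrix τ τ :=
    fun W => by
      rw [Matrix.star_eq_conjTranspose, Matrix.conjTranspose_permMatrix,
        PEquiv.toMatrix_toPEquiv_mul, PEquiv.mul_toMatrix_toPEquiv]
      rfl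
  refine ⟨τ.permMatrix ℂ, Matrix.mem_unitaryGroup_iff.2 (by simpa using h 1), fun F => ?_⟩
  rw [h]
  ext a b
  simp [blk_apply, τ]

end

lemma exists_index {K P Q A B C M J : Type} [Fintype K] [DecidableEq K] [Fintype P] [DecidableEq P]
    [Fintype Q] [DecidableEq Q] [Fintype A] [DecidableEq A] [Fintype B] [DecidableEq B]
    [DecidableEq C] [DecidableEq M] [Fintype J] [DecidableEq J]
    (κ : K ≃ P × Q) (eA : A ≃ (K × M) ⊕ P) (eB : B ≃ Q × C) (eJ : (M × B) ⊕ C ≃ J) :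
    ∃ e : A × B ≃ K × J, ∀ (F : J → Matrix K K ℂ) (X₀ : Matrix P P ℂ),
      (∀ i β β', F (eJ (.inl (i, β))) = F (eJ (.inl (i, β')))) →
      (∀ c, F (eJ (.inr c)) = (kL P Q X₀).submatrix κ κ) → ∃ X, blk e F = kL A B X := by
  let e : A × B ≃ K × J := (eA.prodCongr (Equiv.refl B)).trans <|
    (Equiv.sumProdDistrib _ _ _).trans <|
    ((Equiv.prodAssoc K M B).sumCongr (((Equiv.refl P).prodCongr eB).trans
      ((Equiv.prodAssoc P Q C).symm.trans (κ.symm.prodCongr (Equiv.refl C))))).trans <|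
    (Equiv.prodSumDistrib K _ _).symm.trans ((Equiv.refl K).prodCongr eJ)
  have e1 : ∀ k i β, e (eA.symm (.inl (k, i)), β) = (k, eJ (.inl (i, β))) := fun k i β => by
    simp [e]
  have e2 : ∀ x β, e (eA.symm (.inr x), β) = (κ.symm (x, (eB β).1), eJ (.inr (eB β).2)) :=
    fun x β => by simp [e]
  refine ⟨e, fun F X₀ h1 h2 => ?_⟩
  rcases isEmpty_or_nonempty B with hB | ⟨⟨β₀⟩⟩
  · exact ⟨0, by ext ⟨_, b⟩; exact hB.elim b⟩
  refine ⟨Matrix.of fun α α' => blk e F (α, β₀) (α', β₀), ?_⟩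
  ext ⟨α, β⟩ ⟨α', β'⟩
  obtain ⟨α, rfl⟩ := eA.symm.surjective α
  obtain ⟨α', rfl⟩ := eA.symm.surjective α'
  rcases α with ⟨k, i⟩ | x <;> rcases α' with ⟨k', i'⟩ | x' <;>
    simp only [blk_apply, kL_apply, Matrix.of_apply, Matrix.submatrix_apply, e1, e2, Matrix.blockDiagonal_apply,
      Matrix.kroneckerMap_apply, Matrix.one_apply, EmbeddingLike.apply_eq_iff_eq, Sum.inl.injEq,
      Sum.inr.injEq, Prod.mk.injEq, h2, Equiv.apply_symm_apply, reduceCtorEq, if_false, zero_mul,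
      and_true, if_true, mul_one]
  · rw [h1 i β β₀]
    by_cases hi : i = i' <;> by_cases hb : β = β' <;> simp [hi, hb]
  · have : β = β' ↔ (eB β).1 = (eB β').1 ∧ (eB β).2 = (eB β').2 := by
      rw [← Prod.ext_iff, EmbeddingLike.apply_eq_iff_eq]
    simp only [this]
    by_cases hi : (eB β).1 = (eB β').1 <;> by_cases hb : (eB β).2 = (eB β').2 <;> simp [hi, hb]

/-- The combinatorial data of a step. -/
lemma exists_levels {p N : ℕ} (hp : 0 < p) (hN : 0 < N) :
    ∃ (M : ℕ) (la lb : Fin M → ℕ)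
      (e₀ e₁ : KK (nxt p N) (nxt p N + 1) ≃ KK p (p + 1) × Fin M),
      (∀ j, la j ≤ lb j ∧ lb j ≤ la j + 1 ∧ lb j ≤ N) ∧ (∀ i < N, ∃ j, la j = i ∧ lb j = i + 1) ∧
      (∀ g : ℕ → MM p (p + 1), (∃ X, g 0 = kL _ _ X) → ∃ X, blk e₀ (fun j => g (la j)) = kL _ _ X) ∧
      ∀ g : ℕ → MM p (p + 1), (∃ Y, g N = kR _ _ Y) → ∃ Y, blk e₁ (fun j => g (lb j)) = kR _ _ Y := by
  set p' := nxt p N with hp'
  have hp1 : p' = p * ((p + 1) * N + 1) := by rw [hp', nxt]; ring
  have hq1 : p' + 1 = (p + 1) * (p * N + 1) := by rw [hp', nxt]; ring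
  have hle : (p + 1) * N + 1 ≤ p' := by rw [hp1]; exact Nat.le_mul_of_pos_left _ hp
  have hle' : p * N + N + 1 ≤ p' := by rw [← add_one_mul]; exact hle
  have hM : N * p' + ((p + 1) * N + 1) = (p * N + 1) + N * (p' + 1) := by ring
  let la : Fin (p * N + 1 + N * (p' + 1)) → ℕ := fun n => (n - (p * N + 1)) / (p' + 1)
  let lb : Fin (p * N + 1 + N * (p' + 1)) → ℕ := fun n => n / p'
  let eA : Fin p' ≃ (KK p (p + 1) × Fin N) ⊕ Fin p :=
    Fintype.equivOfCardEq (by simp [hp', nxt])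
  let eB : Fin (p' + 1) ≃ Fin (p + 1) × Fin (p * N + 1) := Fintype.equivOfCardEq (by simp [hq1])
  let eJ : (Fin N × Fin (p' + 1)) ⊕ Fin (p * N + 1) ≃ Fin (p * N + 1 + N * (p' + 1)) :=
    (Equiv.sumComm _ _).trans (((Equiv.refl _).sumCongr finProdFinEquiv).trans finSumFinEquiv)
  let eA' : Fin (p' + 1) ≃ (KK p (p + 1) × Fin N) ⊕ Fin (p + 1) :=
    Fintype.equivOfCardEq (by simp [hp', nxt, add_assoc])
  let eB' : Fin p' ≃ Fin p × Fin ((p + 1) * N + 1) := Fintype.equivOfCardEq (by simp [← hp1])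
  let eJ' : (Fin N × Fin p') ⊕ Fin ((p + 1) * N + 1) ≃ Fin (p * N + 1 + N * (p' + 1)) :=
    (finProdFinEquiv.sumCongr (Equiv.refl _)).trans (finSumFinEquiv.trans (finCongr hM))
  obtain ⟨e₀, h₀⟩ := exists_index (Equiv.refl _) eA eB eJ
  obtain ⟨e₁, h₁⟩ := exists_index (Equiv.prodComm _ _) eA' eB' eJ'
  have hp'0 : 0 < p' := by omega
  refine ⟨_, la, lb, e₀, (Equiv.prodComm _ _).trans e₁, fun j => ?_, fun i hi => ?_,
    fun g ⟨X, hX⟩ => h₀ _ X (fun i β β' => ?_) fun c => ?_, fun g ⟨Y, hY⟩ => ?_⟩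
  · have hj := j.2
    have h1 : la j * (p' + 1) ≤ j - (p * N + 1) := Nat.div_mul_le_self _ _
    have h2 : j - (p * N + 1) < (la j + 1) * (p' + 1) :=
      (Nat.div_lt_iff_lt_mul (Nat.succ_pos _)).1 (Nat.lt_succ_self _)
    have h3 : la j < N := (Nat.div_lt_iff_lt_mul (Nat.succ_pos _)).2 (by
      have : 0 < N * (p' + 1) := by positivity
      simp only [Nat.succ_eq_add_one]
      omega)
    have h4 : lb j < la j + 2 := (Nat.div_lt_iff_lt_mul hp'0).2 (by
      have : (la j + 2) * p' = (la j + 1) * p' + p' := by ring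
      have : (la j + 1) * (p' + 1) = (la j + 1) * p' + la j + 1 := by ring
      omega)
    refine ⟨(Nat.le_div_iff_mul_le hp'0).2 ?_, by omega, by omega⟩
    have : la j * (p' + 1) = la j * p' + la j := by ring
    omega
  · have h1 : (i + 1) * p' ≤ N * p' := Nat.mul_le_mul_right _ hi
    refine ⟨⟨(i + 1) * p', by omega⟩, ?_, Nat.mul_div_cancel _ hp'0⟩
    have : (i + 1) * p' = i * p' + p' := by ring
    have : i * (p' + 1) = i * p' + i := by ring
    have : (i + 1) * (p' + 1) = i * p' + p' + i + 1 := by ring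
    exact Nat.div_eq_of_lt_le (by simp only; omega) (by simp only; omega)
  · have : ∀ β, la (eJ (.inl (i, β))) = i := fun β => by
      simp [la, eJ, Nat.add_mul_div_left, Nat.div_eq_of_lt β.2]
    simp only [this]
  · have : la (eJ (.inr c)) = 0 := by
      have := c.2
      simp [la, eJ, Nat.sub_eq_zero_of_le this.le]
    simp [this, hX]
  · obtain ⟨Z, hZ⟩ := h₁ (fun j => g (lb j)) Y (fun i β β' => by
      have : ∀ β, lb (eJ' (.inl (i, β))) = i := fun β => by
        simp [lb, eJ', Nat.add_mul_div_left _ _ hp'0, Nat.div_eq_of_lt β.2]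
      simp only [this]) fun c => by
      have : lb (eJ' (.inr c)) = N := by
        have := c.2
        have h2 : (N + 1) * p' = N * p' + p' := by ring
        exact Nat.div_eq_of_lt_le (by simp [eJ']) (by simp [eJ']; omega)
      rw [this, hY]
      ext ⟨a, b⟩ ⟨a', b'⟩
      simp [kL_apply, kR_apply, mul_comm]
    refine ⟨Z, ?_⟩
    ext ⟨a, b⟩ ⟨a', b'⟩
    have := congrFun₂ hZ (b, a) (b', a')
    simpa [blk_apply, kL_apply, kR_apply, mul_comm] using this

lemma exists_conj {D : Type*} [CStarAlgebra D] {p q : ℕ} (R : I → D →⋆ₐ[ℂ] MM p q)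
    (γ : C(I, MM p q)) (γu : ∀ s, γ s ∈ unitary (MM p q)) (hc : ∀ f, Continuous fun s => R s f)
    (h0 : ∀ f, ∃ X, γ 0 * R 0 f * star (γ 0) = kL _ _ X)
    (h1 : ∀ f, ∃ Y, γ 1 * R 1 f * star (γ 1) = kR _ _ Y) :
    ∃ ι : D →⋆ₐ[ℂ] dropAlg p q, ∀ f s, (ι f).1 s = γ s * R s f * star (γ s) := by
  have hs1 : ∀ s, star (γ s) * γ s = 1 := fun s => Unitary.star_mul_self_of_mem (γu s)
  have hs2 : ∀ s, γ s * star (γ s) = 1 := fun s => Unitary.mul_star_self_of_mem (γu s)
  choose F hF using fun f => show ∃ F : dropAlg p q, ∀ s, F.1 s = γ s * R s f * star (γ s) from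
    ⟨⟨⟨fun s => γ s * R s f * star (γ s), by have := hc f; fun_prop⟩,
      mem_dropAlg.2 ⟨h0 f, h1 f⟩⟩, fun _ => rfl⟩
  refine ⟨{ toFun := F
            map_one' := drop_ext fun s => by simp [hF, hs2]
            map_mul' f g := drop_ext fun s => ?_
            map_zero' := drop_ext fun s => by simp [hF]
            map_add' f g := drop_ext fun s => by simp [hF, mul_add, add_mul]
            commutes' c := drop_ext fun s => by simp [hF, Algebra.algebraMap_eq_smul_one, hs2]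
            map_star' f := drop_ext fun s => by simp [hF, map_star, mul_assoc] }, hF⟩
  change _ = (F f).1 s * (F g).1 s
  rw [hF, hF, hF, show γ s * R s f * star (γ s) * (γ s * R s g * star (γ s)) =
    γ s * (R s f * (star (γ s) * γ s) * R s g) * star (γ s) by simp only [mul_assoc], hs1,
    mul_one, map_mul]

end Step

theorem exists_step {p N : ℕ} (hp : 0 < p) (hN : 0 < N) :
    ∃ (ι : dropAlg p (p + 1) →⋆ₐ[ℂ] dropAlg (nxt p N) (nxt p N + 1))
      (γ : C(I, MM (nxt p N) (nxt p N + 1))), Function.Injective ι ∧ γ 0 = 1 ∧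
      (∀ s, γ s ∈ unitary (MM (nxt p N) (nxt p N + 1))) ∧
      (∀ f ε, Modc f (1 / N) ε → Flat γ (ι f) ε ∧ ∀ s, ‖f‖ ≤ ‖(ι f).1 s‖ + ε) ∧
      ∀ f δ ε, 0 ≤ δ → Modc f (δ / N) ε → Modc (ι f) δ (ε + 8 * δ * ‖f‖) := by
  obtain ⟨M, la, lb, e₀, e₁, hl, hstep, h₀, h₁⟩ := Step.exists_levels hp hN
  obtain ⟨u, hu, hue⟩ := Step.exists_perm e₀ e₁
  obtain ⟨γ, γ0, γ1, γu, γl⟩ := unitary_path hu
  have hN' : (0 : ℝ) < N := by exact_mod_cast hN
  have hl' : ∀ j, (0 : ℝ) ≤ lb j - la j ∧ (lb j - la j : ℝ) ≤ 1 ∧ (lb j : ℝ) ≤ N := fun j => by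
    obtain ⟨h1, h2, h3⟩ := hl j
    refine ⟨sub_nonneg.2 (by exact_mod_cast h1), sub_le_iff_le_add'.2 (by exact_mod_cast h2),
      by exact_mod_cast h3⟩
  let pt : ℝ → I := fun x => Set.projIcc 0 1 zero_le_one (x / N)
  have hpt : ∀ x : ℝ, 0 ≤ x → x ≤ N → (pt x : ℝ) = x / N := fun x h0 h1 => by
    simp only [pt]
    rw [Set.projIcc_of_mem _ ⟨by positivity, (div_le_one hN').2 h1⟩]
  let y : Fin M → I → I := fun j s => pt (la j + s * (lb j - la j))
  have hy : ∀ j s, (y j s : ℝ) = (la j + s * (lb j - la j)) / N := fun j s => by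
    obtain ⟨h1, h2, h3⟩ := hl' j
    refine hpt _ (by have := s.2.1; positivity) ?_
    nlinarith [s.2.2]
  have yc : ∀ j, Continuous (y j) := fun j => continuous_projIcc.comp (by fun_prop)
  have hyl : ∀ j (s t : I), |(y j s : ℝ) - y j t| ≤ |(s : ℝ) - t| / N := fun j s t => by
    obtain ⟨h1, h2, h3⟩ := hl' j
    rw [hy, hy, ← sub_div, abs_div, abs_of_pos hN', add_sub_add_left_eq_sub, ← sub_mul, abs_mul,
      abs_of_nonneg h1]
    gcongr
    exact mul_le_of_le_one_right (abs_nonneg _) h2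
  have hcov : ∀ x : I, ∃ j s, y j s = x := fun x => by
    obtain ⟨i, hi, h1, h2⟩ : ∃ i < N, (i : ℝ) ≤ x * N ∧ (x : ℝ) * N ≤ (i + 1 : ℝ) := by
      rcases eq_or_lt_of_le x.2.2 with h | h
      · obtain ⟨n, rfl⟩ := Nat.exists_eq_succ_of_ne_zero hN.ne'
        exact ⟨n, n.lt_succ_self, by simp [h], by simp [h]⟩
      · have h0 : 0 ≤ (x : ℝ) * N := by have := x.2.1; positivity
        exact ⟨⌊(x : ℝ) * N⌋₊, (Nat.floor_lt h0).2 (by nlinarith), Nat.floor_le h0,
          (Nat.lt_floor_add_one _).le⟩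
    obtain ⟨j, ha, hb⟩ := hstep i hi
    refine ⟨j, ⟨x * N - i, by linarith, by linarith⟩, Subtype.ext ?_⟩
    rw [hy, ha, hb]
    push_cast
    field_simp
    ring
  let R : I → dropAlg p (p + 1) →⋆ₐ[ℂ] MM (nxt p N) (nxt p N + 1) := fun s =>
    (Step.blk e₀).comp
      { toFun f j := f.1 (y j s)
        map_one' := rfl
        map_mul' _ _ := rfl
        map_zero' := rfl
        map_add' _ _ := rfl
        commutes' _ := rfl
        map_star' _ := rfl }
  have hR : ∀ s f, R s f = Step.blk e₀ fun j => f.1 (y j s) := fun _ _ => rfl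
  have hn : ∀ s Z, ‖γ s * Z * star (γ s)‖ = ‖Z‖ := fun s Z => by
    rw [CStarRing.norm_mul_mem_unitary _ (Unitary.star_mem (γu s)),
      CStarRing.norm_mem_unitary_mul _ (γu s)]
  obtain ⟨ι, hι⟩ := Step.exists_conj R γ γu
    (fun f => (map_continuous (Step.blk e₀)).comp
      (continuous_pi fun j => f.1.continuous.comp (yc j)))
    (fun f => by
      simpa [γ0, hR, y] using h₀ (fun n => f.1 (pt n))
        (by simpa [pt] using (mem_dropAlg.1 f.2).1))
    (fun f => by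
      simpa [γ1, hR, y, hue] using h₁ (fun n => f.1 (pt n))
        (by simpa [pt, hN'.ne'] using (mem_dropAlg.1 f.2).2))
  have hRd : ∀ f δ ε, Modc f (δ / N) ε → ∀ s t : I, |(s : ℝ) - t| ≤ δ → ‖R s f - R t f‖ ≤ ε :=
    fun f δ ε hf s t hst => by
      have hδ : 0 ≤ δ := (abs_nonneg _).trans hst
      rw [hR, hR, ← map_sub, Step.norm_blk, pi_norm_le_iff_of_nonneg
        ((norm_nonneg _).trans (hf s s (by simp; positivity)))]
      exact fun j => hf _ _ ((hyl j s t).trans (by gcongr))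
  have h01 : ∀ s t : I, |(s : ℝ) - t| ≤ 1 := fun s t =>
    abs_le.2 ⟨by linarith [s.2.1, t.2.2], by linarith [s.2.2, t.2.1]⟩
  have hev : ∀ f j s, ‖f.1 (y j s)‖ ≤ ‖(ι f).1 s‖ := fun f j s => by
    rw [hι, hn, hR, Step.norm_blk]
    exact norm_le_pi_norm (fun j => f.1 (y j s)) j
  refine ⟨ι, γ, (injective_iff_map_eq_zero _).2 fun f hf => drop_ext fun x => ?_, γ0, γu,
    fun f ε hf => ⟨fun s => ?_, fun s => ?_⟩, fun f δ ε hδ hf s t hst => ?_⟩
  · obtain ⟨j, s, rfl⟩ := hcov x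
    simpa [hf] using hev f j s
  · rw [hι, hι, γ0, star_one, one_mul, mul_one, ← sub_mul, ← mul_sub, hn]
    exact hRd f 1 ε hf s 0 (h01 _ _)
  · have hε : 0 ≤ ε := (norm_nonneg _).trans (hf s s (by simp))
    refine (drop_norm_le f (by positivity)).2 fun x => ?_
    obtain ⟨j, t, rfl⟩ := hcov x
    have h1 := hf (y j t) (y j s) ((hyl j t s).trans (by gcongr; exact h01 _ _))
    linarith [hev f j s, norm_le_insert' (f.1 (y j t)) (f.1 (y j s))]
  · have e : (ι f).1 s - (ι f).1 t = γ s * (R s f - R t f) * star (γ s) +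
        (γ s - γ t) * R t f * star (γ s) + γ t * R t f * star (γ s - γ t) := by
      rw [hι, hι, star_sub]; noncomm_ring
    have h1 := hRd f δ ε hf s t hst
    have h2 : ‖R t f‖ ≤ ‖f‖ := NonUnitalStarAlgHom.norm_apply_le _ _
    have h3 : ‖γ s - γ t‖ * ‖R t f‖ ≤ 4 * δ * ‖f‖ :=
      mul_le_mul ((γl s t).trans (by gcongr)) h2 (norm_nonneg _) (by positivity)
    have h4 : ‖(γ s - γ t) * R t f * star (γ s)‖ ≤ 4 * δ * ‖f‖ := by
      rw [CStarRing.norm_mul_mem_unitary _ (Unitary.star_mem (γu s))]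
      exact (norm_mul_le _ _).trans h3
    have h5 : ‖γ t * R t f * star (γ s - γ t)‖ ≤ 4 * δ * ‖f‖ := by
      rw [mul_assoc, CStarRing.norm_mem_unitary_mul _ (γu t)]
      exact (norm_mul_le _ _).trans (by rwa [norm_star, mul_comm])
    rw [e]
    refine (norm_add₃_le ..).trans ?_
    rw [hn]
    linarith

end Vale.Agent.P101
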