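import Vale.Agent.P101.DD
import Vale.Agent.P101.Patch

/-! Tensor calculus, averaging and fibre data for the transfer theorem. -/

namespace Vale.Agent.P101.Tr
open scoped Matrix.Norms.L2Operator unitInterval Kronecker
open Matrix

section tens
variable {a b : Type} [Fintype a] [DecidableEq a] [Fintype b] [DecidableEq b]
  {Q : Type*} [Ring Q] [Algebra ℂ Q]

/-- Bilinear extension to the tensor product. -/
noncomputable def TT (A : Matrix a a ℂ →ₗ[ℂ] Q) (B : Matrix b b ℂ →ₗ[ℂ] Q) :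
    Matrix (a × b) (a × b) ℂ →ₗ[ℂ] Q where
  toFun W := ∑ z, ∑ w, W z w • (A (single z.1 w.1 1) * B (single z.2 w.2 1))
  map_add' W W' := by simp [add_smul, Finset.sum_add_distrib]
  map_smul' c W := by simp [Finset.smul_sum, mul_smul]

lemma TT_apply (A : Matrix a a ℂ →ₗ[ℂ] Q) (B : Matrix b b ℂ →ₗ[ℂ] Q) (W) :
    TT A B W = ∑ z, ∑ w, W z w • (A (single z.1 w.1 1) * B (single z.2 w.2 1)) := rfl

lemma lin_eq (A : Matrix a a ℂ →ₗ[ℂ] Q) (X : Matrix a a ℂ) :
    A X = ∑ i, ∑ j, X i j • A (single i j 1) := by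
  conv_lhs => rw [matrix_eq_sum_single X]
  simp only [map_sum, ← map_smul, smul_single, smul_eq_mul, mul_one]

lemma TT_mul (A : Matrix a a ℂ →ₗ[ℂ] Q) (B : Matrix b b ℂ →ₗ[ℂ] Q) (X Y) :
    TT A B (kL a b X * kR a b Y) = A X * B Y := by
  rw [TT_apply, lin_eq A X, lin_eq B Y, kL_apply, kR_apply, ← mul_kronecker_mul, mul_one, one_mul,
    Fintype.sum_prod_type, Finset.sum_mul]
  refine Finset.sum_congr rfl fun i _ => ?_
  simp only [Fintype.sum_prod_type, kroneckerMap_apply, Finset.sum_mul]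
  rw [Finset.sum_comm]
  refine Finset.sum_congr rfl fun j _ => ?_
  simp only [Finset.mul_sum, smul_mul_smul_comm]

lemma eq_sum (W : Matrix (a × b) (a × b) ℂ) :
    W = ∑ z, ∑ w, W z w • (kL a b (single z.1 w.1 1) * kR a b (single z.2 w.2 1)) := by
  conv_lhs => rw [matrix_eq_sum_single W]
  simp [kL_apply, kR_apply, ← mul_kronecker_mul, single_kronecker_single]

lemma exists_tens {Q : Type*} [CStarAlgebra Q] (φ : Matrix a a ℂ →⋆ₐ[ℂ] Q)
    (ψ : Matrix b b ℂ →⋆ₐ[ℂ] Q) (h : ∀ X Y, Commute (φ X) (ψ Y)) :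
    ∃ Λ : Matrix (a × b) (a × b) ℂ →⋆ₐ[ℂ] Q,
      (∀ X, Λ (kL a b X) = φ X) ∧ ∀ Y, Λ (kR a b Y) = ψ Y := by
  obtain ⟨Λ, hΛ⟩ := exists_unitsHom
    (fun z w : a × b => φ (single z.1 w.1 1) * ψ (single z.2 w.2 1))
    (fun z w => by
      rw [star_mul, ← map_star, ← map_star, (h _ _).eq]
      simp [star_eq_conjTranspose])
    (fun x y z w => by
      rw [(h _ _).symm.mul_mul_mul_comm, ← map_mul, ← map_mul]
      by_cases e1 : y.1 = z.1
      · by_cases e2 : y.2 = z.2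
        · rw [if_pos (Prod.ext e1 e2), e1, e2]; simp
        · rw [if_neg fun e => e2 (congrArg _ e), single_mul_single_of_ne _ _ _ _ e2]; simp
      · rw [if_neg fun e => e1 (congrArg _ e), single_mul_single_of_ne _ _ _ _ e1]; simp)
    (by
      rw [Fintype.sum_prod_type]
      simp only [← Finset.mul_sum, ← map_sum, sum_single_one, map_one, mul_one])
  have e : ∀ X Y, Λ (kL a b X * kR a b Y) = φ X * ψ Y := fun X Y =>
    (hΛ _).trans (TT_mul φ.toAlgHom.toLinearMap ψ.toAlgHom.toLinearMap X Y)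
  exact ⟨Λ, fun X => by simpa using e X 1, fun Y => by simpa using e 1 Y⟩

/-- Averaging over a matrix subalgebra. -/
noncomputable def avg (κ : Matrix b b ℂ →ₐ[ℂ] Q) : Q →ₗ[ℂ] Q where
  toFun Z := ∑ x : b × b, κ ((Fintype.card b : ℂ)⁻¹ • single x.1 x.2 1) * Z * κ (single x.2 x.1 1)
  map_add' Z Z' := by simp only [mul_add, add_mul, Finset.sum_add_distrib]
  map_smul' c Z := by simp only [mul_smul_comm, smul_mul_assoc, Finset.smul_sum, RingHom.id_apply]

lemma avg_apply (κ : Matrix b b ℂ →ₐ[ℂ] Q) (Z : Q) : avg κ Z =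
    ∑ x : b × b, κ ((Fintype.card b : ℂ)⁻¹ • single x.1 x.2 1) * Z * κ (single x.2 x.1 1) := rfl

lemma avg_sum [Nonempty b] (κ : Matrix b b ℂ →ₐ[ℂ] Q) :
    ∑ x : b × b, κ ((Fintype.card b : ℂ)⁻¹ • single x.1 x.2 1) * κ (single x.2 x.1 1) = 1 := by
  simp only [← map_mul, smul_mul_assoc, single_mul_single_same, mul_one, ← map_sum,
    ← Finset.smul_sum, Fintype.sum_prod_type, Finset.sum_const, Finset.card_univ, sum_single_one]
  rw [← Nat.cast_smul_eq_nsmul ℂ, inv_smul_smul₀ (by simp), map_one]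

lemma avg_of_comm [Nonempty b] (κ : Matrix b b ℂ →ₐ[ℂ] Q) {Z : Q} (h : ∀ Y, Commute Z (κ Y)) :
    avg κ Z = Z := by
  simp only [avg_apply, ← (h _).eq, mul_assoc, ← Finset.mul_sum, avg_sum, mul_one]

lemma avg_comm (κ : Matrix b b ℂ →ₐ[ℂ] Q) (Z : Q) (Y) : Commute (avg κ Z) (κ Y) := by
  have e := lin_eq κ.toLinearMap Y
  simp only [AlgHom.toLinearMap_apply] at e
  rw [e]
  refine Commute.sum_right _ _ _ fun k _ => Commute.sum_right _ _ _ fun l _ =>
    Commute.smul_right ?_ _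
  have m : ∀ i j k l, κ (single i j 1) * κ (single k l 1) =
      if j = k then κ (single i l 1) else 0 := by
    intro i j k l
    rw [← map_mul]
    split_ifs with e
    · subst e; simp
    · rw [single_mul_single_of_ne _ _ _ _ e, map_zero]
  simp only [Commute, SemiconjBy, avg_apply, Finset.sum_mul, Finset.mul_sum, map_smul,
    smul_mul_assoc, mul_smul_comm, mul_assoc, m, Fintype.sum_prod_type]
  simp only [← mul_assoc, m]
  rw [Finset.sum_comm, Finset.sum_comm (f := fun x y => _ • ((if l = x then _ else 0) * Z * _))]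
  simp

end tens

variable {p q : ℕ}

/-- A linear section of the fibres. -/
noncomputable def PP [NeZero p] [NeZero q] : MM p q →ₗ[ℂ] dropAlg p q where
  toFun Z := ⟨⟨fun s => ((max 0 (1 - 3 * s) : ℝ) : ℂ) • avg (kR (Fin p) (Fin q)).toAlgHom Z +
      (1 - ((max 0 (1 - 3 * s) : ℝ) : ℂ) - ((max 0 (3 * s - 2) : ℝ) : ℂ)) • Z +
      ((max 0 (3 * s - 2) : ℝ) : ℂ) • avg (kL (Fin p) (Fin q)).toAlgHom Z, by fun_prop⟩,
    mem_dropAlg.2 ⟨by
      simpa using commute_kR_iff.1 (avg_comm (kR (Fin p) (Fin q)).toAlgHom Z), by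
      norm_num
      exact commute_kL_iff.1 (avg_comm (kL (Fin p) (Fin q)).toAlgHom Z)⟩⟩
  map_add' Z Z' := drop_ext fun s => by
    simp only [map_add, AddMemClass.mk_add_mk, ContinuousMap.add_apply, ContinuousMap.coe_mk]
    module
  map_smul' c Z := drop_ext fun s => by
    simp only [map_smul, RingHom.id_apply, SetLike.mk_smul_mk, ContinuousMap.smul_apply,
      ContinuousMap.coe_mk]
    module

lemma PP_apply [NeZero p] [NeZero q] (Z : MM p q) (s : I) : (PP Z).1 s =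
    ((max 0 (1 - 3 * s) : ℝ) : ℂ) • avg (kR (Fin p) (Fin q)).toAlgHom Z +
      (1 - ((max 0 (1 - 3 * s) : ℝ) : ℂ) - ((max 0 (3 * s - 2) : ℝ) : ℂ)) • Z +
      ((max 0 (3 * s - 2) : ℝ) : ℂ) • avg (kL (Fin p) (Fin q)).toAlgHom Z := rfl

lemma fibre_hom [NeZero p] [NeZero q] {Q : Type*} [CStarAlgebra Q]
    (α : dropAlg p q →⋆ₐ[ℂ] Q) {s : I} (hs : ∀ f : dropAlg p q, f.1 s = 0 → α f = 0)
    {N : Type} [Ring N] [StarRing N] [Algebra ℂ N] (η : N →⋆ₐ[ℂ] MM p q)
    (h : ∀ X, (PP (η X)).1 s = η X) :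
    ∃ φ : N →⋆ₐ[ℂ] Q, ∀ (d : dropAlg p q) X, d.1 s = η X → α d = φ X := by
  have k : ∀ f g : dropAlg p q, ev p q s f = ev p q s g → α f = α g := fun f g e => by
    rw [← sub_eq_zero, ← map_sub]
    exact hs _ (by rw [← ev_apply, map_sub, e, sub_self])
  have h' : ∀ X, ev p q s (PP (η X)) = η X := h
  refine ⟨{ toFun := fun X => α (PP (η X)), map_one' := ?_, map_mul' := fun X Y => ?_
            map_zero' := by simp, map_add' := fun X Y => by simp, commutes' := fun c => ?_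
            map_star' := fun X => ?_ }, fun d X e => k _ _ (e.trans (h' X).symm)⟩
  · rw [k _ 1 (by rw [h', map_one, map_one]), map_one]
  · rw [← map_mul α]
    exact k _ _ (by rw [map_mul (ev p q s), h', h', h', map_mul])
  · rw [k _ (algebraMap ℂ _ c) (by rw [h', AlgHomClass.commutes, AlgHomClass.commutes]),
      AlgHomClass.commutes]
  · rw [← map_star α]
    exact k _ _ (by rw [map_star (ev p q s), h', h', map_star])

lemma fibre_data [NeZero p] [NeZero q] {Q : Type*} [CStarAlgebra Q]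
    (α : dropAlg p q →⋆ₐ[ℂ] Q) {s : I} (hs : ∀ f : dropAlg p q, f.1 s = 0 → α f = 0) :
    ∃ (a : Type) (_ : Fintype a) (_ : DecidableEq a) (_ : Nonempty a)
      (η : Matrix a a ℂ →⋆ₐ[ℂ] MM p q) (φ : Matrix a a ℂ →⋆ₐ[ℂ] Q) (ι : Type) (_ : Fintype ι)
      (u v : ι → MM p q), (∀ X, α (PP (η X)) = φ X) ∧
      (∀ f : dropAlg p q, ∃ X, f.1 (rho s) = η X ∧ α (col p q f) = φ X) ∧
      (∀ Z, ∃ X, ∑ i, u i * Z * v i = η X) ∧ ∑ i, u i * v i = 1 ∧
      ∀ i, (rho s = 0 ∧ ∃ Y, u i = kR (Fin p) (Fin q) Y) ∨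
        (rho s = 1 ∧ ∃ X, u i = kL (Fin p) (Fin q) X) ∨ u i = 1 := by
  rcases le_total (s : ℝ) (1 / 3) with h1 | h1
  · have e : ∀ X, (PP (kL (Fin p) (Fin q) X)).1 s = kL (Fin p) (Fin q) X := fun X => by
      rw [PP_apply, avg_of_comm _ fun Y => kL_comm_kR X Y,
        max_eq_left (by linarith : 3 * (s : ℝ) - 2 ≤ 0)]
      simp [sub_smul]
    have r : rho s = 0 :=
      Subtype.ext (by rw [rho_coe, max_eq_left (min_le_of_right_le (by linarith))]; rfl)
    obtain ⟨φ, hφ⟩ := fibre_hom α hs _ e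
    refine ⟨_, inferInstance, inferInstance, inferInstance, kL _ _, φ, Fin q × Fin q,
      inferInstance, _, _, fun X => hφ _ _ (e X), fun f => ?_,
      fun Z => commute_kR_iff.1 (avg_comm (kR (Fin p) (Fin q)).toAlgHom Z),
      avg_sum (kR (Fin p) (Fin q)).toAlgHom, fun i => Or.inl ⟨r, _, rfl⟩⟩
    obtain ⟨X, hX⟩ := (mem_dropAlg.1 f.2).1
    exact ⟨X, r ▸ hX, hφ _ _ (by rw [col_apply, r, hX])⟩
  rcases le_total (2 / 3) (s : ℝ) with h2 | h2
  · have e : ∀ X, (PP (kR (Fin p) (Fin q) X)).1 s = kR (Fin p) (Fin q) X := fun X => by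
      rw [PP_apply, avg_of_comm (kL (Fin p) (Fin q)).toAlgHom fun Y => (kL_comm_kR Y X).symm,
        max_eq_left (by linarith : 1 - 3 * (s : ℝ) ≤ 0)]
      simp [sub_smul]
    have r : rho s = 1 :=
      Subtype.ext (by rw [rho_coe, min_eq_left (by linarith), max_eq_right zero_le_one]; rfl)
    obtain ⟨φ, hφ⟩ := fibre_hom α hs _ e
    refine ⟨_, inferInstance, inferInstance, inferInstance, kR _ _, φ, Fin p × Fin p,
      inferInstance, _, _, fun X => hφ _ _ (e X), fun f => ?_,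
      fun Z => commute_kL_iff.1 (avg_comm (kL (Fin p) (Fin q)).toAlgHom Z),
      avg_sum (kL (Fin p) (Fin q)).toAlgHom, fun i => Or.inr (Or.inl ⟨r, _, rfl⟩)⟩
    obtain ⟨X, hX⟩ := (mem_dropAlg.1 f.2).2
    exact ⟨X, r ▸ hX, hφ _ _ (by rw [col_apply, r, hX])⟩
  have e : ∀ X, (PP (StarAlgHom.id ℂ (MM p q) X)).1 s = StarAlgHom.id ℂ (MM p q) X := fun X => by
    rw [PP_apply, max_eq_left (by linarith : 1 - 3 * (s : ℝ) ≤ 0),
      max_eq_left (by linarith : 3 * (s : ℝ) - 2 ≤ 0)]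
    simp
  obtain ⟨φ, hφ⟩ := fibre_hom α hs _ e
  exact ⟨_, inferInstance, inferInstance, inferInstance, StarAlgHom.id ℂ _, φ, Unit,
    inferInstance, fun _ => 1, fun _ => 1, fun X => hφ _ _ (e X), fun f => ⟨_, rfl, hφ _ _ rfl⟩,
    fun Z => ⟨Z, by simp⟩, by simp, fun i => Or.inr (Or.inr rfl)⟩

lemma eq_avg_sum {a b ι κ : Type} [Fintype a] [DecidableEq a] [Fintype b] [DecidableEq b]
    [Fintype ι] [Fintype κ] {u v : ι → Matrix a a ℂ} {u' v' : κ → Matrix b b ℂ}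
    (h : ∑ i, u i * v i = 1) (h' : ∑ i, u' i * v' i = 1) {W : Matrix (a × b) (a × b) ℂ}
    (c : ∀ i, Commute W (kL a b (u i))) (c' : ∀ i, Commute W (kR a b (u' i))) :
    W = ∑ z, ∑ w, W z w • (kL a b (∑ i, u i * single z.1 w.1 1 * v i) *
      kR a b (∑ i, u' i * single z.2 w.2 1 * v' i)) := by
  obtain ⟨L, hL⟩ : ∃ L : Matrix (a × b) (a × b) ℂ →ₗ[ℂ] Matrix (a × b) (a × b) ℂ, ∀ Z, L Z =
      ∑ i, ∑ j, kL a b (u i) * kR a b (u' j) * Z * (kL a b (v i) * kR a b (v' j)) :=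
    ⟨∑ i, ∑ j, LinearMap.mulLeftRight ℂ
      (kL a b (u i) * kR a b (u' j), kL a b (v i) * kR a b (v' j)), fun Z => by simp⟩
  have e : ∀ X Y, kL a b (∑ i, u i * X * v i) * kR a b (∑ i, u' i * Y * v' i) =
      L (kL a b X * kR a b Y) := by
    intro X Y
    simp only [hL, map_sum, Finset.sum_mul_sum, kL_apply, kR_apply, ← mul_kronecker_mul, mul_one,
      one_mul]
  have e2 : W = L W := by
    have := e 1 1
    simp only [hL, mul_one, map_one, h, h'] at this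
    simp only [hL, ← ((c _).mul_right (c' _)).eq, mul_assoc W, ← Finset.mul_sum, ← this, mul_one]
  simp only [e]
  conv_lhs => rw [e2, eq_sum W]
  simp only [map_sum L, map_smul L]

end Vale.Agent.P101.Tr
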