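import Vale.Agent.P101.TwoA

/-! The two-letter lemma. -/

namespace Vale.Agent.P101
universe u v
variable {G : Type u} [CStarAlgebra G]

lemma two_conj (S : StarSubalgebra ℂ G) (hS : IsClosed (S : Set G)) {y c : G} (my : y ∈ S)
    (mc : c ∈ S) {η M : ℝ} (hη : 0 < η) (hM : ‖y‖ ≤ M) :
    ∃ A ∈ S, Pos A ∧ ‖A‖ ≤ M ^ 2 ∧ ‖A * c‖ ≤ M * η ∧ (∃ k, A = star y * k * y) ∧
      ∀ (Q : Type v) [CStarAlgebra Q] (π : G →⋆ₐ[ℂ] Q), π c = 0 → ‖π A‖ = ‖π y‖ ^ 2 := by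
  obtain ⟨k, mk, ⟨b, hb⟩, nk, ck, hk⟩ := two_cut.{u, v} S hS (mul_mem my mc) hη
  have hM0 : 0 ≤ M := (norm_nonneg _).trans hM
  refine ⟨star y * k * y, mul_mem (mul_mem (star_mem my) mk) my, ⟨b * y, ?_⟩, ?_, ?_, ⟨k, rfl⟩, ?_⟩
  · rw [hb, star_mul]; simp only [mul_assoc]
  · rw [sq]
    refine (norm_mul_le _ _).trans (mul_le_mul ?_ hM (norm_nonneg _) hM0)
    refine (norm_mul_le _ _).trans ?_
    rw [norm_star]
    exact (mul_le_of_le_one_right (norm_nonneg _) nk).trans hM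
  · rw [mul_assoc, mul_assoc]
    refine (norm_mul_le _ _).trans ?_
    rw [norm_star]
    exact mul_le_mul hM ck (norm_nonneg _) hM0
  · intro Q _ π h
    rw [map_mul, map_mul, hk Q π (by rw [map_mul, h, mul_zero]), mul_one, map_star,
      CStarRing.norm_star_mul_self, sq]

lemma two_copy (S : StarSubalgebra ℂ G) (hS : IsClosed (S : Set G)) {x y : G} (mx : x ∈ S)
    (my : y ∈ S) (nx : x * x = 0) (ny : y * y = 0) {g η M : ℝ} (hg : 0 < g) (hη : 0 < η)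
    (hx : ‖x‖ ≤ M) (hy : ‖y‖ ≤ M) :
    ∃ a b A B : ℕ → G, (∀ j, a j ∈ S ∧ b j ∈ S ∧ A j ∈ S ∧ B j ∈ S) ∧
      (∀ j, Pos (a j) ∧ Pos (b j) ∧ Pos (A j) ∧ Pos (B j)) ∧
      (∀ j, ‖a j‖ ≤ M ^ 2 ∧ ‖b j‖ ≤ M ^ 2 ∧ ‖A j‖ ≤ M ^ 2 ∧ ‖B j‖ ≤ M ^ 2) ∧
      (∀ i j, a i * b j = 0) ∧ (∀ i j, A i * B j = 0) ∧
      (∀ j, ‖A j * b j‖ ≤ M * η) ∧ (∀ j, ‖a j * B j‖ ≤ M * η) ∧
      ∀ (Q : Type v) [CStarAlgebra Q] (π : G →⋆ₐ[ℂ] Q),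
        (3 * g ≤ ‖π x‖ ^ 2 ∨ 3 * g ≤ ‖π y‖ ^ 2) → ∃ i ≤ 3,
          (∀ j < i, g ≤ ‖π (a j)‖ ∧ g ≤ ‖π (b j)‖) ∧
          ∀ l ≤ 3, i < l → g ≤ ‖π (A l)‖ ∧ g ≤ ‖π (B l)‖ := by
  have hr : ∀ j : ℕ, 0 ≤ (j : ℝ) * g := fun j => by positivity
  have ma : ∀ j : ℕ, twoP (j * g) x ∈ S := fun j => twoP_mem S hS mx _
  have mb : ∀ j : ℕ, twoP (j * g) (star x) ∈ S := fun j => twoP_mem S hS (star_mem mx) _
  choose A mA pA nA cA eA hA using fun j : ℕ => two_conj.{u, v} S hS my (mb j) hη hy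
  choose B mB pB nB cB eB hB using fun j : ℕ =>
    two_conj.{u, v} S hS (star_mem my) (ma j) hη ((norm_star y).trans_le hy)
  have hM2 : ‖x‖ ^ 2 ≤ M ^ 2 := pow_le_pow_left₀ (norm_nonneg _) hx 2
  refine ⟨fun j => twoP (j * g) x, fun j => twoP (j * g) (star x), A, B,
    fun j => ⟨ma j, mb j, mA j, mB j⟩, fun j => ⟨twoP_pos _ _, twoP_pos _ _, pA j, pB j⟩,
    fun j => ⟨(twoP_norm_le (hr j) x).trans hM2, ?_, nA j, nB j⟩,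
    fun i j => twoP_orth nx (hr i) (hr j), fun i j => ?_, cA, fun j => ?_, ?_⟩
  · refine (twoP_norm_le (hr j) _).trans ?_
    rwa [norm_star]
  · obtain ⟨k, hk⟩ := eA i
    obtain ⟨k', hk'⟩ := eB j
    rw [hk, hk', star_star]
    calc star y * k * y * (y * k' * star y) = star y * k * (y * y) * k' * star y := by
          simp only [mul_assoc]
      _ = 0 := by rw [ny, mul_zero, zero_mul, zero_mul]
  · rw [← norm_star, star_mul, (pB j).isSelfAdjoint.star_eq, (twoP_pos _ _).isSelfAdjoint.star_eq]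
    exact cB j
  · intro Q _ π h
    have K1 : ∀ j : ℕ, ((j : ℝ) + 1) * g ≤ ‖π x‖ ^ 2 →
        g ≤ ‖π (twoP (j * g) x)‖ ∧ g ≤ ‖π (twoP (j * g) (star x))‖ := fun j hj => by
      rw [twoP_map, twoP_map]
      refine ⟨twoP_norm_ge (hr j) (by linarith), twoP_norm_ge (hr j) ?_⟩
      rw [map_star, norm_star]
      linarith
    have K2 : ∀ l : ℕ, ‖π x‖ ^ 2 ≤ (l : ℝ) * g → ‖π x‖ ^ 2 < 3 * g →
        g ≤ ‖π (A l)‖ ∧ g ≤ ‖π (B l)‖ := fun l hl h3 => by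
      have h4 : 3 * g ≤ ‖π y‖ ^ 2 := h.resolve_left (not_le.2 h3)
      rw [hA l Q π (by rw [twoP_map]; exact twoP_eq_zero (by rwa [map_star, norm_star])),
        hB l Q π (by rw [twoP_map]; exact twoP_eq_zero hl), map_star, norm_star]
      exact ⟨by linarith, by linarith⟩
    have K3 : ∀ i : ℕ, i ≤ 3 → (i : ℝ) * g ≤ ‖π x‖ ^ 2 → (i < 3 → ‖π x‖ ^ 2 < (i + 1) * g) →
        ∃ i ≤ 3, (∀ j : ℕ, j < i → g ≤ ‖π (twoP (j * g) x)‖ ∧ g ≤ ‖π (twoP (j * g) (star x))‖) ∧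
          ∀ l : ℕ, l ≤ 3 → i < l → g ≤ ‖π (A l)‖ ∧ g ≤ ‖π (B l)‖ := fun i hi h1 h2 => by
      refine ⟨i, hi, fun j hj => K1 j (le_trans ?_ h1), fun l hl hil => ?_⟩
      · have : (j : ℝ) + 1 ≤ i := by exact_mod_cast hj
        exact mul_le_mul_of_nonneg_right this hg.le
      · have e1 : (i : ℝ) + 1 ≤ l := by exact_mod_cast hil
        have e2 : (l : ℝ) ≤ 3 := by exact_mod_cast hl
        have h5 := h2 (hil.trans_le hl)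
        have e3 := mul_le_mul_of_nonneg_right e1 hg.le
        have e4 := mul_le_mul_of_nonneg_right e2 hg.le
        exact K2 l (by linarith) (by linarith)
    rcases lt_or_ge (‖π x‖ ^ 2) g with c1 | c1
    · exact K3 0 (by norm_num) (by simp) fun _ => by simpa using c1
    rcases lt_or_ge (‖π x‖ ^ 2) (2 * g) with c2 | c2
    · exact K3 1 (by norm_num) (by simpa using c1) fun _ => by push_cast; linarith
    rcases lt_or_ge (‖π x‖ ^ 2) (3 * g) with c3 | c3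
    · exact K3 2 (by norm_num) (by simpa using c2) fun _ => by push_cast; linarith
    · exact K3 3 le_rfl (by simpa using c3) fun h => absurd h (lt_irrefl _)

lemma two_pos_mul {a b : G} (ha : Pos a) (hb : Pos b) (h : Commute a b) : Pos (a * b) := by
  let _ := CStarAlgebra.spectralOrder G
  have _ := CStarAlgebra.spectralOrderedRing G
  exact pos_iff.2 (h.mul_nonneg (pos_iff.1 ha) (pos_iff.1 hb))

lemma two_pos_add {a b : G} (ha : Pos a) (hb : Pos b) : Pos (a + b) := by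
  let _ := CStarAlgebra.spectralOrder G
  have _ := CStarAlgebra.spectralOrderedRing G
  exact pos_iff.2 (add_nonneg (pos_iff.1 ha) (pos_iff.1 hb))

lemma two_sum {a b c d : G} (ha : Pos a) (hb : Pos b) (hc : Pos c) (hd : Pos d) {r : ℝ}
    (h : r ≤ ‖a‖ ∨ r ≤ ‖b‖ ∨ r ≤ ‖c‖ ∨ r ≤ ‖d‖) : r ≤ ‖a + b + c + d‖ := by
  let _ := CStarAlgebra.spectralOrder G
  have _ := CStarAlgebra.spectralOrderedRing G
  rw [pos_iff] at ha hb hc hd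
  rcases h with h | h | h | h
  · exact h.trans (CStarAlgebra.norm_le_norm_of_nonneg_of_le ha
      (le_add_of_le_of_nonneg (le_add_of_le_of_nonneg (le_add_of_nonneg_right hb) hc) hd))
  · exact h.trans (CStarAlgebra.norm_le_norm_of_nonneg_of_le hb
      (le_add_of_le_of_nonneg (le_add_of_le_of_nonneg (le_add_of_nonneg_left ha) hc) hd))
  · exact h.trans (CStarAlgebra.norm_le_norm_of_nonneg_of_le hc
      (le_add_of_le_of_nonneg (le_add_of_nonneg_left (add_nonneg ha hb)) hd))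
  · exact h.trans (CStarAlgebra.norm_le_norm_of_nonneg_of_le hd
      (le_add_of_nonneg_left (add_nonneg (add_nonneg ha hb) hc)))

theorem two_letter (S₁ S₂ T : StarSubalgebra ℂ G) (h₁ : IsClosed (S₁ : Set G))
    (h₂ : IsClosed (S₂ : Set G)) (hT : IsClosed (T : Set G)) (l₁ : S₁ ≤ T) (l₂ : S₂ ≤ T)
    (hc : ∀ a ∈ S₁, ∀ b ∈ S₂, Commute a b) {x y x' y' : G} (mx : x ∈ S₁) (my : y ∈ S₁)
    (mx' : x' ∈ S₂) (my' : y' ∈ S₂) (nx : x * x = 0) (ny : y * y = 0) (nx' : x' * x' = 0)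
    (ny' : y' * y' = 0) {γ : ℝ} (hγ : 0 < γ) :
    ∃ e₁ ∈ T, ∃ e₂ ∈ T, IsSelfAdjoint e₁ ∧ IsSelfAdjoint e₂ ∧ e₁ * e₂ = 0 ∧
      ∀ (Q : Type v) [CStarAlgebra Q] (π : G →⋆ₐ[ℂ] Q),
        (∀ a ∈ S₁, ∀ b ∈ S₂, π a * π b = 0 → π a = 0 ∨ π b = 0) →
        (γ ≤ ‖π x‖ ∨ γ ≤ ‖π y‖) → (γ ≤ ‖π x'‖ ∨ γ ≤ ‖π y'‖) → π e₁ ≠ 0 ∧ π e₂ ≠ 0 := by
  obtain ⟨g, hg, eg⟩ : ∃ g : ℝ, 0 < g ∧ 3 * g = γ ^ 2 := ⟨γ ^ 2 / 3, by positivity, by ring⟩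
  obtain ⟨M, hM, b1, b2, b3, b4⟩ : ∃ M : ℝ, 0 < M ∧ ‖x‖ ≤ M ∧ ‖y‖ ≤ M ∧ ‖x'‖ ≤ M ∧ ‖y'‖ ≤ M := by
    have := norm_nonneg x
    have := norm_nonneg y
    have := norm_nonneg x'
    have := norm_nonneg y'
    exact ⟨1 + ‖x‖ + ‖y‖ + ‖x'‖ + ‖y'‖, by linarith, by linarith, by linarith, by linarith,
      by linarith⟩
  obtain ⟨η, hη, eη⟩ : ∃ η : ℝ, 0 < η ∧ 4 * (M * η * (M ^ 2 * M ^ 2)) < (g ^ 2 / 4) ^ 2 := by
    refine ⟨(g ^ 2 / 4) ^ 2 / (8 * M ^ 5), by positivity, ?_⟩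
    have e : 4 * (M * ((g ^ 2 / 4) ^ 2 / (8 * M ^ 5)) * (M ^ 2 * M ^ 2)) =
        (g ^ 2 / 4) ^ 2 / 2 := by field_simp; ring
    rw [e]
    exact half_lt_self (by positivity)
  obtain ⟨a, b, A, B, m, p, n, ab, AB, Ab, aB, K⟩ :=
    two_copy.{u, v} S₁ h₁ mx my nx ny hg hη b1 b2
  obtain ⟨a', b', A', B', m', p', n', ab', AB', Ab', aB', K'⟩ :=
    two_copy.{u, v} S₂ h₂ mx' my' nx' ny' hg hη b3 b4
  have sw : ∀ {u u' v v' : G}, u' ∈ S₂ → v ∈ S₁ → u * u' * (v * v') = u * v * (u' * v') :=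
    fun {u u' v v'} h1 h2 => by
      rw [mul_assoc, ← mul_assoc u', ← (hc v h2 u' h1).eq]; simp only [mul_assoc]
  have hM2 : 0 ≤ M ^ 2 := by positivity
  have nn : ∀ {u v : G}, ‖u‖ ≤ M ^ 2 → ‖v‖ ≤ M ^ 2 → ‖u * v‖ ≤ M ^ 2 * M ^ 2 := fun h1 h2 =>
    (norm_mul_le _ _).trans (mul_le_mul h1 h2 (norm_nonneg _) hM2)
  have nl : ∀ {u v : G}, ‖u‖ ≤ M * η → ‖v‖ ≤ M ^ 2 * M ^ 2 →
      ‖u * v‖ ≤ M * η * (M ^ 2 * M ^ 2) := fun h1 h2 =>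
    (norm_mul_le _ _).trans (mul_le_mul h1 h2 (norm_nonneg _) (by positivity))
  have nr : ∀ {u v : G}, ‖u‖ ≤ M ^ 2 * M ^ 2 → ‖v‖ ≤ M * η →
      ‖u * v‖ ≤ M * η * (M ^ 2 * M ^ 2) := fun h1 h2 =>
    (norm_mul_le _ _).trans ((mul_le_mul h1 h2 (norm_nonneg _) (by positivity)).trans_eq
      (mul_comm _ _))
  obtain ⟨X, hX⟩ : ∃ X, X = A 1 * A' 3 + A 3 * a' 1 + a 0 * A' 2 + a 2 * a' 0 := ⟨_, rfl⟩
  obtain ⟨Y, hY⟩ : ∃ Y, Y = b 0 * B' 1 + b 1 * b' 0 + B 2 * B' 3 + B 2 * b' 2 := ⟨_, rfl⟩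
  have pm : ∀ {u v : G}, u ∈ S₁ → v ∈ S₂ → Pos u → Pos v → Pos (u * v) := fun h1 h2 h3 h4 =>
    two_pos_mul h3 h4 (hc _ h1 _ h2)
  have x1 := pm (m 1).2.2.1 (m' 3).2.2.1 (p 1).2.2.1 (p' 3).2.2.1
  have x2 := pm (m 3).2.2.1 (m' 1).1 (p 3).2.2.1 (p' 1).1
  have x3 := pm (m 0).1 (m' 2).2.2.1 (p 0).1 (p' 2).2.2.1
  have x4 := pm (m 2).1 (m' 0).1 (p 2).1 (p' 0).1
  have y1 := pm (m 0).2.1 (m' 1).2.2.2 (p 0).2.1 (p' 1).2.2.2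
  have y2 := pm (m 1).2.1 (m' 0).2.1 (p 1).2.1 (p' 0).2.1
  have y3 := pm (m 2).2.2.2 (m' 3).2.2.2 (p 2).2.2.2 (p' 3).2.2.2
  have y4 := pm (m 2).2.2.2 (m' 2).2.1 (p 2).2.2.2 (p' 2).2.1
  have pX : Pos X := hX ▸ two_pos_add (two_pos_add (two_pos_add x1 x2) x3) x4
  have pY : Pos Y := hY ▸ two_pos_add (two_pos_add (two_pos_add y1 y2) y3) y4
  have mm : ∀ {u v : G}, u ∈ S₁ → v ∈ S₂ → u * v ∈ T := fun h1 h2 => mul_mem (l₁ h1) (l₂ h2)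
  have mX : X ∈ T := hX ▸ add_mem (add_mem (add_mem (mm (m 1).2.2.1 (m' 3).2.2.1)
    (mm (m 3).2.2.1 (m' 1).1)) (mm (m 0).1 (m' 2).2.2.1)) (mm (m 2).1 (m' 0).1)
  have mY : Y ∈ T := hY ▸ add_mem (add_mem (add_mem (mm (m 0).2.1 (m' 1).2.2.2)
    (mm (m 1).2.1 (m' 0).2.1)) (mm (m 2).2.2.2 (m' 3).2.2.2)) (mm (m 2).2.2.2 (m' 2).2.1)
  have eXY : X * Y = A 1 * b 1 * (A' 3 * b' 0) + A 3 * b 0 * (a' 1 * B' 1) +
      a 0 * B 2 * (A' 2 * b' 2) + a 2 * B 2 * (a' 0 * B' 3) := by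
    rw [hX, hY]
    simp only [add_mul, mul_add]
    simp only [sw (m' _).1 (m _).2.1, sw (m' _).1 (m _).2.2.2, sw (m' _).2.2.1 (m _).2.1,
      sw (m' _).2.2.1 (m _).2.2.2, ab, AB, ab', AB', zero_mul, mul_zero, add_zero, zero_add]
    abel
  have nXY : ‖X * Y‖ < (g ^ 2 / 4) ^ 2 := by
    rw [eXY]
    have t1 := nl (Ab 1) (nn (n' 3).2.2.1 (n' 0).2.1)
    have t2 := nr (nn (n 3).2.2.1 (n 0).2.1) (aB' 1)
    have t3 := nr (nn (n 0).1 (n 2).2.2.2) (Ab' 2)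
    have t4 := nl (aB 2) (nn (n' 0).1 (n' 3).2.2.2)
    have := norm_add₄_le (a := A 1 * b 1 * (A' 3 * b' 0)) (b := A 3 * b 0 * (a' 1 * B' 1))
      (c := a 0 * B 2 * (A' 2 * b' 2)) (d := a 2 * B 2 * (a' 0 * B' 3))
    linarith
  have nYX : ‖Y * X‖ < (g ^ 2 / 4) ^ 2 := by
    rwa [← norm_star, star_mul, pX.isSelfAdjoint.star_eq, pY.isSelfAdjoint.star_eq]
  have hs : IsSelfAdjoint (X - Y) := pX.isSelfAdjoint.sub pY.isSelfAdjoint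
  have hs' : IsSelfAdjoint (Y - X) := pY.isSelfAdjoint.sub pX.isSelfAdjoint
  have hf : Continuous fun t : ℝ => max t 0 := by fun_prop
  refine ⟨cfc (fun t : ℝ => max t 0) (X - Y), cfc_mem _ (sub_mem mX mY),
    cfc (fun t : ℝ => max t 0) (Y - X), cfc_mem _ (sub_mem mY mX), cfc_predicate _ _,
    cfc_predicate _ _, ?_, fun Q _ π hπ hq hq' => ?_⟩
  · rw [← neg_sub X Y, ← cfc_comp_neg (fun t : ℝ => max t 0) (X - Y), ← cfc_mul ..,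
      ← cfc_const_zero ℝ (X - Y)]
    refine cfc_congr fun t _ => ?_
    rcases le_total t 0 with h | h
    · simp only [max_eq_right h, zero_mul]
    · simp only [max_eq_right (neg_nonpos.2 h), mul_zero]
  have sq3 : ∀ r : ℝ, γ ≤ r → 3 * g ≤ r ^ 2 := fun r h => eg ▸ pow_le_pow_left₀ hγ.le h 2
  obtain ⟨i, hi, k1, k2⟩ := K Q π (hq.imp (sq3 _) (sq3 _))
  obtain ⟨j, hj, k1', k2'⟩ := K' Q π (hq'.imp (sq3 _) (sq3 _))
  have pr : ∀ {u v : G}, u ∈ S₁ → v ∈ S₂ → Pos u → Pos v → g ≤ ‖π u‖ → g ≤ ‖π v‖ →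
      g ^ 2 / 4 ≤ ‖π (u * v)‖ := fun h1 h2 h3 h4 h5 h6 =>
    two_prod S₁ S₂ h₁ h₂ hc π hπ h1 h2 h3 h4 hg h5 h6
  have lX : g ^ 2 / 4 ≤ ‖π X‖ := by
    rw [hX, map_add, map_add, map_add]
    refine two_sum (x1.map π) (x2.map π) (x3.map π) (x4.map π) ?_
    have : (i < 1 ∧ j < 3) ∨ (i < 3 ∧ 1 < j) ∨ (0 < i ∧ j < 2) ∨ (2 < i ∧ 0 < j) := by omega
    refine this.imp (fun h => ?_) (Or.imp (fun h => ?_) (Or.imp (fun h => ?_) fun h => ?_))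
    · exact pr (m 1).2.2.1 (m' 3).2.2.1 (p 1).2.2.1 (p' 3).2.2.1 (k2 1 (by norm_num) h.1).1
        (k2' 3 le_rfl h.2).1
    · exact pr (m 3).2.2.1 (m' 1).1 (p 3).2.2.1 (p' 1).1 (k2 3 le_rfl h.1).1 (k1' 1 h.2).1
    · exact pr (m 0).1 (m' 2).2.2.1 (p 0).1 (p' 2).2.2.1 (k1 0 h.1).1 (k2' 2 (by norm_num) h.2).1
    · exact pr (m 2).1 (m' 0).1 (p 2).1 (p' 0).1 (k1 2 h.1).1 (k1' 0 h.2).1
  have lY : g ^ 2 / 4 ≤ ‖π Y‖ := by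
    rw [hY, map_add, map_add, map_add]
    refine two_sum (y1.map π) (y2.map π) (y3.map π) (y4.map π) ?_
    have : (0 < i ∧ j < 1) ∨ (1 < i ∧ 0 < j) ∨ (i < 2 ∧ j < 3) ∨ (i < 2 ∧ 2 < j) := by omega
    refine this.imp (fun h => ?_) (Or.imp (fun h => ?_) (Or.imp (fun h => ?_) fun h => ?_))
    · exact pr (m 0).2.1 (m' 1).2.2.2 (p 0).2.1 (p' 1).2.2.2 (k1 0 h.1).2
        (k2' 1 (by norm_num) h.2).2
    · exact pr (m 1).2.1 (m' 0).2.1 (p 1).2.1 (p' 0).2.1 (k1 1 h.1).2 (k1' 0 h.2).2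
    · exact pr (m 2).2.2.2 (m' 3).2.2.2 (p 2).2.2.2 (p' 3).2.2.2 (k2 2 (by norm_num) h.1).2
        (k2' 3 le_rfl h.2).2
    · exact pr (m 2).2.2.2 (m' 2).2.1 (p 2).2.2.2 (p' 2).2.1 (k2 2 (by norm_num) h.1).2
        (k1' 2 h.2).2
  have fin : ∀ {U V : G}, Pos U → Pos V → g ^ 2 / 4 ≤ ‖π U‖ → ‖U * V‖ < (g ^ 2 / 4) ^ 2 →
      π (cfc (fun t : ℝ => max t 0) (U - V)) ≠ 0 := fun {U V} pU pV h1 h2 h0 => by
    rw [map_cfc_real π hf (pU.isSelfAdjoint.sub pV.isSelfAdjoint), map_sub] at h0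
    have h3 := two_final (pU.map π) h0 (pV.map π).isSelfAdjoint
    rw [← map_mul] at h3
    have h4 : ‖π (U * V)‖ ≤ ‖U * V‖ := NonUnitalStarAlgHom.norm_apply_le π _
    have h5 := pow_le_pow_left₀ (by positivity) h1 2
    linarith
  exact ⟨fin pX pY lX nXY, fin pY pX lY nYX⟩

end Vale.Agent.P101
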