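import Vale.Agent.P101.Prime

/-! Auxiliary estimates for the two-letter lemma. -/

namespace Vale.Agent.P101
universe u v
variable {G : Type u} [CStarAlgebra G]

lemma two_cut (S : StarSubalgebra ℂ G) (hS : IsClosed (S : Set G)) {z : G} (hz : z ∈ S) {η : ℝ}
    (hη : 0 < η) : ∃ k ∈ S, Pos k ∧ ‖k‖ ≤ 1 ∧ ‖k * z‖ ≤ η ∧
      ∀ (Q : Type v) [CStarAlgebra Q] (π : G →⋆ₐ[ℂ] Q), π z = 0 → π k = 1 := by
  let _ := CStarAlgebra.spectralOrder G
  have _ := CStarAlgebra.spectralOrderedRing G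
  have hw : 0 ≤ z * star z := mul_star_self_nonneg z
  have hsa : IsSelfAdjoint (z * star z) := hw.isSelfAdjoint
  have hsp : ∀ t ∈ spectrum ℝ (z * star z), 0 ≤ t := fun t ht => spectrum_nonneg_of_nonneg hw ht
  have hpos : ∀ t : ℝ, 0 < η ^ 2 + |t| := fun t => by positivity
  obtain ⟨f, hc, hf⟩ : ∃ f : ℝ → ℝ, Continuous f ∧ ∀ t, f t = η ^ 2 * (η ^ 2 + |t|)⁻¹ :=
    ⟨_, continuous_const.mul (Continuous.inv₀ (by fun_prop) fun t => (hpos t).ne'), fun _ => rfl⟩
  have hf0 : ∀ t, 0 ≤ f t := fun t => by rw [hf]; have := hpos t; positivity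
  have hks : IsSelfAdjoint (cfc f (z * star z)) := cfc_predicate _ _
  refine ⟨cfc f (z * star z), cfc_mem f (mul_mem hz (star_mem hz)), ?_, ?_, ?_, ?_⟩
  · exact pos_iff.2 (cfc_nonneg fun t _ => hf0 t)
  · refine norm_cfc_le zero_le_one fun t _ => ?_
    rw [Real.norm_of_nonneg (hf0 t), hf, ← div_eq_mul_inv, div_le_one (hpos t)]
    have := abs_nonneg t
    linarith
  · have h1 : cfc f (z * star z) * z * star (cfc f (z * star z) * z) =
        cfc (fun t : ℝ => f t * t * f t) (z * star z) := by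
      rw [cfc_mul (fun t => f t * t) f _, cfc_mul f (fun t => t) _, cfc_id' ℝ _, star_mul,
        hks.star_eq]
      simp only [mul_assoc]
    have h2 : ‖cfc f (z * star z) * z‖ * ‖cfc f (z * star z) * z‖ ≤ η * η := by
      rw [← CStarRing.norm_self_mul_star, h1]
      refine norm_cfc_le (by positivity) fun t ht => ?_
      have h0 := hsp t ht
      have := hpos t
      rw [hf]
      rw [abs_of_nonneg h0] at this ⊢
      rw [Real.norm_of_nonneg (by positivity)]
      have h3 : η ^ 2 * (η ^ 2 + t)⁻¹ * t * (η ^ 2 * (η ^ 2 + t)⁻¹) =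
          η * η * ((η ^ 2 * t) / (η ^ 2 + t) ^ 2) := by field_simp
      rw [h3]
      refine mul_le_of_le_one_right (by positivity) ?_
      rw [div_le_one (by positivity)]
      nlinarith [sq_nonneg (η ^ 2), sq_nonneg t, mul_nonneg (sq_nonneg η) h0]
    exact (mul_self_le_mul_self_iff (norm_nonneg _) hη.le).2 h2
  · intro Q _ π h
    rw [map_cfc_real π hc hsa, map_mul, h, zero_mul, cfc_apply_zero, hf, abs_zero, add_zero,
      mul_inv_cancel₀ (by positivity), map_one]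

/-- `(w* w - r)₊`. -/
noncomputable def twoP (r : ℝ) (w : G) : G := cfc (fun t : ℝ => max (t - r) 0) (star w * w)

lemma twoP_mem (S : StarSubalgebra ℂ G) (hS : IsClosed (S : Set G)) {w : G} (hw : w ∈ S) (r : ℝ) :
    twoP r w ∈ S := cfc_mem _ (mul_mem (star_mem hw) hw)

lemma twoP_pos (r : ℝ) (w : G) : Pos (twoP r w) := by
  let _ := CStarAlgebra.spectralOrder G
  have _ := CStarAlgebra.spectralOrderedRing G
  exact pos_iff.2 (cfc_nonneg fun t _ => le_max_right _ _)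

lemma twoP_map {Q : Type v} [CStarAlgebra Q] (π : G →⋆ₐ[ℂ] Q) (r : ℝ) (w : G) :
    π (twoP r w) = twoP r (π w) := by
  rw [twoP, map_cfc_real π (by fun_prop) (IsSelfAdjoint.star_mul_self w), map_mul, map_star, twoP]

lemma two_spec_le (w : G) {t : ℝ} (ht : t ∈ spectrum ℝ (star w * w)) : t ≤ ‖w‖ ^ 2 := by
  have h := norm_apply_le_norm_cfc (fun s : ℝ => s) (star w * w) ht
    (by fun_prop) (IsSelfAdjoint.star_mul_self w)
  rw [cfc_id' ℝ _ (IsSelfAdjoint.star_mul_self w), CStarRing.norm_star_mul_self] at h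
  rw [sq]
  exact (le_abs_self t).trans h

lemma twoP_norm_le {r : ℝ} (hr : 0 ≤ r) (w : G) : ‖twoP r w‖ ≤ ‖w‖ ^ 2 := by
  refine norm_cfc_le (by positivity) fun t ht => ?_
  rw [Real.norm_of_nonneg (le_max_right _ _)]
  have := two_spec_le w ht
  exact max_le (by linarith) (by positivity)

lemma twoP_eq_zero {r : ℝ} {w : G} (h : ‖w‖ ^ 2 ≤ r) : twoP r w = 0 := by
  rw [twoP, ← cfc_const_zero ℝ (star w * w)]
  refine cfc_congr fun t ht => ?_
  have := two_spec_le w ht
  exact max_eq_right (by linarith)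

lemma twoP_norm_ge {r g : ℝ} (hr : 0 ≤ r) {w : G} (h : r + g ≤ ‖w‖ ^ 2) : g ≤ ‖twoP r w‖ := by
  let _ := CStarAlgebra.spectralOrder G
  have _ := CStarAlgebra.spectralOrderedRing G
  rcases subsingleton_or_nontrivial G with hG | hG
  · rw [Subsingleton.elim w 0, norm_zero] at h
    have := norm_nonneg (twoP r w)
    nlinarith
  have h1 := CStarAlgebra.norm_mem_spectrum_of_nonneg (star_mul_self_nonneg w)
  have h2 := norm_apply_le_norm_cfc (fun t : ℝ => max (t - r) 0) (star w * w) h1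
    (by fun_prop) (IsSelfAdjoint.star_mul_self w)
  rw [Real.norm_of_nonneg (le_max_right _ _), CStarRing.norm_star_mul_self] at h2
  refine le_trans ?_ h2
  exact le_max_of_le_left (by nlinarith)

lemma twoP_orth {x : G} (hx : x * x = 0) {r s : ℝ} (hr : 0 ≤ r) (hs : 0 ≤ s) :
    twoP r x * twoP s (star x) = 0 := by
  have h1 : twoP r x * x = 0 := by
    rw [twoP, cfc_mul_of_eigen (IsSelfAdjoint.star_mul_self x) (t := 0)
      (by rw [mul_assoc, hx, mul_zero, zero_smul]) (by fun_prop), max_eq_right (by linarith),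
      zero_smul]
  have h2 : twoP s (star x) * twoP r x = 0 := by
    have h3 : star x * twoP r x = 0 := by
      have := congrArg star h1
      rwa [star_mul, (twoP_pos r x).isSelfAdjoint.star_eq, star_zero] at this
    rw [twoP, cfc_mul_of_eigen (IsSelfAdjoint.star_mul_self (star x)) (t := 0)
      (by rw [mul_assoc, h3, mul_zero, zero_smul]) (by fun_prop), max_eq_right (by linarith),
      zero_smul]
  have := congrArg star h2
  rwa [star_mul, (twoP_pos r x).isSelfAdjoint.star_eq, (twoP_pos s _).isSelfAdjoint.star_eq,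
    star_zero] at this

lemma two_lift {u : G} (hu : IsSelfAdjoint u) {g : ℝ} (hg : 0 < g) :
    ∃ w : G, ‖w‖ ≤ 2 / g ∧ (∀ a, Commute u a → Commute w a) ∧
      w * u * cfc (fun t : ℝ => max (t - g / 2) 0) u = cfc (fun t : ℝ => max (t - g / 2) 0) u := by
  have hc := continuous_inv_max (half_pos hg)
  refine ⟨cfc (fun t : ℝ => (max (g / 2) t)⁻¹) u, ?_, fun a ha => ha.cfc_real _, ?_⟩
  · refine norm_cfc_le (by positivity) fun t _ => ?_
    have h1 : 0 < max (g / 2) t := lt_max_of_lt_left (half_pos hg)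
    rw [Real.norm_of_nonneg (inv_nonneg.2 h1.le), ← inv_div g 2]
    exact inv_anti₀ (half_pos hg) (le_max_left _ _)
  · nth_rw 2 [← cfc_id' ℝ u]
    have hc2 : Continuous fun t : ℝ => (max (g / 2) t)⁻¹ * t := hc.mul continuous_id'
    rw [← cfc_mul _ _ u hc.continuousOn,
      ← cfc_mul _ (fun t : ℝ => max (t - g / 2) 0) u hc2.continuousOn]
    refine cfc_congr fun t _ => ?_
    rcases le_total t (g / 2) with h | h
    · simp only [max_eq_right (show t - g / 2 ≤ 0 by linarith), mul_zero]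
    · simp only [max_eq_right h]
      rw [inv_mul_cancel₀ (by linarith), one_mul]

lemma two_cut_ne {u : G} (hu : Pos u) {g : ℝ} (hg : 0 < g) (h : g ≤ ‖u‖) :
    cfc (fun t : ℝ => max (t - g / 2) 0) u ≠ 0 := by
  obtain ⟨b, rfl⟩ := hu
  have := twoP_norm_ge (r := g / 2) (g := g / 2) (w := b) (by positivity)
    (by rw [sq, ← CStarRing.norm_star_mul_self]; linarith)
  intro h0
  rw [twoP, h0, norm_zero] at this
  linarith

lemma two_prod (S₁ S₂ : StarSubalgebra ℂ G) (h₁ : IsClosed (S₁ : Set G))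
    (h₂ : IsClosed (S₂ : Set G)) (hc : ∀ a ∈ S₁, ∀ b ∈ S₂, Commute a b)
    {Q : Type v} [CStarAlgebra Q] (π : G →⋆ₐ[ℂ] Q)
    (hπ : ∀ a ∈ S₁, ∀ b ∈ S₂, π a * π b = 0 → π a = 0 ∨ π b = 0) {u v : G} (mu : u ∈ S₁)
    (mv : v ∈ S₂) (pu : Pos u) (pv : Pos v) {g : ℝ} (hg : 0 < g) (nu : g ≤ ‖π u‖)
    (nv : g ≤ ‖π v‖) : g ^ 2 / 4 ≤ ‖π (u * v)‖ := by
  have hf : Continuous fun t : ℝ => max (t - g / 2) 0 := by fun_prop
  have hne : π (cfc (fun t : ℝ => max (t - g / 2) 0) u) *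
      π (cfc (fun t : ℝ => max (t - g / 2) 0) v) ≠ 0 := by
    intro h0
    rcases hπ _ (cfc_mem _ mu) _ (cfc_mem _ mv) h0 with h | h
    · rw [map_cfc_real π hf pu.isSelfAdjoint] at h
      exact two_cut_ne (pu.map π) hg nu h
    · rw [map_cfc_real π hf pv.isSelfAdjoint] at h
      exact two_cut_ne (pv.map π) hg nv h
  rw [map_cfc_real π hf pu.isSelfAdjoint, map_cfc_real π hf pv.isSelfAdjoint] at hne
  have cuv : Commute (π u) (π v) := (hc u mu v mv).map π
  obtain ⟨w, nw, cw, ew⟩ := two_lift (pu.map π).isSelfAdjoint hg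
  obtain ⟨w', nw', cw', ew'⟩ := two_lift (pv.map π).isSelfAdjoint hg
  rw [map_mul]
  generalize π u = U at *
  generalize π v = V at *
  have cP : Commute V (cfc (fun t : ℝ => max (t - g / 2) 0) U) := (cuv.cfc_real _).symm
  generalize cfc (fun t : ℝ => max (t - g / 2) 0) U = P at *
  generalize cfc (fun t : ℝ => max (t - g / 2) 0) V = R at *
  have e : w * w' * (U * V) * (P * R) = P * R := by
    have c1 : Commute w' U := cw' U cuv.symm
    have c2 : Commute w' P := cw' P cP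
    calc w * w' * (U * V) * (P * R) = w * (w' * U) * (V * P) * R := by simp only [mul_assoc]
      _ = w * U * (w' * P) * V * R := by rw [c1.eq, cP.eq]; simp only [mul_assoc]
      _ = (w * U * P) * (w' * V * R) := by rw [c2.eq]; simp only [mul_assoc]
      _ = P * R := by rw [ew, ew']
  have hpos : 0 < ‖P * R‖ := norm_pos_iff.2 hne
  have h1 : ‖P * R‖ ≤ 2 / g * (2 / g) * ‖U * V‖ * ‖P * R‖ := by
    nth_rw 1 [← e]
    refine (norm_mul_le _ _).trans (mul_le_mul_of_nonneg_right ?_ (norm_nonneg _))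
    refine (norm_mul_le _ _).trans (mul_le_mul_of_nonneg_right ?_ (norm_nonneg _))
    exact (norm_mul_le _ _).trans (mul_le_mul nw nw' (norm_nonneg _) (by positivity))
  have h2 : 1 ≤ 2 / g * (2 / g) * ‖U * V‖ := le_of_mul_le_mul_right (by linarith) hpos
  have h3 : g ^ 2 / 4 * (2 / g * (2 / g) * ‖U * V‖) = ‖U * V‖ := by field_simp; ring
  rw [← h3]
  exact le_mul_of_one_le_right (by positivity) h2

lemma two_final {A B : G} (hA : Pos A) (h : cfc (fun t : ℝ => max t 0) (A - B) = 0)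
    (hB : IsSelfAdjoint B) : ‖A‖ ^ 2 ≤ ‖A * B‖ := by
  let _ := CStarAlgebra.spectralOrder G
  have _ := CStarAlgebra.spectralOrderedRing G
  have hs : IsSelfAdjoint (A - B) := hA.isSelfAdjoint.sub hB
  have h1 : A - B ≤ 0 := by
    rw [← h]
    nth_rw 1 [← cfc_id' ℝ (A - B)]
    exact cfc_mono (fun t _ => le_max_left _ _)
  have h2 : A ≤ B := sub_nonpos.1 h1
  obtain ⟨b, hb⟩ := hA
  have hA0 : 0 ≤ A := hb ▸ star_mul_self_nonneg b
  have hAs := hA0.isSelfAdjoint
  have h3 : star A * A * A ≤ star A * B * A := star_left_conjugate_le_conjugate h2 A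
  have h4 := CStarAlgebra.norm_le_norm_of_nonneg_of_le (star_left_conjugate_nonneg hA0 A) h3
  rw [hAs.star_eq] at h4
  rcases eq_or_ne A 0 with rfl | hne
  · simp
  have hpos : 0 < ‖A‖ := norm_pos_iff.2 hne
  have h5 : ‖A‖ ^ 4 ≤ ‖A * A * A‖ * ‖A‖ := by
    have e1 : ‖A * A‖ = ‖A‖ * ‖A‖ := by
      nth_rw 1 [← hAs.star_eq]; exact CStarRing.norm_star_mul_self
    have e2 : ‖A * A * (A * A)‖ = ‖A * A‖ * ‖A * A‖ := by
      have : IsSelfAdjoint (A * A) := by
        nth_rw 1 [← hAs.star_eq]; exact IsSelfAdjoint.star_mul_self A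
      nth_rw 1 [← this.star_eq]; exact CStarRing.norm_star_mul_self
    calc ‖A‖ ^ 4 = ‖A * A * A * A‖ := by rw [mul_assoc (A * A), e2, e1]; ring
      _ ≤ _ := norm_mul_le _ _
  have h6 : ‖A * B * A‖ ≤ ‖A * B‖ * ‖A‖ := norm_mul_le _ _
  have h7 : ‖A‖ ^ 2 * (‖A‖ * ‖A‖) ≤ ‖A * B‖ * (‖A‖ * ‖A‖) := by
    calc ‖A‖ ^ 2 * (‖A‖ * ‖A‖) = ‖A‖ ^ 4 := by ring
      _ ≤ ‖A * A * A‖ * ‖A‖ := h5
      _ ≤ ‖A * B‖ * ‖A‖ * ‖A‖ := mul_le_mul_of_nonneg_right (h4.trans h6) hpos.le
      _ = _ := by ring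
  exact le_of_mul_le_mul_right h7 (by positivity)

end Vale.Agent.P101
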